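import Mathlib

open MeasureTheory ProbabilityTheory Real Set Filter Topology
open scoped ENNReal NNReal

namespace Vale.Agent.Lib.P226

noncomputable section

/-- The standard normal law on the line. -/
abbrev NN : Measure ℝ := gaussianReal 0 1

/-- The standard normal density. -/
def phi (x : ℝ) : ℝ := gaussianPDFReal 0 1 x

/-- Its value at the origin. -/
def phi0 : ℝ := (√(2 * π))⁻¹

lemma phi_eq (x : ℝ) : phi x = phi0 * rexp (-x ^ 2 / 2) := by
  simp [phi, phi0, gaussianPDFReal]

lemma phi0_pos : 0 < phi0 := by unfold phi0; positivity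

lemma phi_pos (x : ℝ) : 0 < phi x := by
  rw [phi_eq]; exact mul_pos phi0_pos (exp_pos _)

lemma phi_le_phi0 (x : ℝ) : phi x ≤ phi0 := by
  rw [phi_eq]
  have : rexp (-x ^ 2 / 2) ≤ 1 := by
    rw [exp_le_one_iff]; nlinarith [sq_nonneg x]
  nlinarith [phi0_pos]

lemma phi_zero : phi 0 = phi0 := by simp [phi_eq]

lemma hasDerivAt_phi (x : ℝ) : HasDerivAt phi (-(x * phi x)) x := by
  have h1 : HasDerivAt (fun x : ℝ => -x ^ 2 / 2) (-x) x := by
    have := ((hasDerivAt_pow 2 x).neg).div_const 2
    refine (this.congr_deriv ?_)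
    simp
    ring
  have h2 := (h1.exp).const_mul phi0
  have : phi = fun x => phi0 * rexp (-x ^ 2 / 2) := funext phi_eq
  rw [this]
  refine h2.congr_deriv ?_
  ring

lemma measurable_phi : Measurable phi := measurable_gaussianPDFReal 0 1

lemma tendsto_phi_atTop : Tendsto phi atTop (𝓝 0) := by
  have h : Tendsto (fun x : ℝ => -x ^ 2 / 2) atTop atBot := by
    have : Tendsto (fun x : ℝ => x ^ 2 / 2) atTop atTop :=
      (tendsto_pow_atTop (two_ne_zero)).atTop_div_const (by norm_num)
    have := tendsto_neg_atTop_atBot.comp this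
    refine this.congr (fun x => ?_)
    simp [neg_div]
  have h2 := (tendsto_exp_atBot.comp h).const_mul phi0
  simp only [mul_zero] at h2
  refine h2.congr (fun x => ?_)
  simp [phi_eq]

lemma tendsto_mul_phi_atTop : Tendsto (fun x => x * phi x) atTop (𝓝 0) := by
  have h := (tendsto_pow_mul_exp_neg_atTop_nhds_zero 1)
  have h3 : Tendsto (fun x : ℝ => x ^ 2 / 2) atTop atTop :=
      (tendsto_pow_atTop (two_ne_zero)).atTop_div_const (by norm_num)
  -- squeeze: x e^{-x²/2} ≤ x e^{-x + 1/2}
  have hsq : Tendsto (fun x : ℝ => phi0 * rexp (1 / 2) * (x ^ 1 * rexp (-x))) atTop (𝓝 0) := by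
    simpa using h.const_mul (phi0 * rexp (1 / 2))
  refine tendsto_of_tendsto_of_tendsto_of_le_of_le' tendsto_const_nhds hsq ?_ ?_
  · filter_upwards [eventually_ge_atTop 0] with x hx
    exact mul_nonneg hx (phi_pos x).le
  · filter_upwards [eventually_ge_atTop 0] with x hx
    rw [phi_eq]
    have : rexp (-x ^ 2 / 2) ≤ rexp (1 / 2) * rexp (-x) := by
      rw [← exp_add]
      apply exp_le_exp.mpr
      nlinarith [sq_nonneg (x - 1)]
    have h0 := phi0_pos
    calc x * (phi0 * rexp (-x ^ 2 / 2)) ≤ x * (phi0 * (rexp (1 / 2) * rexp (-x))) := by gcongr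
      _ = _ := by ring

lemma integrable_id_NN : Integrable (fun s : ℝ => s) NN :=
  (memLp_id_gaussianReal (μ := 0) (v := 1) 1).integrable (by norm_num)

lemma integrable_sq_NN : Integrable (fun s : ℝ => s ^ 2) NN := by
  have := (memLp_id_gaussianReal (μ := 0) (v := 1) 2).integrable_sq
  simpa using this

lemma integrable_abs_id_NN : Integrable (fun s : ℝ => |s|) NN := integrable_id_NN.abs

lemma setIntegral_NN (S : Set ℝ) (hS : MeasurableSet S) (f : ℝ → ℝ) :
    ∫ s in S, f s ∂NN = ∫ s in S, phi s * f s := by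
  rw [← integral_indicator hS, integral_gaussianReal_eq_integral_smul (μ := 0) (v := 1) one_ne_zero,
    ← integral_indicator hS]
  congr 1
  ext s
  by_cases hs : s ∈ S <;> simp [hs, phi]

lemma integrable_phi_mul {f : ℝ → ℝ} (hf : Integrable f NN) :
    Integrable (fun s => phi s * f s) := by
  have h1 : NN = volume.withDensity (gaussianPDF 0 1) :=
    gaussianReal_of_var_ne_zero 0 one_ne_zero
  rw [h1] at hf
  have hm : AEMeasurable (fun x => (gaussianPDFReal 0 1 x).toNNReal) := by
    exact ((measurable_gaussianPDFReal 0 1).real_toNNReal).aemeasurable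
  have h3 : gaussianPDF 0 1 = fun x => ((gaussianPDFReal 0 1 x).toNNReal : ℝ≥0∞) := rfl
  rw [h3] at hf
  have h2 := (integrable_withDensity_iff_integrable_smul₀ hm).1 hf
  refine h2.congr ?_
  filter_upwards with s
  simp [phi, NNReal.smul_def, Real.coe_toNNReal _ (gaussianPDFReal_nonneg 0 1 s)]

/-- First moment on a half-line. -/
lemma integral_Ioi_id (a : ℝ) : ∫ s in Ioi a, s ∂NN = phi a := by
  rw [setIntegral_NN _ measurableSet_Ioi]
  have h := integral_Ioi_of_hasDerivAt_of_tendsto' (f := fun s => -phi s)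
    (f' := fun s => phi s * s) (a := a) (m := 0)
    (fun x _ => by
      have := (hasDerivAt_phi x).fun_neg
      refine this.congr_deriv ?_
      ring)
    (integrable_phi_mul integrable_id_NN).integrableOn
    (by simpa using tendsto_phi_atTop.neg)
  rw [h]
  simp

/-- Second moment identity on a half-line. -/
lemma integral_Ioi_sq_sub_one (a : ℝ) : ∫ s in Ioi a, (s ^ 2 - 1) ∂NN = a * phi a := by
  rw [setIntegral_NN _ measurableSet_Ioi]
  have h := integral_Ioi_of_hasDerivAt_of_tendsto' (f := fun s => -(s * phi s))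
    (f' := fun s => phi s * (s ^ 2 - 1)) (a := a) (m := 0)
    (fun x _ => by
      have := (((hasDerivAt_id' x).fun_mul (hasDerivAt_phi x))).fun_neg
      refine this.congr_deriv ?_
      ring)
    ((integrable_phi_mul (integrable_sq_NN.sub (integrable_const 1))).integrableOn)
    (by simpa using tendsto_mul_phi_atTop.neg)
  rw [h]
  simp

/-- Upper truncated first moment. -/
def HH (a : ℝ) : ℝ := ∫ s, max (s - a) 0 ∂NN

lemma integrable_max_sub (a : ℝ) : Integrable (fun s : ℝ => max (s - a) 0) NN := by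
  have h : Integrable (fun s : ℝ => s - a) NN := integrable_id_NN.sub (integrable_const a)
  exact h.sup (integrable_zero _ _ _)

lemma indicator_eq_max (a s : ℝ) :
    (Ioi a).indicator (fun s => s - a) s = max (s - a) 0 := by
  by_cases h : a < s
  · simp [h, h.le]
  · have : s ≤ a := not_lt.mp h
    simp [h, this]

lemma HH_eq (a : ℝ) : HH a = phi a - a * NN.real (Ioi a) := by
  unfold HH
  have h1 : (fun s => max (s - a) 0) = (Ioi a).indicator (fun s => s - a) := by
    ext s; rw [indicator_eq_max]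
  rw [h1, integral_indicator measurableSet_Ioi, integral_sub
    integrable_id_NN.integrableOn (integrable_const a), integral_Ioi_id]
  simp [mul_comm]

/-- Gaussian tail lower bound with a free parameter. -/
lemma tail_lower (a t : ℝ) : phi a * (2 * t - a) ≤ (1 + t ^ 2) * NN.real (Ioi a) := by
  have h0 : 0 ≤ ∫ s in Ioi a, (s - t) ^ 2 ∂NN := setIntegral_nonneg measurableSet_Ioi
    (fun s _ => sq_nonneg _)
  have h1 : ∫ s in Ioi a, (s - t) ^ 2 ∂NN =
      ∫ s in Ioi a, ((s ^ 2 - 1) - 2 * t * s + (1 + t ^ 2)) ∂NN := by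
    congr 1; ext s; ring
  have i1 : IntegrableOn (fun s : ℝ => s ^ 2 - 1) (Ioi a) NN :=
    (integrable_sq_NN.sub (integrable_const 1)).integrableOn
  have i2 : IntegrableOn (fun s : ℝ => 2 * t * s) (Ioi a) NN :=
    (integrable_id_NN.const_mul _).integrableOn
  have i3 : IntegrableOn (fun s : ℝ => s ^ 2 - 1 - 2 * t * s) (Ioi a) NN := i1.sub i2
  rw [h1, integral_add i3 (integrable_const _), integral_sub i1 i2, integral_const_mul,
    integral_Ioi_sq_sub_one, integral_Ioi_id] at h0
  simp at h0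
  nlinarith

/-- The truncated moment is bounded by a Mills-type ratio. -/
lemma HH_le (a : ℝ) (ha : 0 ≤ a) : (1 + a ^ 2) * HH a ≤ phi a := by
  rw [HH_eq]
  have := tail_lower a a
  have h2 : a * (phi a * (2 * a - a)) ≤ a * ((1 + a ^ 2) * NN.real (Ioi a)) :=
    mul_le_mul_of_nonneg_left this ha
  nlinarith

lemma HH_nonneg (a : ℝ) : 0 ≤ HH a := integral_nonneg (fun _ => le_max_right _ _)

lemma HH_le_phi (a : ℝ) (ha : 0 ≤ a) : HH a ≤ phi a := by
  have := HH_le a ha
  nlinarith [HH_nonneg a, sq_nonneg a]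

lemma HH_le_phi0 (a : ℝ) (ha : 0 ≤ a) : HH a ≤ phi0 := (HH_le_phi a ha).trans (phi_le_phi0 a)

lemma HH_zero : HH 0 = phi0 := by
  rw [HH_eq, phi_zero]; simp

lemma real_Icc_le (p q : ℝ) (hpq : p ≤ q) : NN.real (Icc p q) ≤ (q - p) * phi0 := by
  have h1 : NN.real (Icc p q) = ∫ s in Icc p q, (1 : ℝ) ∂NN := by simp
  rw [h1, setIntegral_NN _ measurableSet_Icc]
  have h2 : ∫ s in Icc p q, phi s * 1 ≤ ∫ s in Icc p q, phi0 := by
    apply setIntegral_mono_on
    · exact (integrable_phi_mul (integrable_const (1 : ℝ))).integrableOn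
    · exact integrableOn_const (by simp) 
    · exact measurableSet_Icc
    · intro s _; simpa using phi_le_phi0 s
  refine h2.trans (le_of_eq ?_)
  simp [hpq]

lemma real_Iio_le (τ : ℝ) : NN.real (Iio τ) ≤ 1 - NN.real (Ioi τ) := by
  have h : Iio τ ⊆ (Ioi τ)ᶜ := by
    intro s hs; simp only [mem_compl_iff, mem_Ioi, not_lt]; exact (mem_Iio.mp hs).le
  calc NN.real (Iio τ) ≤ NN.real (Ioi τ)ᶜ := measureReal_mono h
    _ = 1 - NN.real (Ioi τ) := by
      rw [probReal_compl_eq_one_sub measurableSet_Ioi]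

/-- Truncated moment with a scale. -/
lemma integral_max_scale (σ a : ℝ) (hσ : 0 < σ) :
    ∫ s, max (σ * s - a) 0 ∂NN = σ * HH (a / σ) := by
  unfold HH
  rw [← integral_const_mul]
  congr 1
  ext s
  have : σ * s - a = σ * (s - a / σ) := by field_simp
  rw [this, mul_max_of_nonneg _ _ hσ.le, mul_zero]

end

end Vale.Agent.Lib.P226
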