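import Mathlib
import Vale.Agent.Lib.P226.Gauss1D

open MeasureTheory ProbabilityTheory Real Set Filter Topology
open scoped ENNReal NNReal RealInnerProductSpace

namespace Vale.Agent.Lib.P226

set_option linter.unusedSectionVars false

noncomputable section

variable {E : Type*} [NormedAddCommGroup E] [InnerProductSpace ℝ E] [FiniteDimensional ℝ E]
  [MeasurableSpace E] [BorelSpace E]

/-- Resampling the coordinate along `u`. -/
def QQ (u : E) (p : ℝ × E) : E := p.1 • u + (p.2 - ⟪u, p.2⟫ • u)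

lemma measurable_QQ (u : E) : Measurable (QQ u) := by
  unfold QQ
  have h1 : Measurable fun p : ℝ × E => ⟪u, p.2⟫ :=
    (continuous_const.inner continuous_id).measurable.comp measurable_snd
  exact (measurable_fst.smul_const u).add (measurable_snd.sub (h1.smul_const u))

omit [FiniteDimensional ℝ E] [MeasurableSpace E] [BorelSpace E] in
lemma inner_QQ (u t : E) (s : ℝ) (x : E) :
    ⟪t, QQ u (s, x)⟫ = s * ⟪t, u⟫ + ⟪t - ⟪t, u⟫ • u, x⟫ := by
  simp only [QQ, inner_add_right, inner_sub_right, inner_smul_right, inner_sub_left,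
    inner_smul_left, conj_trivial]
  rw [real_inner_comm x u]
  ring

lemma map_QQ (u : E) (hu : ‖u‖ = 1) :
    (NN.prod (stdGaussian E)).map (QQ u) = stdGaussian E := by
  have : IsProbabilityMeasure ((NN.prod (stdGaussian E)).map (QQ u)) :=
    Measure.isProbabilityMeasure_map (measurable_QQ u).aemeasurable
  apply Measure.ext_of_charFun
  ext t
  rw [charFun_apply, integral_map (measurable_QQ u).aemeasurable]
  · have h1 : ∀ p : ℝ × E, Complex.exp ((⟪QQ u p, t⟫ : ℂ) * Complex.I) =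
        Complex.exp ((⟪t, u⟫ * p.1 : ℝ) * Complex.I) *
        Complex.exp ((⟪p.2, t - ⟪t, u⟫ • u⟫ : ℝ) * Complex.I) := by
      intro p
      rw [← Complex.exp_add, real_inner_comm, show QQ u p = QQ u (p.1, p.2) from rfl,
        inner_QQ u t]
      congr 1
      rw [real_inner_comm p.2]
      push_cast
      ring
    simp_rw [h1]
    rw [integral_prod_mul (μ := NN) (ν := stdGaussian E)
      (fun s : ℝ => Complex.exp ((⟪t, u⟫ * s : ℝ) * Complex.I))
      (fun x : E => Complex.exp ((⟪x, t - ⟪t, u⟫ • u⟫ : ℝ) * Complex.I))]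
    have h2 := charFun_apply_real (μ := NN) (t := ⟪t, u⟫)
    have h3 := charFun_apply (μ := stdGaussian E) (t := t - ⟪t, u⟫ • u)
    rw [charFun_gaussianReal] at h2
    rw [charFun_stdGaussian] at h3
    have e1 : ∫ s : ℝ, Complex.exp ((⟪t, u⟫ * s : ℝ) * Complex.I) ∂NN =
        Complex.exp ((⟪t, u⟫ : ℂ) * ((0 : ℝ) : ℂ) * Complex.I -
          (((1 : ℝ≥0) : ℝ) : ℂ) * (⟪t, u⟫ : ℂ) ^ 2 / 2) := by
      rw [h2]
      congr 1
      ext s
      push_cast
      ring_nf
    rw [e1, ← h3, charFun_stdGaussian, ← Complex.exp_add]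
    congr 1
    have e2 : ‖t - ⟪t, u⟫ • u‖ ^ 2 = ‖t‖ ^ 2 - ⟪t, u⟫ ^ 2 := by
      rw [@norm_sub_sq_real, inner_smul_right, norm_smul, mul_pow, hu]
      simp
      ring
    rw [show ((‖t - ⟪t, u⟫ • u‖ : ℂ)) ^ 2 = (((‖t - ⟪t, u⟫ • u‖ ^ 2 : ℝ)) : ℂ) by push_cast; rfl,
      e2]
    push_cast
    ring
  · exact (Continuous.aestronglyMeasurable (by fun_prop))

lemma measure_eq_lintegral_QQ (u : E) (hu : ‖u‖ = 1) {S : Set E} (hS : MeasurableSet S) :
    stdGaussian E S = ∫⁻ x, NN {s | QQ u (s, x) ∈ S} ∂(stdGaussian E) := by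
  conv_lhs => rw [← map_QQ u hu]
  rw [Measure.map_apply (measurable_QQ u) hS, Measure.prod_apply_symm ((measurable_QQ u) hS)]
  rfl

lemma measure_eq_lintegral_QQ' (u : E) (hu : ‖u‖ = 1) {S : Set E} (hS : MeasurableSet S) :
    stdGaussian E S = ∫⁻ s, stdGaussian E {x | QQ u (s, x) ∈ S} ∂NN := by
  conv_lhs => rw [← map_QQ u hu]
  rw [Measure.map_apply (measurable_QQ u) hS, Measure.prod_apply ((measurable_QQ u) hS)]
  rfl

lemma integrable_prod_QQ (u : E) (hu : ‖u‖ = 1) {f : E → ℝ} (hf : Integrable f (stdGaussian E)) :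
    Integrable (fun p : ℝ × E => f (QQ u p)) (NN.prod (stdGaussian E)) := by
  have h := hf
  rw [← map_QQ u hu] at h
  exact (integrable_map_measure h.1 (measurable_QQ u).aemeasurable).1 h

lemma integral_eq_QQ (u : E) (hu : ‖u‖ = 1) {f : E → ℝ} (hf : Integrable f (stdGaussian E)) :
    ∫ y, f y ∂(stdGaussian E) = ∫ x, ∫ s, f (QQ u (s, x)) ∂NN ∂(stdGaussian E) := by
  have h := hf
  conv_lhs => rw [← map_QQ u hu]
  rw [← map_QQ u hu] at h
  rw [integral_map (measurable_QQ u).aemeasurable h.1]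
  exact integral_prod_symm _ (integrable_prod_QQ u hu hf)

/-- Law of a linear functional under the Gaussian measure. -/
lemma map_inner_eq (t : E) :
    (stdGaussian E).map (fun x => ⟪t, x⟫) = NN.map (fun s => ‖t‖ * s) := by
  have hm1 : Measurable fun x : E => ⟪t, x⟫ := (continuous_const.inner continuous_id).measurable
  have hm2 : Measurable fun s : ℝ => ‖t‖ * s := by fun_prop
  by_cases ht : t = 0
  · subst ht
    simp
  · ext S hS
    rw [Measure.map_apply hm1 hS, Measure.map_apply hm2 hS]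
    have hu : ‖(‖t‖⁻¹ • t)‖ = 1 := norm_smul_inv_norm ht
    rw [measure_eq_lintegral_QQ _ hu (hm1 hS)]
    have h1 : ∀ x : E, {s | QQ (‖t‖⁻¹ • t) (s, x) ∈ (fun x => ⟪t, x⟫) ⁻¹' S} =
        (fun s => ‖t‖ * s) ⁻¹' S := by
      intro x
      ext s
      simp only [Set.mem_ofPred_eq, mem_preimage]
      have hne : ‖t‖ ≠ 0 := norm_ne_zero_iff.mpr ht
      have h2 : ⟪t, QQ (‖t‖⁻¹ • t) (s, x)⟫ = ‖t‖ * s := by
        rw [inner_QQ]
        have h3 : ⟪t, ‖t‖⁻¹ • t⟫ = ‖t‖ := by
          rw [inner_smul_right, real_inner_self_eq_norm_sq]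
          field_simp
        rw [h3, smul_smul, mul_inv_cancel₀ hne, one_smul, sub_self, inner_zero_left]
        ring
      rw [h2]
    simp_rw [h1]
    simp

lemma measure_inner (t : E) {S : Set ℝ} (hS : MeasurableSet S) :
    stdGaussian E {x | ⟪t, x⟫ ∈ S} = NN {s | ‖t‖ * s ∈ S} := by
  have hm1 : Measurable fun x : E => ⟪t, x⟫ := (continuous_const.inner continuous_id).measurable
  have hm2 : Measurable fun s : ℝ => ‖t‖ * s := by fun_prop
  have h := congrArg (fun m => m S) (map_inner_eq t)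
  simp only [Measure.map_apply hm1 hS, Measure.map_apply hm2 hS] at h
  exact h

lemma integral_inner_comp (t : E) {f : ℝ → ℝ} (hf : Measurable f) :
    ∫ x, f ⟪t, x⟫ ∂(stdGaussian E) = ∫ s, f (‖t‖ * s) ∂NN := by
  have hm1 : Measurable fun x : E => ⟪t, x⟫ := (continuous_const.inner continuous_id).measurable
  have hm2 : Measurable fun s : ℝ => ‖t‖ * s := by fun_prop
  rw [← integral_map hm1.aemeasurable hf.aestronglyMeasurable, map_inner_eq t,
    integral_map hm2.aemeasurable hf.aestronglyMeasurable]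

/-- Harris inequality on the line. -/
lemma harris (μ : Measure ℝ) [IsProbabilityMeasure μ] {U D : Set ℝ} (hU : IsUpperSet U)
    (hD : IsLowerSet D) : μ (D ∩ U) ≤ μ D * μ U := by
  rcases IsLowerSet.total hD hU.compl with h | h
  · have : D ∩ U = ∅ := by
      ext s
      simp only [mem_inter_iff, mem_empty_iff_false, iff_false, not_and]
      exact fun hs => h hs
    rw [this]; simp
  · have hUm : MeasurableSet U := hU.ordConnected.measurableSet
    have hDm : MeasurableSet D := hD.ordConnected.measurableSet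
    have h1 : D = (D ∩ U) ∪ Uᶜ := by
      ext s
      simp only [mem_union, mem_inter_iff, mem_compl_iff]
      constructor
      · intro hs
        by_cases hsU : s ∈ U
        · exact Or.inl ⟨hs, hsU⟩
        · exact Or.inr hsU
      · rintro (hs | hs)
        · exact hs.1
        · exact h hs
    have hdisj : Disjoint (D ∩ U) Uᶜ := by
      rw [Set.disjoint_left]
      rintro s ⟨_, hs⟩ hs'
      exact hs' hs
    have h2 : μ.real D = μ.real (D ∩ U) + μ.real Uᶜ := by
      conv_lhs => rw [h1]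
      exact measureReal_union hdisj hUm.compl
    have h3 : μ.real Uᶜ = 1 - μ.real U := probReal_compl_eq_one_sub hUm
    have h4 : μ.real D ≤ 1 := measureReal_le_one
    have h5 : μ.real U ≤ 1 := measureReal_le_one
    have key : μ.real (D ∩ U) ≤ μ.real D * μ.real U := by nlinarith
    rw [← ENNReal.toReal_le_toReal (by finiteness) (by finiteness), ENNReal.toReal_mul]
    exact key

/-- Half-space events with obtuse normals are negatively correlated: one step. -/
lemma two_bound (a : E) (ca : ℝ) {B : Set E} (hB : MeasurableSet B)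
    (hup : ∀ x : E, a ≠ 0 → IsUpperSet {s | QQ (‖a‖⁻¹ • a) (s, x) ∈ B}) :
    stdGaussian E ({x | ⟪a, x⟫ < ca} ∩ B) ≤ stdGaussian E {x | ⟪a, x⟫ < ca} * stdGaussian E B := by
  by_cases ha : a = 0
  · subst ha
    by_cases hc : 0 < ca
    · simp [hc]
    · simp [hc]
  · have hu : ‖(‖a‖⁻¹ • a)‖ = 1 := norm_smul_inv_norm ha
    have hne : ‖a‖ ≠ 0 := norm_ne_zero_iff.mpr ha
    have hpos : 0 < ‖a‖ := norm_pos_iff.mpr ha
    have hA : MeasurableSet {x : E | ⟪a, x⟫ < ca} :=
      measurableSet_lt (continuous_const.inner continuous_id).measurable measurable_const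
    have h2 : ∀ s x, ⟪a, QQ (‖a‖⁻¹ • a) (s, x)⟫ = ‖a‖ * s := by
      intro s x
      rw [inner_QQ]
      have h3 : ⟪a, ‖a‖⁻¹ • a⟫ = ‖a‖ := by
        rw [inner_smul_right, real_inner_self_eq_norm_sq]
        field_simp
      rw [h3, smul_smul, mul_inv_cancel₀ hne, one_smul, sub_self, inner_zero_left]
      ring
    rw [measure_eq_lintegral_QQ _ hu (hA.inter hB)]
    have hDlow : IsLowerSet {s : ℝ | ‖a‖ * s < ca} := by
      intro s t hts hs
      simp only [Set.mem_ofPred_eq] at hs ⊢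
      nlinarith
    have hAeq : stdGaussian E {x | ⟪a, x⟫ < ca} = NN {s : ℝ | ‖a‖ * s < ca} := by
      have := measure_inner (E := E) a (S := Iio ca) measurableSet_Iio
      simpa using this
    have h3 : ∀ x, NN {s | QQ (‖a‖⁻¹ • a) (s, x) ∈ {x | ⟪a, x⟫ < ca} ∩ B} ≤
        NN {s : ℝ | ‖a‖ * s < ca} * NN {s | QQ (‖a‖⁻¹ • a) (s, x) ∈ B} := by
      intro x
      have := harris NN (hup x ha) hDlow
      refine le_trans (le_of_eq ?_) this
      congr 1
      ext s
      simp [h2]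
    calc ∫⁻ x, NN {s | QQ (‖a‖⁻¹ • a) (s, x) ∈ {x | ⟪a, x⟫ < ca} ∩ B} ∂(stdGaussian E)
        ≤ ∫⁻ x, NN {s : ℝ | ‖a‖ * s < ca} * NN {s | QQ (‖a‖⁻¹ • a) (s, x) ∈ B}
            ∂(stdGaussian E) := lintegral_mono h3
      _ = NN {s : ℝ | ‖a‖ * s < ca} * ∫⁻ x, NN {s | QQ (‖a‖⁻¹ • a) (s, x) ∈ B}
            ∂(stdGaussian E) := by
          rw [lintegral_const_mul]
          exact measurable_measure_prodMk_right (μ := NN) ((measurable_QQ _) hB)
      _ = _ := by
          rw [← measure_eq_lintegral_QQ _ hu hB, hAeq]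

/-- Product bound for half-spaces with pairwise obtuse normals. -/
lemma prod_bound {ι : Type*} [DecidableEq ι] (S : Finset ι) (v : ι → E) (c : ι → ℝ)
    (hv : ∀ i ∈ S, ∀ j ∈ S, i ≠ j → ⟪v i, v j⟫ ≤ 0) :
    stdGaussian E (⋂ i ∈ S, {x | ⟪v i, x⟫ < c i}) ≤
      ∏ i ∈ S, stdGaussian E {x | ⟪v i, x⟫ < c i} := by
  induction S using Finset.induction_on with
  | empty => simp
  | insert a S ha ih =>
    have ih' := ih (fun i hi j hj hij =>
      hv i (Finset.mem_insert_of_mem hi) j (Finset.mem_insert_of_mem hj) hij)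
    rw [Finset.prod_insert ha, Finset.set_biInter_insert]
    have hBm : MeasurableSet (⋂ i ∈ S, {x : E | ⟪v i, x⟫ < c i}) := by
      refine Finset.measurableSet_biInter _ (fun i _ => ?_)
      exact measurableSet_lt (continuous_const.inner continuous_id).measurable measurable_const
    refine (two_bound (v a) (c a) hBm ?_).trans (mul_le_mul_right ih' _)
    intro x hne s t hst hs
    simp only [Set.mem_ofPred_eq, mem_iInter] at hs ⊢
    intro j hj
    have h1 := hs j hj
    have hij : a ≠ j := fun h => ha (h ▸ hj)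
    have h2 := hv a (Finset.mem_insert_self a S) j (Finset.mem_insert_of_mem hj) hij
    rw [inner_QQ] at h1 ⊢
    have h3 : ⟪v j, ‖v a‖⁻¹ • v a⟫ ≤ 0 := by
      rw [inner_smul_right, real_inner_comm]
      exact mul_nonpos_of_nonneg_of_nonpos (by positivity) h2
    nlinarith

/-- A strip has small Gaussian measure. -/
lemma strip_bound (c : E) (hc : c ≠ 0) (p L : ℝ) (hL : 0 ≤ L) :
    stdGaussian E {x | ⟪c, x⟫ ∈ Icc p (p + L)} ≤ ENNReal.ofReal (L * phi0 / ‖c‖) := by
  have hpos : 0 < ‖c‖ := norm_pos_iff.mpr hc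
  rw [measure_inner c measurableSet_Icc]
  have h1 : {s : ℝ | ‖c‖ * s ∈ Icc p (p + L)} = Icc (p / ‖c‖) ((p + L) / ‖c‖) := by
    ext s
    simp only [Set.mem_ofPred_eq, mem_Icc]
    rw [div_le_iff₀ hpos, le_div_iff₀ hpos]
    constructor
    · rintro ⟨h, h'⟩
      constructor <;> linarith
    · rintro ⟨h, h'⟩
      constructor <;> linarith
  rw [h1]
  have hle : p / ‖c‖ ≤ (p + L) / ‖c‖ := by gcongr; linarith
  have h2 := real_Icc_le _ _ hle
  have h3 : (p + L) / ‖c‖ - p / ‖c‖ = L / ‖c‖ := by field_simp; ring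
  rw [h3] at h2
  rw [← ofReal_measureReal (by finiteness)]
  apply ENNReal.ofReal_le_ofReal
  calc _ ≤ L / ‖c‖ * phi0 := h2
    _ = _ := by ring

/-- A two-dimensional box has small Gaussian measure. -/
lemma box_bound (a b : E) (ha : a ≠ 0) (hc : b - ⟪b, ‖a‖⁻¹ • a⟫ • (‖a‖⁻¹ • a) ≠ 0) (w : ℝ)
    (hw : 0 ≤ w) :
    stdGaussian E {x | |⟪a, x⟫| ≤ w ∧ |⟪b, x⟫| ≤ w} ≤
      ENNReal.ofReal ((2 * w * phi0) / ‖a‖ * ((2 * w * phi0) / ‖b - ⟪b, ‖a‖⁻¹ • a⟫ • (‖a‖⁻¹ • a)‖)) := by
  set u := ‖a‖⁻¹ • a with hu_def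
  set c := b - ⟪b, u⟫ • u with hc_def
  have hu : ‖u‖ = 1 := norm_smul_inv_norm ha
  have hne : ‖a‖ ≠ 0 := norm_ne_zero_iff.mpr ha
  have hpos : 0 < ‖a‖ := norm_pos_iff.mpr ha
  have hcpos : 0 < ‖c‖ := norm_pos_iff.mpr hc
  have hSm : MeasurableSet {x : E | |⟪a, x⟫| ≤ w ∧ |⟪b, x⟫| ≤ w} := by
    have h1 : Measurable fun x : E => |⟪a, x⟫| :=
      ((continuous_const.inner continuous_id).abs).measurable
    have h2 : Measurable fun x : E => |⟪b, x⟫| :=
      ((continuous_const.inner continuous_id).abs).measurable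
    exact (measurableSet_le h1 measurable_const).inter (measurableSet_le h2 measurable_const)
  rw [measure_eq_lintegral_QQ' u hu hSm]
  have h2 : ∀ s x, ⟪a, QQ u (s, x)⟫ = ‖a‖ * s := by
    intro s x
    rw [inner_QQ]
    have h3 : ⟪a, u⟫ = ‖a‖ := by
      rw [hu_def, inner_smul_right, real_inner_self_eq_norm_sq]
      field_simp
    rw [h3, hu_def, smul_smul, mul_inv_cancel₀ hne, one_smul, sub_self, inner_zero_left]
    ring
  have h3 : ∀ s x, ⟪b, QQ u (s, x)⟫ = s * ⟪b, u⟫ + ⟪c, x⟫ := by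
    intro s x
    rw [inner_QQ]
  set I := Icc (-(w / ‖a‖)) (w / ‖a‖) with hI
  have hIN : NN I ≤ ENNReal.ofReal (2 * w * phi0 / ‖a‖) := by
    have hle : -(w / ‖a‖) ≤ w / ‖a‖ := by
      have : 0 ≤ w / ‖a‖ := by positivity
      linarith
    have h4 := real_Icc_le _ _ hle
    rw [← ofReal_measureReal (by finiteness)]
    apply ENNReal.ofReal_le_ofReal
    calc _ ≤ (w / ‖a‖ - -(w / ‖a‖)) * phi0 := h4
      _ = _ := by ring
  have hpt : ∀ s, stdGaussian E {x | QQ u (s, x) ∈ {x | |⟪a, x⟫| ≤ w ∧ |⟪b, x⟫| ≤ w}} ≤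
      I.indicator (fun _ => ENNReal.ofReal (2 * w * phi0 / ‖c‖)) s := by
    intro s
    by_cases hs : s ∈ I
    · rw [indicator_of_mem hs]
      have h5 := strip_bound c hc (-w - s * ⟪b, u⟫) (2 * w) (by positivity)
      have h6 : (2 * w) * phi0 / ‖c‖ = 2 * w * phi0 / ‖c‖ := rfl
      rw [h6] at h5
      refine (measure_mono ?_).trans h5
      intro x hx
      simp only [Set.mem_ofPred_eq, h3, abs_le] at hx
      simp only [Set.mem_ofPred_eq, mem_Icc]
      constructor <;> linarith [hx.2.1, hx.2.2]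
    · have hemp : {x | QQ u (s, x) ∈ {x | |⟪a, x⟫| ≤ w ∧ |⟪b, x⟫| ≤ w}} = ∅ := by
        ext x
        simp only [Set.mem_ofPred_eq, mem_empty_iff_false, iff_false, not_and]
        intro hax
        exfalso
        apply hs
        rw [h2, abs_le] at hax
        rw [hI, mem_Icc]
        constructor
        · rw [neg_le, le_div_iff₀' hpos]; linarith [hax.1]
        · rw [le_div_iff₀' hpos]; exact hax.2
      rw [hemp]; simp
  calc ∫⁻ s, stdGaussian E {x | QQ u (s, x) ∈ {x | |⟪a, x⟫| ≤ w ∧ |⟪b, x⟫| ≤ w}} ∂NN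
      ≤ ∫⁻ s, I.indicator (fun _ => ENNReal.ofReal (2 * w * phi0 / ‖c‖)) s ∂NN :=
        lintegral_mono hpt
    _ = ENNReal.ofReal (2 * w * phi0 / ‖c‖) * NN I := by
        rw [lintegral_indicator measurableSet_Icc, setLIntegral_const]
    _ ≤ ENNReal.ofReal (2 * w * phi0 / ‖c‖) * ENNReal.ofReal (2 * w * phi0 / ‖a‖) := by gcongr
    _ = _ := by
        rw [← ENNReal.ofReal_mul (by have := phi0_pos; positivity), mul_comm]

end

end Vale.Agent.Lib.P226
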