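import Mathlib
import Vale.Agent.Lib.P226.Resample

open MeasureTheory ProbabilityTheory Real Set Filter Topology
open scoped ENNReal NNReal RealInnerProductSpace

namespace Vale.Agent.Lib.P226

set_option linter.unusedSectionVars false

noncomputable section

variable {E : Type*} [NormedAddCommGroup E] [InnerProductSpace ℝ E] [FiniteDimensional ℝ E]
  [MeasurableSpace E] [BorelSpace E]

lemma integrable_id_gauss : Integrable (fun x : E => x) (stdGaussian E) := IsGaussian.integrable_id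

lemma integrable_norm_gauss : Integrable (fun x : E => ‖x‖) (stdGaussian E) :=
  (integrable_id_gauss (E := E)).norm

lemma integrable_inner_gauss (t : E) : Integrable (fun x : E => ⟪t, x⟫) (stdGaussian E) :=
  (integrable_id_gauss (E := E)).const_inner t

section Vf

variable {ι : Type*} [Fintype ι] [Nonempty ι]

omit [FiniteDimensional ℝ E] [MeasurableSpace E] [BorelSpace E] in
/-- Support function of a finite family. -/
def Vf (T : ι → E) (x : E) : ℝ := ⨆ i, ⟪T i, x⟫

omit [FiniteDimensional ℝ E] [MeasurableSpace E] [BorelSpace E] in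
lemma inner_le_Vf (T : ι → E) (i : ι) (x : E) : ⟪T i, x⟫ ≤ Vf T x :=
  le_ciSup (f := fun i => ⟪T i, x⟫) (Set.finite_range _).bddAbove i

omit [FiniteDimensional ℝ E] [MeasurableSpace E] [BorelSpace E] in
lemma Vf_le {T : ι → E} {x : E} {c : ℝ} (h : ∀ i, ⟪T i, x⟫ ≤ c) : Vf T x ≤ c := ciSup_le h

omit [FiniteDimensional ℝ E] [MeasurableSpace E] [BorelSpace E] in
lemma exists_Vf_eq (T : ι → E) (x : E) : ∃ i, Vf T x = ⟪T i, x⟫ := by
  obtain ⟨i, hi⟩ := exists_eq_ciSup_of_finite (f := fun i => ⟪T i, x⟫)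
  exact ⟨i, hi.symm⟩

omit [FiniteDimensional ℝ E] [MeasurableSpace E] [BorelSpace E] in
lemma Vf_lt_iff {T : ι → E} {x : E} {c : ℝ} : Vf T x < c ↔ ∀ i, ⟪T i, x⟫ < c := by
  constructor
  · intro h i
    exact (inner_le_Vf T i x).trans_lt h
  · intro h
    obtain ⟨i, hi⟩ := exists_Vf_eq T x
    rw [hi]
    exact h i

lemma measurable_Vf (T : ι → E) : Measurable (Vf T) := by
  unfold Vf
  exact Measurable.iSup (fun i => (continuous_const.inner continuous_id).measurable)

omit [FiniteDimensional ℝ E] [MeasurableSpace E] [BorelSpace E] in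
lemma abs_Vf_le (T : ι → E) (x : E) : |Vf T x| ≤ (∑ i, ‖T i‖) * ‖x‖ := by
  obtain ⟨i, hi⟩ := exists_Vf_eq T x
  rw [hi]
  calc |⟪T i, x⟫| ≤ ‖T i‖ * ‖x‖ := abs_real_inner_le_norm _ _
    _ ≤ (∑ i, ‖T i‖) * ‖x‖ := by
      gcongr
      exact Finset.single_le_sum (f := fun i => ‖T i‖) (fun _ _ => norm_nonneg _)
        (Finset.mem_univ i)

lemma integrable_Vf (T : ι → E) : Integrable (Vf T) (stdGaussian E) := by
  refine Integrable.mono' (integrable_norm_gauss.const_mul (∑ i, ‖T i‖))
    (measurable_Vf T).aestronglyMeasurable ?_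
  filter_upwards with x
  exact abs_Vf_le T x

/-- Expected maximum of the linear forms. -/
def VV (T : ι → E) : ℝ := ∫ x, Vf T x ∂(stdGaussian E)

end Vf

/-- Gaussian first moment of a set. -/
def zz (A : Set E) : E := ∫ x in A, x ∂(stdGaussian E)

lemma inner_zz (t : E) (A : Set E) : ⟪t, zz A⟫ = ∫ x in A, ⟪t, x⟫ ∂(stdGaussian E) := by
  unfold zz
  rw [integral_inner (integrable_id_gauss (E := E)).integrableOn]

/-- A finite measurable partition. -/
structure IsPart {ι : Type*} (A : ι → Set E) : Prop where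
  meas : ∀ i, MeasurableSet (A i)
  disj : Pairwise (Function.onFun Disjoint A)
  cover : ⋃ i, A i = univ

lemma integral_part {ι : Type*} [Fintype ι] {A : ι → Set E} (hA : IsPart A) {f : E → ℝ}
    (hf : Integrable f (stdGaussian E)) :
    ∑ i, ∫ x in A i, f x ∂(stdGaussian E) = ∫ x, f x ∂(stdGaussian E) := by
  rw [← integral_iUnion_fintype hA.meas hA.disj (fun i => hf.integrableOn), hA.cover,
    setIntegral_univ]

lemma sum_zz {ι : Type*} [Fintype ι] {A : ι → Set E} (hA : IsPart A) :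
    ∑ i, zz (A i) = 0 := by
  unfold zz
  rw [← integral_iUnion_fintype hA.meas hA.disj (fun i => integrable_id_gauss.integrableOn),
    hA.cover, setIntegral_univ]
  exact integral_id_stdGaussian

/-- Assignment lemma. -/
lemma sum_inner_le_VV {ι κ : Type*} [Fintype ι] [Fintype κ] [Nonempty κ] {A : ι → Set E}
    (hA : IsPart A) (T : κ → E) (c : ι → κ) :
    ∑ l, ⟪T (c l), zz (A l)⟫ ≤ VV T := by
  unfold VV
  rw [← integral_part hA (integrable_Vf T)]
  apply Finset.sum_le_sum
  intro l _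
  rw [inner_zz]
  apply setIntegral_mono (integrable_inner_gauss _).integrableOn (integrable_Vf T).integrableOn
  intro x
  exact inner_le_Vf T (c l) x

/-- The first index attaining the maximum. -/
def vorCell {n : ℕ} (T : Fin n → E) (i : Fin n) : Set E :=
  {x | (∀ j, ⟪T j, x⟫ ≤ ⟪T i, x⟫) ∧ ∀ j, j < i → ⟪T j, x⟫ < ⟪T i, x⟫}

lemma isPart_vorCell {n : ℕ} (T : Fin n → E) [NeZero n] : IsPart (vorCell T) := by
  refine ⟨fun i => ?_, ?_, ?_⟩
  · have h1 : vorCell T i = (⋂ j, {x | ⟪T j, x⟫ ≤ ⟪T i, x⟫}) ∩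
        (⋂ j, ⋂ (_ : j < i), {x | ⟪T j, x⟫ < ⟪T i, x⟫}) := by
      ext x
      simp [vorCell]
    rw [h1]
    refine (MeasurableSet.iInter fun j => ?_).inter
      (MeasurableSet.iInter fun j => MeasurableSet.iInter fun _ => ?_)
    · exact measurableSet_le (continuous_const.inner continuous_id).measurable
        (continuous_const.inner continuous_id).measurable
    · exact measurableSet_lt (continuous_const.inner continuous_id).measurable
        (continuous_const.inner continuous_id).measurable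
  · intro i j hij
    simp only [Function.onFun]
    rw [Set.disjoint_left]
    intro x hi hj
    rcases lt_or_gt_of_ne hij with h | h
    · exact absurd (hj.2 i h) (not_lt.mpr (hi.1 j))
    · exact absurd (hi.2 j h) (not_lt.mpr (hj.1 i))
  · ext x
    simp only [mem_iUnion, mem_univ, iff_true]
    have hne : (Finset.univ.filter fun i : Fin n => ∀ j, ⟪T j, x⟫ ≤ ⟪T i, x⟫).Nonempty := by
      obtain ⟨i, hi⟩ := exists_Vf_eq T x
      refine ⟨i, ?_⟩
      simp only [Finset.mem_filter, Finset.mem_univ, true_and]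
      intro j
      rw [← hi]
      exact inner_le_Vf T j x
    let i := Finset.min' _ hne
    have hi := Finset.min'_mem _ hne
    simp only [Finset.mem_filter, Finset.mem_univ, true_and] at hi
    refine ⟨i, hi, ?_⟩
    intro j hj
    by_contra hcon
    have hle : ⟪T i, x⟫ ≤ ⟪T j, x⟫ := not_lt.mp hcon
    have hj2 : j ∈ (Finset.univ.filter fun i : Fin n => ∀ j, ⟪T j, x⟫ ≤ ⟪T i, x⟫) := by
      simp only [Finset.mem_filter, Finset.mem_univ, true_and]
      intro l
      exact (hi l).trans hle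
    exact absurd (Finset.min'_le _ j hj2) (not_le.mpr hj)

lemma sum_inner_vorCell {n : ℕ} (T : Fin n → E) [NeZero n] :
    ∑ i, ⟪T i, zz (vorCell T i)⟫ = VV T := by
  unfold VV
  rw [← integral_part (isPart_vorCell T) (integrable_Vf T)]
  apply Finset.sum_congr rfl
  intro i _
  rw [inner_zz]
  apply setIntegral_congr_fun ((isPart_vorCell T).meas i)
  intro x hx
  apply le_antisymm
  · exact inner_le_Vf T i x
  · exact Vf_le hx.1

omit [FiniteDimensional ℝ E] [MeasurableSpace E] [BorelSpace E] in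
lemma strict_subset_vorCell {n : ℕ} (T : Fin n → E) (i : Fin n) :
    {x | ∀ j, j ≠ i → ⟪T j, x⟫ < ⟪T i, x⟫} ⊆ vorCell T i := by
  intro x hx
  refine ⟨fun j => ?_, fun j hj => hx j (ne_of_lt hj)⟩
  by_cases h : j = i
  · rw [h]
  · exact (hx j h).le

/-! ### Maximizers -/

/-- The unit ball of families. -/
def SS (n : ℕ) : Set (Fin n → E) := {T | ∑ i, ‖T i‖ ^ 2 ≤ 1}

omit [FiniteDimensional ℝ E] [MeasurableSpace E] [BorelSpace E] in
lemma mem_SS {n : ℕ} {T : Fin n → E} : T ∈ (SS n) ↔ ∑ i, ‖T i‖ ^ 2 ≤ 1 := Iff.rfl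

omit [MeasurableSpace E] [BorelSpace E] in
lemma isCompact_SS (n : ℕ) : IsCompact (SS n : Set (Fin n → E)) := by
  apply Metric.isCompact_of_isClosed_isBounded
  · apply isClosed_le (by fun_prop) continuous_const
  · refine (Metric.isBounded_iff_subset_closedBall (0 : Fin n → E)).2 ⟨1, ?_⟩
    intro T hT
    rw [mem_closedBall_zero_iff, pi_norm_le_iff_of_nonneg zero_le_one]
    intro i
    have h1 : ‖T i‖ ^ 2 ≤ ∑ i, ‖T i‖ ^ 2 :=
      Finset.single_le_sum (f := fun i => ‖T i‖ ^ 2) (fun _ _ => sq_nonneg _) (Finset.mem_univ i)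
    have h2 : ‖T i‖ ^ 2 ≤ 1 := h1.trans hT
    nlinarith [norm_nonneg (T i)]

omit [FiniteDimensional ℝ E] [MeasurableSpace E] [BorelSpace E] in
lemma Vf_sub_le {ι : Type*} [Fintype ι] [Nonempty ι] (T T' : ι → E) (x : E) :
    Vf T x - Vf T' x ≤ (∑ i, ‖T i - T' i‖) * ‖x‖ := by
  obtain ⟨i, hi⟩ := exists_Vf_eq T x
  have h1 := inner_le_Vf T' i x
  have h2 : ⟪T i, x⟫ - ⟪T' i, x⟫ = ⟪T i - T' i, x⟫ := by rw [inner_sub_left]
  have h3 : ⟪T i - T' i, x⟫ ≤ ‖T i - T' i‖ * ‖x‖ := real_inner_le_norm _ _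
  have h4 : ‖T i - T' i‖ ≤ ∑ i, ‖T i - T' i‖ :=
    Finset.single_le_sum (f := fun i => ‖T i - T' i‖) (fun _ _ => norm_nonneg _)
      (Finset.mem_univ i)
  have h5 : ‖T i - T' i‖ * ‖x‖ ≤ (∑ i, ‖T i - T' i‖) * ‖x‖ :=
    mul_le_mul_of_nonneg_right h4 (norm_nonneg x)
  rw [hi]
  linarith

lemma VV_sub_le {ι : Type*} [Fintype ι] [Nonempty ι] (T T' : ι → E) :
    VV T - VV T' ≤ (∑ i, ‖T i - T' i‖) * ∫ x, ‖x‖ ∂(stdGaussian E) := by
  unfold VV
  rw [← integral_sub (integrable_Vf T) (integrable_Vf T'), ← integral_const_mul]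
  apply integral_mono ((integrable_Vf T).sub (integrable_Vf T'))
    (integrable_norm_gauss.const_mul _)
  intro x
  exact Vf_sub_le T T' x

lemma continuous_VV (n : ℕ) [NeZero n] : Continuous (VV : (Fin n → E) → ℝ) := by
  set C := ∫ x, ‖x‖ ∂(stdGaussian E) with hC
  have hC0 : 0 ≤ C := integral_nonneg (fun _ => norm_nonneg _)
  have key : ∀ T T' : Fin n → E, VV T - VV T' ≤ (n * C) * dist T T' := by
    intro T T'
    refine (VV_sub_le T T').trans ?_
    have h1 : ∑ i, ‖T i - T' i‖ ≤ n * dist T T' := by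
      calc ∑ i, ‖T i - T' i‖ ≤ ∑ _i : Fin n, dist T T' := by
            apply Finset.sum_le_sum
            intro i _
            rw [← dist_eq_norm]
            exact dist_le_pi_dist T T' i
        _ = n * dist T T' := by simp
    calc (∑ i, ‖T i - T' i‖) * C ≤ (n * dist T T') * C := by gcongr
      _ = _ := by ring
  have hL : LipschitzWith (Real.toNNReal (n * C)) (VV : (Fin n → E) → ℝ) := by
    apply LipschitzWith.of_dist_le'
    intro T T'
    rw [Real.dist_eq, abs_le]
    constructor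
    · have := key T' T
      rw [dist_comm] at this
      linarith
    · exact key T T'
  exact hL.continuous

lemma exists_opt (n : ℕ) [NeZero n] :
    ∃ T ∈ (SS n : Set (Fin n → E)), ∀ T' ∈ (SS n : Set (Fin n → E)), VV T' ≤ VV T := by
  have hne : (SS n : Set (Fin n → E)).Nonempty := ⟨0, by simp [SS]⟩
  obtain ⟨T, hT, hmax⟩ := (isCompact_SS n).exists_isMaxOn hne (continuous_VV n).continuousOn
  exact ⟨T, hT, fun T' hT' => hmax hT'⟩

end

end Vale.Agent.Lib.P226
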