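import Mathlib
import Vale.Agent.Lib.P226.Voronoi

open MeasureTheory ProbabilityTheory Real Set Filter Topology
open scoped ENNReal NNReal RealInnerProductSpace

namespace Vale.Agent.Lib.P226

set_option linter.unusedSectionVars false

noncomputable section

variable {E : Type*} [NormedAddCommGroup E] [InnerProductSpace ℝ E] [FiniteDimensional ℝ E]
  [MeasurableSpace E] [BorelSpace E]

/-- A maximizer of the expected maximum over the unit ball of families. -/
structure Opt {n : ℕ} [NeZero n] (T : Fin n → E) : Prop where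
  mem : T ∈ SS n
  max : ∀ T' ∈ (SS n : Set (Fin n → E)), VV T' ≤ VV T

variable {n : ℕ} [NeZero n] {T : Fin n → E}

lemma opt_sum_sq_le (hT : Opt T) (hV : 0 < VV T) :
    ∑ i, ‖zz (vorCell T i)‖ ^ 2 ≤ VV T ^ 2 := by
  set Z := fun i => zz (vorCell T i) with hZ
  set S := ∑ i, ‖Z i‖ ^ 2 with hS
  have hS0 : 0 ≤ S := Finset.sum_nonneg (fun _ _ => sq_nonneg _)
  rcases hS0.eq_or_lt with h0 | hpos
  · rw [← h0]; positivity
  · have hsq : √S * √S = S := Real.mul_self_sqrt hS0
    have hspos : 0 < √S := Real.sqrt_pos.mpr hpos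
    have hW : (fun i => (√S)⁻¹ • Z i) ∈ (SS n : Set (Fin n → E)) := by
      rw [mem_SS]
      have : ∑ i, ‖(√S)⁻¹ • Z i‖ ^ 2 = (√S)⁻¹ ^ 2 * S := by
        rw [hS, Finset.mul_sum]
        apply Finset.sum_congr rfl
        intro i _
        rw [norm_smul, mul_pow, norm_inv, Real.norm_eq_abs, abs_of_pos hspos]
      rw [this]
      apply le_of_eq
      field_simp
      nlinarith
    have h1 := sum_inner_le_VV (isPart_vorCell T) (fun i => (√S)⁻¹ • Z i) id
    have h2 : ∑ l, ⟪(√S)⁻¹ • Z (id l), zz (vorCell T l)⟫ = √S := by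
      have : ∀ l, ⟪(√S)⁻¹ • Z (id l), zz (vorCell T l)⟫ = (√S)⁻¹ * ‖Z l‖ ^ 2 := by
        intro l
        rw [inner_smul_left, id, hZ]
        simp
      simp_rw [this]
      rw [← Finset.mul_sum, ← hS]
      field_simp
      nlinarith
    rw [h2] at h1
    have h3 := h1.trans (hT.max _ hW)
    nlinarith

lemma opt_smul (hT : Opt T) (hV : 0 < VV T) (i : Fin n) :
    VV T • T i = zz (vorCell T i) := by
  set Z := fun i => zz (vorCell T i) with hZ
  have h1 : ∑ i, ‖VV T • T i - Z i‖ ^ 2 ≤ 0 := by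
    have h2 : ∀ i, ‖VV T • T i - Z i‖ ^ 2 =
        VV T ^ 2 * ‖T i‖ ^ 2 - 2 * VV T * ⟪T i, Z i⟫ + ‖Z i‖ ^ 2 := by
      intro i
      rw [norm_sub_sq_real, norm_smul, mul_pow, inner_smul_left]
      simp
      ring
    simp_rw [h2]
    rw [Finset.sum_add_distrib, Finset.sum_sub_distrib, ← Finset.mul_sum, ← Finset.mul_sum,
      sum_inner_vorCell T]
    have h3 := opt_sum_sq_le hT hV
    have h4 : ∑ i, ‖T i‖ ^ 2 ≤ 1 := hT.mem
    have h5 : VV T ^ 2 * ∑ i, ‖T i‖ ^ 2 ≤ VV T ^ 2 * 1 := by gcongr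
    nlinarith
  have h2 := (Finset.sum_eq_zero_iff_of_nonneg (fun i _ => sq_nonneg (‖VV T • T i - Z i‖))).1
    (le_antisymm h1 (Finset.sum_nonneg (fun _ _ => sq_nonneg _))) i (Finset.mem_univ i)
  have h3 : ‖VV T • T i - Z i‖ = 0 := by simpa using h2
  exact sub_eq_zero.mp (norm_eq_zero.mp h3)

lemma opt_sum_sq_eq (hT : Opt T) (hV : 0 < VV T) : ∑ i, ‖T i‖ ^ 2 = 1 := by
  have h1 := sum_inner_vorCell T
  have h2 : ∀ i, ⟪T i, zz (vorCell T i)⟫ = VV T * ‖T i‖ ^ 2 := by
    intro i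
    rw [← opt_smul hT hV i, inner_smul_right, real_inner_self_eq_norm_sq]
  simp_rw [h2] at h1
  rw [← Finset.mul_sum] at h1
  have h3 : VV T * (∑ i, ‖T i‖ ^ 2 - 1) = 0 := by linarith
  rcases mul_eq_zero.mp h3 with h | h
  · exact absurd h hV.ne'
  · linarith

lemma opt_sum_zero (hT : Opt T) (hV : 0 < VV T) : ∑ i, T i = 0 := by
  have h1 := sum_zz (isPart_vorCell T)
  simp_rw [← opt_smul hT hV] at h1
  rw [← Finset.smul_sum] at h1
  rcases smul_eq_zero.mp h1 with h | h
  · exact absurd h hV.ne'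
  · exact h

lemma opt_obtuse (hT : Opt T) (hV : 0 < VV T) {i j : Fin n} (hij : i ≠ j) : ⟪T i, T j⟫ ≤ 0 := by
  by_contra hcon
  set ρ := ⟪T i, T j⟫ with hρ
  have hρpos : 0 < ρ := not_le.mp hcon
  have hsum := opt_sum_sq_eq hT hV
  set W : Fin n → E := fun l => T l + (if l = i then T j else 0) - (if l = j then T j else 0)
    with hW
  set c : Fin n → Fin n := fun l => if l = j then i else l with hc
  have hji : j ≠ i := hij.symm
  have hWi : W i = T i + T j := by simp [hW, hij]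
  have hWj : W j = 0 := by simp [hW, hji]
  have hWl : ∀ l, l ≠ i → l ≠ j → W l = T l := by
    intro l h1 h2
    simp [hW, h1, h2]
  have hD : ∑ l, ‖W l‖ ^ 2 = 1 + 2 * ρ := by
    have h1 : ∀ l, ‖W l‖ ^ 2 = ‖T l‖ ^ 2 + (if l = i then 2 * ρ + ‖T j‖ ^ 2 else 0)
        + (if l = j then -‖T j‖ ^ 2 else 0) := by
      intro l
      by_cases h1 : l = i
      · subst h1
        rw [hWi, norm_add_sq_real]
        simp [hij, hρ]
        ring
      · by_cases h2 : l = j
        · subst h2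
          rw [hWj]
          simp [hji]
        · rw [hWl l h1 h2]
          simp [h1, h2]
    simp_rw [h1]
    rw [Finset.sum_add_distrib, Finset.sum_add_distrib, hsum]
    simp
    ring
  have hsumc : ∑ l, ⟪W (c l), T l⟫ = 1 + 2 * ρ := by
    have h1 : ∀ l, ⟪W (c l), T l⟫ = ‖T l‖ ^ 2 + (if l = i then ρ else 0)
        + (if l = j then ρ else 0) := by
      intro l
      by_cases h1 : l = i
      · subst h1
        have : c l = l := by simp [hc]
        rw [this, hWi, inner_add_left, real_inner_self_eq_norm_sq]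
        simp [hij, hρ, real_inner_comm]
      · by_cases h2 : l = j
        · subst h2
          have : c l = i := by simp [hc]
          rw [this, hWi, inner_add_left, real_inner_self_eq_norm_sq]
          simp [h1, hρ]
          ring
        · have : c l = l := by simp [hc, h2]
          rw [this, hWl l h1 h2, real_inner_self_eq_norm_sq]
          simp [h1, h2]
    simp_rw [h1]
    rw [Finset.sum_add_distrib, Finset.sum_add_distrib, hsum]
    simp
    ring
  set D := 1 + 2 * ρ with hDdef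
  have hDpos : 1 < D := by linarith
  have hsq : √D * √D = D := Real.mul_self_sqrt (by linarith)
  have hs1 : 1 < √D := by
    rw [Real.lt_sqrt (by norm_num)]
    linarith
  have hW' : (fun l => (√D)⁻¹ • W l) ∈ (SS n : Set (Fin n → E)) := by
    rw [mem_SS]
    have : ∑ l, ‖(√D)⁻¹ • W l‖ ^ 2 = (√D)⁻¹ ^ 2 * ∑ l, ‖W l‖ ^ 2 := by
      rw [Finset.mul_sum]
      apply Finset.sum_congr rfl
      intro i _
      rw [norm_smul, mul_pow, norm_inv, Real.norm_eq_abs, abs_of_pos (by linarith)]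
    rw [this, hD]
    apply le_of_eq
    have : √D ≠ 0 := by linarith
    field_simp
    nlinarith
  have h1 := sum_inner_le_VV (isPart_vorCell T) (fun l => (√D)⁻¹ • W l) c
  have h2 : ∑ l, ⟪(√D)⁻¹ • W (c l), zz (vorCell T l)⟫ = VV T * √D := by
    have : ∀ l, ⟪(√D)⁻¹ • W (c l), zz (vorCell T l)⟫ = (√D)⁻¹ * VV T * ⟪W (c l), T l⟫ := by
      intro l
      rw [← opt_smul hT hV l, inner_smul_left, inner_smul_right]
      simp
      ring
    simp_rw [this]
    rw [← Finset.mul_sum, hsumc]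
    have : √D ≠ 0 := by linarith
    field_simp
    nlinarith
  rw [h2] at h1
  have h3 := h1.trans (hT.max _ hW')
  nlinarith

lemma opt_nonneg_cell (hT : Opt T) (hV : 0 < VV T) {i : Fin n} {x : E} (hx : x ∈ vorCell T i) :
    0 ≤ ⟪T i, x⟫ := by
  have h1 : ∑ j, ⟪T j, x⟫ = 0 := by
    rw [← sum_inner, opt_sum_zero hT hV, inner_zero_left]
  have h2 : ∑ j, ⟪T j, x⟫ ≤ ∑ _j : Fin n, ⟪T i, x⟫ := Finset.sum_le_sum (fun j _ => hx.1 j)
  rw [h1] at h2
  simp only [Finset.sum_const, Finset.card_univ, Fintype.card_fin, nsmul_eq_mul] at h2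
  have hn : (0 : ℝ) < n := by
    have : 0 < n := NeZero.pos n
    exact_mod_cast this
  by_contra hcon
  have : (n : ℝ) * ⟪T i, x⟫ < 0 := mul_neg_of_pos_of_neg hn (not_le.mp hcon)
  linarith

lemma opt_inner_cell (hT : Opt T) (hV : 0 < VV T) (i : Fin n) (t : E) :
    ∫ x in vorCell T i, ⟪t, x⟫ ∂(stdGaussian E) = VV T * ⟪t, T i⟫ := by
  rw [← inner_zz, ← opt_smul hT hV i, inner_smul_right]

end

end Vale.Agent.Lib.P226
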