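import Mathlib
import Vale.Agent.Lib.P226.Opt

open MeasureTheory ProbabilityTheory Real Set Filter Topology
open scoped ENNReal NNReal RealInnerProductSpace

namespace Vale.Agent.Lib.P226

set_option linter.unusedSectionVars false

noncomputable section

variable {E : Type*} [NormedAddCommGroup E] [InnerProductSpace ℝ E] [FiniteDimensional ℝ E]
  [MeasurableSpace E] [BorelSpace E]

/-- The data around a cell with small normal vector. -/
structure CellData {m : ℕ} (σ : ℝ) (u : E) (w : Fin m → E) : Prop where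
  hσ : 0 < σ
  hu : ‖u‖ = 1
  neg : ∀ l, ⟪w l, u⟫ ≤ 0
  sum : ∑ l, w l + σ • u = 0
  obt : ∀ l r, l ≠ r → ⟪w l, w r⟫ ≤ 0

variable {m : ℕ} {σ : ℝ} {u : E} {w : Fin m → E}

def bb (w : Fin m → E) (u : E) (l : Fin m) : ℝ := -⟪w l, u⟫

def vv (w : Fin m → E) (u : E) (l : Fin m) : E := w l + bb w u l • u

def cc (σ : ℝ) (w : Fin m → E) (u : E) (l : Fin m) : ℝ := σ + bb w u l

lemma bb_nonneg (h : CellData σ u w) (l : Fin m) : 0 ≤ bb w u l := by
  have := h.neg l
  unfold bb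
  linarith

lemma inner_u_u (h : CellData σ u w) : ⟪u, u⟫ = 1 := by
  rw [real_inner_self_eq_norm_sq, h.hu]; norm_num

lemma sum_bb (h : CellData σ u w) : ∑ l, bb w u l = σ := by
  have h1 : ⟪∑ l, w l + σ • u, u⟫ = 0 := by rw [h.sum, inner_zero_left]
  rw [inner_add_left, sum_inner, inner_smul_left, inner_u_u h] at h1
  unfold bb
  rw [Finset.sum_neg_distrib]
  simp at h1
  linarith

lemma bb_le (h : CellData σ u w) (l : Fin m) : bb w u l ≤ σ := by
  rw [← sum_bb h]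
  exact Finset.single_le_sum (f := fun l => bb w u l) (fun l _ => bb_nonneg h l) (Finset.mem_univ l)

lemma cc_pos (h : CellData σ u w) (l : Fin m) : 0 < cc σ w u l := by
  unfold cc
  linarith [h.hσ, bb_nonneg h l]

lemma cc_le (h : CellData σ u w) (l : Fin m) : cc σ w u l ≤ 2 * σ := by
  unfold cc
  linarith [bb_le h l]

lemma inner_vv_u (h : CellData σ u w) (l : Fin m) : ⟪vv w u l, u⟫ = 0 := by
  unfold vv bb
  rw [inner_add_left, inner_smul_left, inner_u_u h]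
  simp

lemma sum_vv (h : CellData σ u w) : ∑ l, vv w u l = 0 := by
  unfold vv
  rw [Finset.sum_add_distrib, ← Finset.sum_smul, sum_bb h]
  exact h.sum

lemma norm_vv_sq (h : CellData σ u w) (l : Fin m) : ‖vv w u l‖ ^ 2 = ‖w l‖ ^ 2 - bb w u l ^ 2 := by
  unfold vv
  rw [norm_add_sq_real, inner_smul_right, norm_smul, mul_pow, h.hu]
  simp only [bb, Real.norm_eq_abs, sq_abs]
  ring

lemma inner_vv_vv (h : CellData σ u w) (l r : Fin m) :
    ⟪vv w u l, vv w u r⟫ = ⟪w l, w r⟫ - bb w u l * bb w u r := by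
  unfold vv
  rw [inner_add_left, inner_add_right, inner_add_right, inner_smul_left, inner_smul_left,
    inner_smul_right, inner_smul_right, inner_u_u h]
  simp only [bb, conj_trivial]
  rw [real_inner_comm u (w r)]
  ring

lemma vv_obt (h : CellData σ u w) {l r : Fin m} (hlr : l ≠ r) : ⟪vv w u l, vv w u r⟫ ≤ 0 := by
  rw [inner_vv_vv h]
  nlinarith [h.obt l r hlr, mul_nonneg (bb_nonneg h l) (bb_nonneg h r)]

lemma inner_w_QQ (u : E) (l : Fin m) (s : ℝ) (x : E) :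
    ⟪w l, QQ u (s, x)⟫ = -bb w u l * s + ⟪vv w u l, x⟫ := by
  rw [inner_QQ]
  unfold vv bb
  simp only [neg_neg, neg_smul, sub_eq_add_neg]
  ring

lemma inner_u_QQ (hu : ‖u‖ = 1) (s : ℝ) (x : E) : ⟪u, QQ u (s, x)⟫ = s := by
  rw [inner_QQ]
  have h1 : ⟪u, u⟫ = 1 := by rw [real_inner_self_eq_norm_sq, hu]; norm_num
  rw [h1]
  simp

variable [NeZero m]

/-- The threshold function. -/
def GG (σ : ℝ) (w : Fin m → E) (u : E) (x : E) : ℝ :=
  Vf (fun l => (cc σ w u l)⁻¹ • vv w u l) x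

lemma measurable_GG (σ : ℝ) (w : Fin m → E) (u : E) : Measurable (GG σ w u) := measurable_Vf _

lemma GG_lt_iff (h : CellData σ u w) (x : E) (r : ℝ) :
    GG σ w u x < r ↔ ∀ l, ⟪vv w u l, x⟫ < cc σ w u l * r := by
  unfold GG
  rw [Vf_lt_iff]
  refine forall_congr' (fun l => ?_)
  rw [inner_smul_left]
  simp only [conj_trivial]
  have := cc_pos h l
  rw [inv_mul_lt_iff₀ this]

lemma inner_vv_le_GG (h : CellData σ u w) (x : E) (l : Fin m) :
    ⟪vv w u l, x⟫ ≤ cc σ w u l * GG σ w u x := by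
  have h1 := inner_le_Vf (fun l => (cc σ w u l)⁻¹ • vv w u l) l x
  rw [inner_smul_left] at h1
  simp only [conj_trivial] at h1
  have := cc_pos h l
  rwa [inv_mul_le_iff₀ this] at h1

lemma GG_nonneg (h : CellData σ u w) (x : E) : 0 ≤ GG σ w u x := by
  have h1 : ∑ l, ⟪vv w u l, x⟫ = 0 := by
    rw [← sum_inner, sum_vv h, inner_zero_left]
  have h2 : ∑ l, ⟪vv w u l, x⟫ ≤ ∑ l, cc σ w u l * GG σ w u x :=
    Finset.sum_le_sum (fun l _ => inner_vv_le_GG h x l)
  rw [h1, ← Finset.sum_mul] at h2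
  have h3 : 0 < ∑ l, cc σ w u l :=
    Finset.sum_pos (fun l _ => cc_pos h l) ⟨0, Finset.mem_univ _⟩
  by_contra hcon
  have := mul_neg_of_pos_of_neg h3 (not_le.mp hcon)
  linarith

/-- Pointwise bound on the gain of the extra vector. -/
lemma key_ineq (h : CellData σ u w) (s : ℝ) (x : E) :
    max (σ * s - Vf w (QQ u (s, x))) 0 ≤ 2 * σ * max (s - GG σ w u x) 0 := by
  have hσ := h.hσ
  obtain ⟨l, hl⟩ := exists_Vf_eq (fun l => (cc σ w u l)⁻¹ • vv w u l) x
  have h1 : ⟪vv w u l, x⟫ = cc σ w u l * GG σ w u x := by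
    have hc := (cc_pos h l).ne'
    unfold GG
    rw [hl, inner_smul_left]
    simp only [conj_trivial]
    field_simp
  have h2 := inner_le_Vf w l (QQ u (s, x))
  rw [inner_w_QQ, h1] at h2
  have h3 : σ * s - Vf w (QQ u (s, x)) ≤ cc σ w u l * (s - GG σ w u x) := by
    have : cc σ w u l = σ + bb w u l := rfl
    rw [this] at h2 ⊢
    nlinarith
  have hc1 := cc_pos h l
  have hc2 := cc_le h l
  apply max_le
  · by_cases hs : 0 ≤ s - GG σ w u x
    · rw [max_eq_left hs]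
      nlinarith [mul_le_mul_of_nonneg_right hc2 hs]
    · have hs' := not_le.mp hs
      have : cc σ w u l * (s - GG σ w u x) < 0 := mul_neg_of_pos_of_neg hc1 hs'
      have h4 : 0 ≤ 2 * σ * max (s - GG σ w u x) 0 :=
        mul_nonneg (by positivity) (le_max_right _ _)
      linarith
  · exact mul_nonneg (by positivity) (le_max_right _ _)

/-- The strict cell. -/
def DD (σ : ℝ) (w : Fin m → E) (u : E) : Set E := {y | ∀ l, ⟪w l, y⟫ < ⟪σ • u, y⟫}

lemma measurableSet_DD (σ : ℝ) (w : Fin m → E) (u : E) : MeasurableSet (DD σ w u) := by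
  have h1 : DD σ w u = ⋂ l, {y | ⟪w l, y⟫ < ⟪σ • u, y⟫} := by
    ext y; simp [DD]
  rw [h1]
  refine MeasurableSet.iInter fun l => ?_
  exact measurableSet_lt (continuous_const.inner continuous_id).measurable
    (continuous_const.inner continuous_id).measurable

lemma mem_DD_iff (h : CellData σ u w) (s : ℝ) (x : E) :
    QQ u (s, x) ∈ DD σ w u ↔ GG σ w u x < s := by
  rw [GG_lt_iff h]
  refine forall_congr' (fun l => ?_)
  rw [inner_w_QQ, inner_smul_left, inner_u_QQ h.hu]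
  simp only [conj_trivial]
  have : cc σ w u l = σ + bb w u l := rfl
  rw [this]
  constructor
  · intro h1; nlinarith
  · intro h1; nlinarith

lemma integral_DD (h : CellData σ u w) :
    ∫ y in DD σ w u, ⟪u, y⟫ ∂(stdGaussian E) = ∫ x, phi (GG σ w u x) ∂(stdGaussian E) := by
  rw [← integral_indicator (measurableSet_DD σ w u)]
  rw [integral_eq_QQ u h.hu ((integrable_inner_gauss u).indicator (measurableSet_DD σ w u))]
  apply integral_congr_ae
  filter_upwards with x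
  have h1 : ∀ s, (DD σ w u).indicator (fun y => ⟪u, y⟫) (QQ u (s, x)) =
      (Ioi (GG σ w u x)).indicator (fun s => s) s := by
    intro s
    by_cases hs : GG σ w u x < s
    · rw [indicator_of_mem ((mem_DD_iff h s x).2 hs), indicator_of_mem (mem_Ioi.mpr hs),
        inner_u_QQ h.hu]
    · rw [indicator_of_notMem (fun hh => hs ((mem_DD_iff h s x).1 hh)),
        indicator_of_notMem (fun hh => hs (mem_Ioi.mp hh))]
  simp_rw [h1]
  rw [integral_indicator measurableSet_Ioi, integral_Ioi_id]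

lemma integrable_phi_GG (σ : ℝ) (w : Fin m → E) (u : E) :
    Integrable (fun x => phi (GG σ w u x)) (stdGaussian E) := by
  refine Integrable.of_bound (measurable_phi.comp (measurable_GG σ w u)).aestronglyMeasurable
    phi0 ?_
  filter_upwards with x
  rw [Real.norm_of_nonneg (phi_pos _).le]
  exact phi_le_phi0 _

lemma HH_split {G G₀ : ℝ} (hG : 0 ≤ G) (hG₀ : 0 ≤ G₀) :
    HH G ≤ phi G / (1 + G₀ ^ 2) + phi0 * (if G < G₀ then 1 else 0) := by
  have hd : 0 < 1 + G₀ ^ 2 := by positivity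
  by_cases hlt : G < G₀
  · simp only [hlt, if_true, mul_one]
    have : 0 ≤ phi G / (1 + G₀ ^ 2) := div_nonneg (phi_pos G).le hd.le
    linarith [HH_le_phi0 G hG]
  · simp only [hlt, if_false, mul_zero, add_zero]
    rw [le_div_iff₀ hd]
    have h1 : G₀ ≤ G := not_lt.mp hlt
    have h2 := HH_le G hG
    have h3 : G₀ ^ 2 ≤ G ^ 2 := by gcongr
    nlinarith [HH_nonneg G]

/-- The key bound for the gain integrated over the Gaussian measure. -/
lemma gain_bound (h : CellData σ u w) {G₀ : ℝ} (hG₀ : 0 ≤ G₀) :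
    ∫ y, max (⟪σ • u, y⟫ - Vf w y) 0 ∂(stdGaussian E) ≤
      2 * σ * ((∫ y in DD σ w u, ⟪u, y⟫ ∂(stdGaussian E)) / (1 + G₀ ^ 2) +
        phi0 * (stdGaussian E).real {x | GG σ w u x < G₀}) := by
  have hσ := h.hσ
  have hint : Integrable (fun y : E => max (⟪σ • u, y⟫ - Vf w y) 0) (stdGaussian E) :=
    ((integrable_inner_gauss (σ • u)).sub (integrable_Vf w)).sup (integrable_zero _ _ _)
  rw [integral_eq_QQ u h.hu hint, integral_DD h]
  set A := {x | GG σ w u x < G₀} with hA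
  have hAm : MeasurableSet A := measurableSet_lt (measurable_GG σ w u) measurable_const
  have hBi : Integrable (fun x => 2 * σ * (phi (GG σ w u x) / (1 + G₀ ^ 2) +
      phi0 * A.indicator (fun _ => (1 : ℝ)) x)) (stdGaussian E) := by
    refine Integrable.const_mul ?_ _
    refine ((integrable_phi_GG σ w u).div_const _).add ?_
    exact ((integrable_const (1 : ℝ)).indicator hAm).const_mul _
  have hbound : ∫ x, ∫ s, max (⟪σ • u, QQ u (s, x)⟫ - Vf w (QQ u (s, x))) 0 ∂NN ∂(stdGaussian E) ≤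
      ∫ x, 2 * σ * (phi (GG σ w u x) / (1 + G₀ ^ 2) +
      phi0 * A.indicator (fun _ => (1 : ℝ)) x) ∂(stdGaussian E) := by
    apply integral_mono_of_nonneg
    · filter_upwards with x
      exact integral_nonneg (fun s => le_max_right _ _)
    · exact hBi
    · filter_upwards with x
      have h1 : ∫ s, max (⟪σ • u, QQ u (s, x)⟫ - Vf w (QQ u (s, x))) 0 ∂NN ≤
          ∫ s, 2 * σ * max (s - GG σ w u x) 0 ∂NN := by
        apply integral_mono_of_nonneg
        · filter_upwards with s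
          exact le_max_right _ _
        · exact (integrable_max_sub _).const_mul _
        · filter_upwards with s
          have h2 := key_ineq h s x
          rw [inner_smul_left, inner_u_QQ h.hu]
          simpa using h2
      rw [integral_const_mul] at h1
      refine h1.trans ?_
      apply mul_le_mul_of_nonneg_left _ (by positivity)
      have h3 := HH_split (GG_nonneg h x) hG₀
      refine h3.trans (le_of_eq ?_)
      congr 2
  refine hbound.trans (le_of_eq ?_)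
  rw [integral_const_mul, integral_add ((integrable_phi_GG σ w u).div_const _)
    (((integrable_const (1 : ℝ)).indicator hAm).const_mul _), integral_div, integral_const_mul,
    integral_indicator hAm]
  simp

/-- The product regime. -/
lemma P_prod (h : CellData σ u w) (S : Finset (Fin m)) {G₀ τ : ℝ}
    (hS : ∀ l ∈ S, vv w u l ≠ 0 ∧ cc σ w u l * G₀ ≤ τ * ‖vv w u l‖) :
    (stdGaussian E).real {x | GG σ w u x < G₀} ≤ (NN.real (Iio τ)) ^ S.card := by
  have hsub : {x | GG σ w u x < G₀} ⊆ ⋂ l ∈ S, {x | ⟪vv w u l, x⟫ < cc σ w u l * G₀} := by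
    intro x hx
    simp only [mem_iInter]
    intro l _
    exact (GG_lt_iff h x G₀).1 hx l
  have hprod := prod_bound S (vv w u) (fun l => cc σ w u l * G₀)
    (fun i _ j _ hij => vv_obt h hij)
  have hfac : ∀ l ∈ S, stdGaussian E {x | ⟪vv w u l, x⟫ < cc σ w u l * G₀} ≤ NN (Iio τ) := by
    intro l hl
    obtain ⟨hne, hle⟩ := hS l hl
    have hpos : 0 < ‖vv w u l‖ := norm_pos_iff.mpr hne
    have h1 := measure_inner (E := E) (vv w u l) (S := Iio (cc σ w u l * G₀)) measurableSet_Iio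
    simp only [mem_Iio] at h1
    rw [h1]
    apply measure_mono
    intro s hs
    simp only [Set.mem_ofPred_eq] at hs
    rw [mem_Iio]
    have h2 : ‖vv w u l‖ * s < τ * ‖vv w u l‖ := hs.trans_le hle
    have h3 : s * ‖vv w u l‖ < τ * ‖vv w u l‖ := by linarith
    exact lt_of_mul_lt_mul_right h3 hpos.le
  have h2 : stdGaussian E {x | GG σ w u x < G₀} ≤ (NN (Iio τ)) ^ S.card :=
    (measure_mono hsub).trans (hprod.trans (Finset.prod_le_pow_card _ _ _ hfac))
  have h3 := ENNReal.toReal_mono (by finiteness) h2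
  rw [ENNReal.toReal_pow] at h3
  exact h3

/-- On the event all the forms are small in absolute value. -/
lemma abs_inner_vv_le (h : CellData σ u w) (hm : 2 ≤ m) {G₀ : ℝ} (hG₀ : 0 ≤ G₀) {x : E}
    (hx : GG σ w u x < G₀) (p : Fin m) :
    |⟪vv w u p, x⟫| ≤ ((m : ℝ) - 1) * (2 * σ * G₀) := by
  have hσ := h.hσ
  have h1 : ∀ l, ⟪vv w u l, x⟫ ≤ 2 * σ * G₀ := by
    intro l
    have h2 := (GG_lt_iff h x G₀).1 hx l
    have h3 := cc_le h l
    have h4 := mul_le_mul_of_nonneg_right h3 hG₀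
    linarith
  have hε : 0 ≤ 2 * σ * G₀ := by positivity
  have hm1 : (1 : ℝ) ≤ (m : ℝ) - 1 := by
    have : (2 : ℝ) ≤ m := by exact_mod_cast hm
    linarith
  have hsum : ∑ l, ⟪vv w u l, x⟫ = 0 := by
    rw [← sum_inner, sum_vv h, inner_zero_left]
  have h5 : ∑ l ∈ Finset.univ.erase p, ⟪vv w u l, x⟫ ≤ ((m : ℝ) - 1) * (2 * σ * G₀) := by
    calc ∑ l ∈ Finset.univ.erase p, ⟪vv w u l, x⟫
        ≤ ∑ _l ∈ Finset.univ.erase p, (2 * σ * G₀) := Finset.sum_le_sum (fun l _ => h1 l)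
      _ = ((m : ℝ) - 1) * (2 * σ * G₀) := by
        rw [Finset.sum_const, Finset.card_erase_of_mem (Finset.mem_univ p), Finset.card_univ,
          Fintype.card_fin, nsmul_eq_mul, Nat.cast_sub (by omega)]
        simp
  have h6 := Finset.add_sum_erase Finset.univ (fun l => ⟪vv w u l, x⟫) (Finset.mem_univ p)
  rw [hsum] at h6
  rw [abs_le]
  constructor
  · linarith
  · have := h1 p
    nlinarith

/-- Version of the box bound with a Gram lower bound. -/
lemma box_bound' (a b : E) {Γ w : ℝ} (hΓ : 0 < Γ) (hw : 0 ≤ w)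
    (hgram : Γ ^ 2 ≤ ‖a‖ ^ 2 * ‖b‖ ^ 2 - ⟪a, b⟫ ^ 2) :
    (stdGaussian E).real {x | |⟪a, x⟫| ≤ w ∧ |⟪b, x⟫| ≤ w} ≤ (2 * w * phi0) ^ 2 / Γ := by
  have ha : a ≠ 0 := by
    rintro rfl
    simp at hgram
    nlinarith [sq_pos_of_pos hΓ]
  have hane : ‖a‖ ≠ 0 := norm_ne_zero_iff.mpr ha
  have hapos : 0 < ‖a‖ := norm_pos_iff.mpr ha
  set e := ‖a‖⁻¹ • a with he
  have hee : ‖e‖ = 1 := norm_smul_inv_norm ha
  set c := b - ⟪b, e⟫ • e with hc
  have hcsq : ‖a‖ ^ 2 * ‖c‖ ^ 2 = ‖a‖ ^ 2 * ‖b‖ ^ 2 - ⟪a, b⟫ ^ 2 := by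
    have h1 : ‖c‖ ^ 2 = ‖b‖ ^ 2 - ⟪b, e⟫ ^ 2 := by
      rw [hc, norm_sub_sq_real, inner_smul_right, norm_smul, mul_pow, hee]
      simp
      ring
    have h2 : ⟪b, e⟫ = ‖a‖⁻¹ * ⟪a, b⟫ := by
      rw [he, inner_smul_right, real_inner_comm]
    rw [h1, h2]
    field_simp
  have hac : Γ ≤ ‖a‖ * ‖c‖ := by
    have h3 : Γ ^ 2 ≤ (‖a‖ * ‖c‖) ^ 2 := by
      rw [mul_pow, hcsq]
      exact hgram
    exact (pow_le_pow_iff_left₀ hΓ.le (by positivity) two_ne_zero).1 h3
  have hcne : c ≠ 0 := by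
    rintro h0
    rw [h0, norm_zero, mul_zero] at hac
    linarith
  have hcpos : 0 < ‖c‖ := norm_pos_iff.mpr hcne
  have hb := box_bound a b ha hcne w hw
  have h4 := ENNReal.toReal_mono (by finiteness) hb
  rw [ENNReal.toReal_ofReal (by have := phi0_pos; positivity)] at h4
  refine h4.trans ?_
  have h5 : 2 * w * phi0 / ‖a‖ * (2 * w * phi0 / ‖c‖) = (2 * w * phi0) ^ 2 / (‖a‖ * ‖c‖) := by
    field_simp
  rw [h5]
  have h6 : 0 ≤ (2 * w * phi0) ^ 2 := by positivity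
  exact div_le_div_of_nonneg_left h6 hΓ hac

/-- The box regime. -/
lemma P_box (h : CellData σ u w) (hm : 2 ≤ m) {G₀ : ℝ} (hG₀ : 0 ≤ G₀) {Γ : ℝ} (hΓ : 0 < Γ)
    {p q : Fin m}
    (hgram : Γ ^ 2 ≤ ‖vv w u p‖ ^ 2 * ‖vv w u q‖ ^ 2 - ⟪vv w u p, vv w u q⟫ ^ 2) :
    (stdGaussian E).real {x | GG σ w u x < G₀} ≤
      (2 * (((m : ℝ) - 1) * (2 * σ * G₀)) * phi0) ^ 2 / Γ := by
  have hσ := h.hσ
  have hm1 : (1 : ℝ) ≤ (m : ℝ) - 1 := by
    have : (2 : ℝ) ≤ m := by exact_mod_cast hm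
    linarith
  have hW : 0 ≤ ((m : ℝ) - 1) * (2 * σ * G₀) := by positivity
  refine le_trans (measureReal_mono ?_) (box_bound' (vv w u p) (vv w u q) hΓ hW hgram)
  intro x hx
  exact ⟨abs_inner_vv_le h hm hG₀ hx p, abs_inner_vv_le h hm hG₀ hx q⟩

/-- Gram lower bound for two big vectors. -/
lemma gram_lower (h : CellData σ u w) {p q : Fin m} {s₀ : ℝ} (hs₀ : 0 < s₀)
    (hp : s₀ ≤ ‖w p‖) (hq : s₀ ≤ ‖w q‖) (hσ4 : 4 * σ ≤ s₀)
    (hρ0 : ⟪w p, w q⟫ ≤ 0) (hρ : -(1 / 2) * (‖w p‖ * ‖w q‖) ≤ ⟪w p, w q⟫) :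
    ((3 / 4) * s₀ ^ 2) ^ 2 ≤ ‖vv w u p‖ ^ 2 * ‖vv w u q‖ ^ 2 - ⟪vv w u p, vv w u q⟫ ^ 2 := by
  rw [norm_vv_sq h, norm_vv_sq h, inner_vv_vv h]
  set A := ‖w p‖ with hA
  set B := ‖w q‖ with hB
  set ρ := ⟪w p, w q⟫ with hρdef
  set x := bb w u p with hx
  set y := bb w u q with hy
  have hx0 : 0 ≤ x := bb_nonneg h p
  have hy0 : 0 ≤ y := bb_nonneg h q
  have hxσ : x ≤ σ := bb_le h p
  have hyσ : y ≤ σ := bb_le h q
  have hA0 : 0 < A := by linarith
  have hB0 : 0 < B := by linarith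
  have hxA : 4 * x ≤ A := by linarith
  have hyB : 4 * y ≤ B := by linarith
  have hxsq : 16 * x ^ 2 ≤ A ^ 2 := by nlinarith
  have hysq : 16 * y ^ 2 ≤ B ^ 2 := by nlinarith
  have h1 : (15 / 16) * A ^ 2 ≤ A ^ 2 - x ^ 2 := by linarith
  have h2 : (15 / 16) * B ^ 2 ≤ B ^ 2 - y ^ 2 := by linarith
  have h3 : ((15 / 16) * A ^ 2) * ((15 / 16) * B ^ 2) ≤ (A ^ 2 - x ^ 2) * (B ^ 2 - y ^ 2) :=
    mul_le_mul h1 h2 (by positivity) (by nlinarith [sq_nonneg A])
  have hxy : 16 * (x * y) ≤ A * B := by nlinarith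
  have h4 : -(9 / 16) * (A * B) ≤ ρ - x * y := by nlinarith
  have h5 : ρ - x * y ≤ 0 := by nlinarith [mul_nonneg hx0 hy0]
  have hAB : 0 < A * B := mul_pos hA0 hB0
  have h6 : (ρ - x * y) ^ 2 ≤ ((9 / 16) * (A * B)) ^ 2 := by
    apply sq_le_sq'
    · linarith
    · linarith [mul_pos (by norm_num : (0 : ℝ) < 9 / 16) hAB]
  have h7 : (s₀ ^ 2) ^ 2 ≤ (A * B) ^ 2 := by
    have : s₀ ^ 2 ≤ A * B := by nlinarith
    gcongr
  have h8 : (A * B) ^ 2 = A ^ 2 * B ^ 2 := by ring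
  nlinarith

end

end Vale.Agent.Lib.P226
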