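import Mathlib
import Vale.Agent.Lib.P226.Cell

open MeasureTheory ProbabilityTheory Real Set Filter Topology
open scoped ENNReal NNReal RealInnerProductSpace

namespace Vale.Agent.Lib.P226

set_option linter.unusedSectionVars false

noncomputable section

lemma phi0_sq : phi0 ^ 2 = 1 / (2 * π) := by
  unfold phi0
  rw [inv_pow, Real.sq_sqrt (by positivity)]
  simp

lemma phi0_le : phi0 ≤ 399 / 1000 := by
  have h1 := phi0_sq
  have h2 := phi0_pos
  have h3 : 1 / (2 * π) ≤ (399 / 1000) ^ 2 := by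
    rw [div_le_iff₀ (by positivity)]
    nlinarith [Real.pi_gt_d4]
  rw [← h1] at h3
  exact (pow_le_pow_iff_left₀ h2.le (by norm_num) two_ne_zero).1 h3

lemma phi0_ge : 3989 / 10000 ≤ phi0 := by
  have h1 := phi0_sq
  have h2 := phi0_pos
  have h3 : (3989 / 10000) ^ 2 ≤ 1 / (2 * π) := by
    rw [le_div_iff₀ (by positivity)]
    nlinarith [Real.pi_lt_d4]
  rw [← h1] at h3
  exact (pow_le_pow_iff_left₀ (by norm_num) h2.le two_ne_zero).1 h3

lemma exp_neg_eight_le : rexp (-8) ≤ 1 / 2800 := by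
  have h1 : rexp 8 = rexp 1 ^ 8 := by
    rw [← Real.exp_nat_mul]
    norm_num
  have h2 : (2.7 : ℝ) ≤ rexp 1 := by
    have := Real.exp_one_gt_d9
    linarith
  have h3 : (2800 : ℝ) ≤ rexp 8 := by
    rw [h1]
    calc (2800 : ℝ) ≤ 2.7 ^ 8 := by norm_num
      _ ≤ _ := by gcongr
  rw [Real.exp_neg, ← one_div]
  exact one_div_le_one_div_of_le (by norm_num) h3

lemma phi_le_of_four_le {u : ℝ} (hu : 4 ≤ u) : phi u ≤ 1 / 7000 := by
  rw [phi_eq]
  have h1 : rexp (-u ^ 2 / 2) ≤ rexp (-8) := by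
    apply exp_le_exp.mpr
    nlinarith
  have h2 := phi0_le
  have h3 := phi0_pos
  have h4 := exp_pos (-u ^ 2 / 2)
  calc phi0 * rexp (-u ^ 2 / 2) ≤ (399 / 1000) * (1 / 2800) := by
        apply mul_le_mul h2 (h1.trans exp_neg_eight_le) h4.le (by norm_num)
    _ ≤ _ := by norm_num

variable {E : Type*} [NormedAddCommGroup E] [InnerProductSpace ℝ E] [FiniteDimensional ℝ E]
  [MeasurableSpace E] [BorelSpace E]

lemma integrable_max_inner (t : E) (a : ℝ) :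
    Integrable (fun x : E => max (⟪t, x⟫ - a) 0) (stdGaussian E) :=
  ((integrable_inner_gauss t).sub (integrable_const a)).sup (integrable_zero _ _ _)

lemma integral_max_inner (t : E) (a : ℝ) :
    ∫ x, max (⟪t, x⟫ - a) 0 ∂(stdGaussian E) = ∫ s, max (‖t‖ * s - a) 0 ∂NN := by
  have hm : Measurable fun r : ℝ => max (r - a) 0 := by fun_prop
  exact integral_inner_comp t hm

lemma integral_max_inner_zero (t : E) :
    ∫ x, max (⟪t, x⟫ - 0) 0 ∂(stdGaussian E) = ‖t‖ * phi0 := by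
  rw [integral_max_inner]
  by_cases ht : t = 0
  · subst ht
    simp
  · rw [integral_max_scale _ _ (norm_pos_iff.mpr ht), zero_div, HH_zero]

/-- Contribution of a small vector above the level three hundredths. -/
lemma integral_max_inner_small (t : E) (ht : ‖t‖ ≤ 3 / 400) :
    ∫ x, max (⟪t, x⟫ - 3 / 100) 0 ∂(stdGaussian E) ≤ (1 / 500) * ‖t‖ ^ 2 := by
  rw [integral_max_inner]
  by_cases ht0 : t = 0
  · subst ht0
    simp
    norm_num
  · have hσ : 0 < ‖t‖ := norm_pos_iff.mpr ht0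
    rw [integral_max_scale _ _ hσ]
    set σ := ‖t‖ with hσdef
    set v := (3 / 100 : ℝ) / σ with hv
    have hv4 : 4 ≤ v := by
      rw [hv, le_div_iff₀ hσ]
      linarith
    have hvσ : v * σ = 3 / 100 := by
      rw [hv]
      field_simp
    have h1 := HH_le v (by linarith)
    have h2 := phi_le_of_four_le hv4
    have h3 : 0 ≤ HH v := HH_nonneg v
    have h4 : v ^ 2 * HH v ≤ 1 / 7000 := by nlinarith
    have h5 : σ * HH v * (v * σ) ^ 2 ≤ σ ^ 3 * (1 / 7000) := by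
      have : σ * HH v * (v * σ) ^ 2 = σ ^ 3 * (v ^ 2 * HH v) := by ring
      rw [this]
      gcongr
    rw [hvσ] at h5
    have h6 : σ ^ 3 ≤ σ ^ 2 * (3 / 400) := by
      have : σ ^ 3 = σ ^ 2 * σ := by ring
      rw [this]
      gcongr
    nlinarith [sq_nonneg σ]

/-- If at most two vectors are big the expected maximum is small. -/
lemma VV_le_of_two_big {ι : Type*} [Fintype ι] [Nonempty ι] [DecidableEq ι] (T : ι → E)
    (hT : ∑ i, ‖T i‖ ^ 2 ≤ 1) (B : Finset ι) (hB : B.card ≤ 2)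
    (hs : ∀ j, j ∉ B → ‖T j‖ ≤ 3 / 400) : VV T ≤ 597 / 1000 := by
  set f : ι → E → ℝ := fun j x =>
    if j ∈ B then max (⟪T j, x⟫ - 0) 0 else max (⟪T j, x⟫ - 3 / 100) 0 with hf
  have hfi : ∀ j, Integrable (f j) (stdGaussian E) := by
    intro j
    by_cases hj : j ∈ B
    · simp only [hf, hj, if_true]
      exact integrable_max_inner _ _
    · simp only [hf, hj, if_false]
      exact integrable_max_inner _ _
  have hf0 : ∀ j x, 0 ≤ f j x := by
    intro j x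
    by_cases hj : j ∈ B
    · simp only [hf, hj, if_true]
      exact le_max_right _ _
    · simp only [hf, hj, if_false]
      exact le_max_right _ _
  have hpt : ∀ x, Vf T x ≤ 3 / 100 + ∑ j, f j x := by
    intro x
    obtain ⟨j, hj⟩ := exists_Vf_eq T x
    rw [hj]
    have h1 : f j x ≤ ∑ j, f j x :=
      Finset.single_le_sum (f := fun j => f j x) (fun j _ => hf0 j x) (Finset.mem_univ j)
    by_cases hjB : j ∈ B
    · have h2 : f j x = max (⟪T j, x⟫ - 0) 0 := by simp [hf, hjB]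
      have h3 := le_max_left (⟪T j, x⟫ - 0) 0
      linarith
    · have h2 : f j x = max (⟪T j, x⟫ - 3 / 100) 0 := by simp [hf, hjB]
      have h3 := le_max_left (⟪T j, x⟫ - 3 / 100) 0
      linarith
  have hint : VV T ≤ 3 / 100 + ∑ j, ∫ x, f j x ∂(stdGaussian E) := by
    unfold VV
    rw [← integral_finsetSum _ (fun j _ => hfi j)]
    have h5 : Integrable (fun x => ∑ j, f j x) (stdGaussian E) :=
      integrable_finsetSum _ (fun j _ => hfi j)
    have h6 := integral_mono (integrable_Vf T) ((integrable_const (3 / 100 : ℝ)).add h5) hpt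
    refine h6.trans (le_of_eq ?_)
    simp only [Pi.add_apply]
    rw [integral_add (integrable_const _) h5]
    simp
  have hterm : ∀ j, ∫ x, f j x ∂(stdGaussian E) ≤
      (if j ∈ B then ‖T j‖ * phi0 else 0) + (1 / 500) * ‖T j‖ ^ 2 := by
    intro j
    by_cases hj : j ∈ B
    · simp only [hf, hj, if_true]
      rw [integral_max_inner_zero]
      nlinarith [sq_nonneg ‖T j‖]
    · simp only [hf, hj, if_false, zero_add]
      exact integral_max_inner_small _ (hs j hj)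
  have hsum : ∑ j, ∫ x, f j x ∂(stdGaussian E) ≤
      (∑ j ∈ B, ‖T j‖) * phi0 + 1 / 500 := by
    calc _ ≤ ∑ j, ((if j ∈ B then ‖T j‖ * phi0 else 0) + (1 / 500) * ‖T j‖ ^ 2) :=
          Finset.sum_le_sum (fun j _ => hterm j)
      _ = (∑ j ∈ B, ‖T j‖) * phi0 + (1 / 500) * ∑ j, ‖T j‖ ^ 2 := by
          rw [Finset.sum_add_distrib, Finset.mul_sum, Finset.sum_mul]
          congr 1
          rw [Finset.sum_ite_mem]
          simp
      _ ≤ _ := by
          have : (1 / 500) * ∑ j, ‖T j‖ ^ 2 ≤ (1 / 500) * (1 : ℝ) := by gcongr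
          linarith
  have hB2 : (∑ j ∈ B, ‖T j‖) ^ 2 ≤ 2 := by
    have h1 := sq_sum_le_card_mul_sum_sq (s := B) (f := fun j => ‖T j‖)
    have h2 : ∑ j ∈ B, ‖T j‖ ^ 2 ≤ ∑ j, ‖T j‖ ^ 2 :=
      Finset.sum_le_sum_of_subset_of_nonneg (Finset.subset_univ B) (fun _ _ _ => sq_nonneg _)
    have h3 : (B.card : ℝ) ≤ 2 := by exact_mod_cast hB
    have h4 : (0 : ℝ) ≤ ∑ j ∈ B, ‖T j‖ ^ 2 := Finset.sum_nonneg (fun _ _ => sq_nonneg _)
    have h5 : ∑ j ∈ B, ‖T j‖ ^ 2 ≤ 1 := h2.trans hT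
    nlinarith
  have hB3 : ∑ j ∈ B, ‖T j‖ ≤ 14143 / 10000 := by
    have h0 : 0 ≤ ∑ j ∈ B, ‖T j‖ := Finset.sum_nonneg (fun _ _ => norm_nonneg _)
    nlinarith
  have h7 := phi0_le
  have h8 := phi0_pos
  have h9 : (∑ j ∈ B, ‖T j‖) * phi0 ≤ (14143 / 10000) * (399 / 1000) :=
    mul_le_mul hB3 h7 h8.le (by norm_num)
  have : (14143 / 10000 : ℝ) * (399 / 1000) = 0.56430570 := by norm_num
  norm_num at h9 ⊢
  linarith

/-- Three big vectors. -/
lemma big_three {n : ℕ} [NeZero n] (T : Fin n → E) (hT : T ∈ SS n) (hV : 598 / 1000 ≤ VV T) :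
    ∃ j₁ j₂ j₃, j₁ ≠ j₂ ∧ j₁ ≠ j₃ ∧ j₂ ≠ j₃ ∧ 3 / 400 ≤ ‖T j₁‖ ∧ 3 / 400 ≤ ‖T j₂‖ ∧
      3 / 400 ≤ ‖T j₃‖ := by
  set B := Finset.univ.filter (fun j => 3 / 400 ≤ ‖T j‖) with hB
  by_cases hcard : 2 < B.card
  · obtain ⟨a, b, c, ha, hb, hc, hab, hac, hbc⟩ := Finset.two_lt_card_iff.1 hcard
    simp only [hB, Finset.mem_filter, Finset.mem_univ, true_and] at ha hb hc
    exact ⟨a, b, c, hab, hac, hbc, ha, hb, hc⟩
  · exfalso
    have h1 := VV_le_of_two_big T hT B (not_lt.mp hcard) (by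
      intro j hj
      simp only [hB, Finset.mem_filter, Finset.mem_univ, true_and, not_le] at hj
      exact hj.le)
    linarith

omit [FiniteDimensional ℝ E] [MeasurableSpace E] [BorelSpace E] in
/-- Among three nonzero vectors two are not too obtuse. -/
lemma three_vectors (a b c : E) (ha : a ≠ 0) (hb : b ≠ 0) (hc : c ≠ 0) :
    -(1 / 2) * (‖a‖ * ‖b‖) ≤ ⟪a, b⟫ ∨ -(1 / 2) * (‖a‖ * ‖c‖) ≤ ⟪a, c⟫ ∨
      -(1 / 2) * (‖b‖ * ‖c‖) ≤ ⟪b, c⟫ := by
  by_contra hcon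
  simp only [not_or, not_le] at hcon
  obtain ⟨h1, h2, h3⟩ := hcon
  have hα : 0 < ‖a‖ := norm_pos_iff.mpr ha
  have hβ : 0 < ‖b‖ := norm_pos_iff.mpr hb
  have hγ : 0 < ‖c‖ := norm_pos_iff.mpr hc
  have h0 : 0 ≤ ‖(‖b‖ * ‖c‖) • a + (‖a‖ * ‖c‖) • b + (‖a‖ * ‖b‖) • c‖ ^ 2 := sq_nonneg _
  have h4 : ‖(‖b‖ * ‖c‖) • a + (‖a‖ * ‖c‖) • b + (‖a‖ * ‖b‖) • c‖ ^ 2 =
      3 * (‖a‖ * ‖b‖ * ‖c‖) ^ 2 + 2 * (‖a‖ * ‖b‖ * ‖c‖) *
        (‖c‖ * ⟪a, b⟫ + ‖b‖ * ⟪a, c⟫ + ‖a‖ * ⟪b, c⟫) := by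
    rw [norm_add_sq_real, norm_add_sq_real, inner_add_left, norm_smul, norm_smul, norm_smul]
    simp only [inner_smul_left, inner_smul_right, conj_trivial, Real.norm_eq_abs]
    rw [abs_of_pos (by positivity), abs_of_pos (by positivity), abs_of_pos (by positivity)]
    ring
  rw [h4] at h0
  set P := ‖a‖ * ‖b‖ * ‖c‖ with hP
  have hPpos : 0 < P := by positivity
  have h5 : ‖c‖ * ⟪a, b⟫ + ‖b‖ * ⟪a, c⟫ + ‖a‖ * ⟪b, c⟫ < -(3 / 2) * P := by
    have e1 : ‖c‖ * ⟪a, b⟫ < ‖c‖ * (-(1 / 2) * (‖a‖ * ‖b‖)) := by gcongr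
    have e2 : ‖b‖ * ⟪a, c⟫ < ‖b‖ * (-(1 / 2) * (‖a‖ * ‖c‖)) := by gcongr
    have e3 : ‖a‖ * ⟪b, c⟫ < ‖a‖ * (-(1 / 2) * (‖b‖ * ‖c‖)) := by gcongr
    rw [hP]
    nlinarith
  nlinarith

end

end Vale.Agent.Lib.P226
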