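import Mathlib
import Vale.Agent.Lib.P226.Big

open MeasureTheory ProbabilityTheory Real Set Filter Topology
open scoped ENNReal NNReal RealInnerProductSpace

namespace Vale.Agent.Lib.P226

set_option linter.unusedSectionVars false

noncomputable section

/-- The numerical input: decay of a polynomial times a geometric sequence. -/
lemma pow_bound (m : ℕ) (hm : 1200 ≤ m) :
    (((m : ℝ) - 1) ^ 2) * (1943 / 2000 : ℝ) ^ (m - 21) ≤ 229 / 10 ^ 11 := by
  induction m, hm using Nat.le_induction with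
  | base =>
    have h1 : (1943 / 2000 : ℝ) ^ 100 ≤ 5551 / 100000 := by norm_num
    have h2 : (1943 / 2000 : ℝ) ^ (1200 - 21) = ((1943 / 2000 : ℝ) ^ 100) ^ 11 * (1943 / 2000) ^ 79 := by
      rw [← pow_mul, ← pow_add]
    rw [h2]
    have h3 : ((1943 / 2000 : ℝ) ^ 100) ^ 11 ≤ (5551 / 100000) ^ 11 := by gcongr
    have h4 : (0 : ℝ) ≤ (1943 / 2000) ^ 79 := by positivity
    calc (((1200 : ℕ) : ℝ) - 1) ^ 2 * (((1943 / 2000 : ℝ) ^ 100) ^ 11 * (1943 / 2000) ^ 79)
        ≤ (((1200 : ℕ) : ℝ) - 1) ^ 2 * ((5551 / 100000) ^ 11 * (1943 / 2000) ^ 79) := by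
          gcongr
      _ ≤ _ := by norm_num
  | succ m hm ih =>
    have h1 : m + 1 - 21 = (m - 21) + 1 := by omega
    rw [h1, pow_succ]
    push_cast
    have hm1 : (1200 : ℝ) ≤ m := by exact_mod_cast hm
    have h2 : ((m : ℝ)) ^ 2 * (1943 / 2000) ≤ ((m : ℝ) - 1) ^ 2 := by nlinarith
    have h3 : (0 : ℝ) ≤ (1943 / 2000 : ℝ) ^ (m - 21) := by positivity
    calc ((m : ℝ) + 1 - 1) ^ 2 * ((1943 / 2000 : ℝ) ^ (m - 21) * (1943 / 2000))
        = (((m : ℝ)) ^ 2 * (1943 / 2000)) * (1943 / 2000 : ℝ) ^ (m - 21) := by ring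
      _ ≤ (((m : ℝ) - 1) ^ 2) * (1943 / 2000 : ℝ) ^ (m - 21) := by gcongr
      _ ≤ _ := ih

lemma exp_lower : (1666 / 10000 : ℝ) ≤ rexp (-(3564544 / 2000000)) := by
  have h1 : (1 - (3564544 / 2000000) / 200 : ℝ) ≤ rexp (-(3564544 / 2000000) / 200) := by
    have := Real.add_one_le_exp (-(3564544 / 2000000 : ℝ) / 200)
    linarith
  have h2 : (1 - (3564544 / 2000000) / 200 : ℝ) ^ 200 ≤ rexp (-(3564544 / 2000000)) := by
    calc (1 - (3564544 / 2000000) / 200 : ℝ) ^ 200
        ≤ (rexp (-(3564544 / 2000000) / 200)) ^ 200 := by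
          gcongr
      _ = _ := by
          rw [← Real.exp_nat_mul]
          congr 1
          norm_num
  refine le_trans ?_ h2
  norm_num

/-- Lower bound for the tail at the threshold `236/125`. -/
lemma tail_numeric : (57 / 2000 : ℝ) ≤ NN.real (Ioi (236 / 125)) := by
  have h1 := tail_lower (236 / 125) (233 / 100)
  have h2 : phi (236 / 125) = phi0 * rexp (-(3564544 / 2000000)) := by
    rw [phi_eq]
    congr 2
    norm_num
  rw [h2] at h1
  have h3 := phi0_ge
  have h4 := exp_lower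
  have h5 : (3989 / 10000 : ℝ) * (1666 / 10000) ≤ phi0 * rexp (-(3564544 / 2000000)) :=
    mul_le_mul h3 h4 (by norm_num) phi0_pos.le
  norm_num at h1 h5 ⊢
  linarith

lemma theta_numeric : NN.real (Iio (236 / 125)) ≤ 1943 / 2000 := by
  have h1 := real_Iio_le (236 / 125)
  have h2 := tail_numeric
  linarith

variable {E : Type*} [NormedAddCommGroup E] [InnerProductSpace ℝ E] [FiniteDimensional ℝ E]
  [MeasurableSpace E] [BorelSpace E]

lemma Vf_succAbove {m : ℕ} [NeZero m] (T : Fin (m + 1) → E) (i : Fin (m + 1)) (x : E) :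
    Vf T x = Vf (fun l => T (i.succAbove l)) x +
      max (⟪T i, x⟫ - Vf (fun l => T (i.succAbove l)) x) 0 := by
  set Y := Vf (fun l => T (i.succAbove l)) x with hY
  have hmax : Y + max (⟪T i, x⟫ - Y) 0 = max ⟪T i, x⟫ Y := by
    rcases le_total ⟪T i, x⟫ Y with h | h
    · rw [max_eq_right (by linarith), max_eq_right h]; ring
    · rw [max_eq_left (by linarith), max_eq_left h]; ring
  rw [hmax]
  apply le_antisymm
  · apply Vf_le
    intro j
    by_cases hj : j = i
    · rw [hj]; exact le_max_left _ _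
    · obtain ⟨l, rfl⟩ := Fin.exists_succAbove_eq hj
      exact (inner_le_Vf (fun l => T (i.succAbove l)) l x).trans (le_max_right _ _)
  · apply max_le
    · exact inner_le_Vf T i x
    · apply Vf_le
      intro l
      exact inner_le_Vf T _ x

lemma VV_succAbove {m : ℕ} [NeZero m] (T : Fin (m + 1) → E) (i : Fin (m + 1)) :
    VV T = VV (fun l => T (i.succAbove l)) +
      ∫ x, max (⟪T i, x⟫ - Vf (fun l => T (i.succAbove l)) x) 0 ∂(stdGaussian E) := by
  unfold VV
  have hi : Integrable (fun x => max (⟪T i, x⟫ - Vf (fun l => T (i.succAbove l)) x) 0)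
      (stdGaussian E) :=
    ((integrable_inner_gauss _).sub (integrable_Vf _)).sup (integrable_zero _ _ _)
  rw [← integral_add (integrable_Vf _) hi]
  congr 1
  ext x
  exact Vf_succAbove T i x

omit [FiniteDimensional ℝ E] [MeasurableSpace E] [BorelSpace E] in
lemma Vf_smul {ι : Type*} [Fintype ι] [Nonempty ι] (T : ι → E) {c : ℝ} (hc : 0 < c) (x : E) :
    Vf (fun l => c • T l) x = c * Vf T x := by
  apply le_antisymm
  · apply Vf_le
    intro l
    rw [inner_smul_left]
    simp only [conj_trivial]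
    exact mul_le_mul_of_nonneg_left (inner_le_Vf T l x) hc.le
  · obtain ⟨l, hl⟩ := exists_Vf_eq T x
    rw [hl]
    have := inner_le_Vf (fun l => c • T l) l x
    rw [inner_smul_left] at this
    simpa using this

lemma VV_smul {ι : Type*} [Fintype ι] [Nonempty ι] (T : ι → E) {c : ℝ} (hc : 0 < c) :
    VV (fun l => c • T l) = c * VV T := by
  unfold VV
  simp_rw [Vf_smul T hc]
  rw [integral_const_mul]

/-- Bound for the probability in the two regimes. -/
lemma P_numeric {m : ℕ} [NeZero m] (hm : 1200 ≤ m) {σ : ℝ} {u : E} {w : Fin m → E}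
    (h : CellData σ u w) (hmin : ∀ l, σ ≤ ‖w l‖) {V : ℝ} (hV : 598 / 1000 ≤ V)
    (hbig : 4 * σ < 3 / 400 → ∃ p q, p ≠ q ∧ 3 / 400 ≤ ‖w p‖ ∧ 3 / 400 ≤ ‖w q‖ ∧
      -(1 / 2) * (‖w p‖ * ‖w q‖) ≤ ⟪w p, w q⟫) :
    phi0 * (stdGaussian E).real {x | GG σ w u x < 9 / 5} ≤ (3 / 212) * V * σ := by
  have hσ := h.hσ
  set P := (stdGaussian E).real {x | GG σ w u x < 9 / 5} with hP
  have hP0 : 0 ≤ P := measureReal_nonneg
  have ha := phi0_pos
  have ha' := phi0_le
  -- the good indices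
  set S := Finset.univ.filter (fun l => bb w u l ≤ σ / 21) with hS
  set S' := Sᶜ with hS'
  have hcard' : S'.card ≤ 21 := by
    have h1 : (S'.card : ℝ) * (σ / 21) ≤ ∑ l ∈ S', bb w u l := by
      rw [← nsmul_eq_mul]
      apply Finset.card_nsmul_le_sum
      intro l hl
      simp only [hS', hS, Finset.mem_compl, Finset.mem_filter, Finset.mem_univ, true_and,
        not_le] at hl
      exact hl.le
    have h2 : ∑ l ∈ S', bb w u l ≤ ∑ l, bb w u l :=
      Finset.sum_le_sum_of_subset_of_nonneg (Finset.subset_univ _) (fun l _ _ => bb_nonneg h l)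
    rw [sum_bb h] at h2
    have h3 : (S'.card : ℝ) * (σ / 21) ≤ σ := h1.trans h2
    have h4 : (S'.card : ℝ) ≤ 21 := by
      by_contra hcon
      have hcon' : (21 : ℝ) < S'.card := not_le.mp hcon
      have : 21 * (σ / 21) < (S'.card : ℝ) * (σ / 21) := by
        apply mul_lt_mul_of_pos_right hcon' (by positivity)
      have e : 21 * (σ / 21) = σ := by ring
      linarith
    exact_mod_cast h4
  have hcard : m - 21 ≤ S.card := by
    have h1 : S'.card = m - S.card := by
      rw [hS', Finset.card_compl, Fintype.card_fin]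
    omega
  have hgood : ∀ l ∈ S, vv w u l ≠ 0 ∧ cc σ w u l * (9 / 5) ≤ (236 / 125) * ‖vv w u l‖ := by
    intro l hl
    simp only [hS, Finset.mem_filter, Finset.mem_univ, true_and] at hl
    have hb0 := bb_nonneg h l
    have hn := norm_vv_sq h l
    have hwl := hmin l
    have hσsq : σ ^ 2 ≤ ‖w l‖ ^ 2 := by gcongr
    have hbsq : bb w u l ^ 2 ≤ (σ / 21) ^ 2 := by gcongr
    have hvsq : (440 / 441) * σ ^ 2 ≤ ‖vv w u l‖ ^ 2 := by
      rw [hn]
      have : (σ / 21) ^ 2 = σ ^ 2 / 441 := by ring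
      linarith
    have hσ2 : 0 < σ ^ 2 := by positivity
    constructor
    · intro h0
      rw [h0, norm_zero] at hvsq
      nlinarith
    · have hc : cc σ w u l ≤ (22 / 21) * σ := by
        unfold cc
        linarith
      have hc0 := cc_pos h l
      have hsq : (cc σ w u l * (9 / 5)) ^ 2 ≤ ((236 / 125) * ‖vv w u l‖) ^ 2 := by
        have h1 : cc σ w u l ^ 2 ≤ ((22 / 21) * σ) ^ 2 := by gcongr
        rw [mul_pow, mul_pow]
        norm_num at h1 hvsq ⊢
        nlinarith
      exact (pow_le_pow_iff_left₀ (by positivity) (by positivity) two_ne_zero).1 hsq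
  have hprod := P_prod h S hgood
  have hθ : NN.real (Iio (236 / 125)) ≤ 1943 / 2000 := theta_numeric
  have hP1 : P ≤ (1943 / 2000 : ℝ) ^ (m - 21) := by
    calc P ≤ (NN.real (Iio (236 / 125))) ^ S.card := hprod
      _ ≤ (1943 / 2000 : ℝ) ^ S.card := by
        gcongr
      _ ≤ (1943 / 2000 : ℝ) ^ (m - 21) :=
        pow_le_pow_of_le_one (by norm_num) (by norm_num) hcard
  set y := (1943 / 2000 : ℝ) ^ (m - 21) with hy
  have hy0 : 0 < y := by positivity
  have hA := pow_bound m hm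
  rw [← hy] at hA
  have hm1 : (1199 : ℝ) ≤ (m : ℝ) - 1 := by
    have : (1200 : ℝ) ≤ m := by exact_mod_cast hm
    linarith
  set A := ((m : ℝ) - 1) ^ 2 with hAdef
  have hA1 : 1 ≤ A := by
    rw [hAdef]
    nlinarith
  have hy1 : y ≤ 229 / 10 ^ 11 := by nlinarith
  by_cases hcase : phi0 * y ≤ (3 / 212) * V * σ
  · calc phi0 * P ≤ phi0 * y := by gcongr
      _ ≤ _ := hcase
  · -- the box regime
    have hcase' : (3 / 212) * V * σ < phi0 * y := not_le.mp hcase
    set r := (3 / 212) * V * σ with hr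
    have hr0 : 0 < r := by positivity
    have hry : r < (399 / 1000) * (229 / 10 ^ 11) := by
      calc r < phi0 * y := hcase'
        _ ≤ _ := mul_le_mul ha' hy1 hy0.le (by norm_num)
    have hσ4 : 4 * σ < 3 / 400 := by
      have h1 : (3 / 212) * (598 / 1000) * σ ≤ r := by
        rw [hr]
        gcongr
      nlinarith
    obtain ⟨p, q, hpq, hp, hq, hρ⟩ := hbig hσ4
    have hgram := gram_lower h (by norm_num : (0 : ℝ) < 3 / 400) hp hq hσ4.le (h.obt p q hpq) hρ
    have hbox := P_box h (by omega) (by norm_num : (0 : ℝ) ≤ 9 / 5)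
      (by norm_num : (0 : ℝ) < (3 / 4) * (3 / 400) ^ 2) hgram
    have hm2 : (2 : ℝ) * (((m : ℝ) - 1) * (2 * σ * (9 / 5))) * phi0 =
        ((m : ℝ) - 1) * (σ * phi0) * (36 / 5) := by ring
    rw [hm2, mul_pow, mul_pow, mul_pow, ← hAdef] at hbox
    -- P ≤ A σ² φ0² (36/5)² / Γ
    have hΓ : ((3 / 4 : ℝ) * (3 / 400) ^ 2) = 27 / 640000 := by norm_num
    rw [hΓ] at hbox
    have hgoal : phi0 * P ≤ r := by
      have h1 : phi0 * P ≤ phi0 * (A * (σ ^ 2 * phi0 ^ 2) * (36 / 5) ^ 2 / (27 / 640000)) := by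
        gcongr
      refine h1.trans ?_
      have hV2 : (598 / 1000 : ℝ) ^ 2 ≤ V ^ 2 := by gcongr
      have hk : r * r = ((3 / 212) * V) ^ 2 * σ ^ 2 := by rw [hr]; ring
      -- multiply through by the positive quantity r
      have hkey : phi0 * (A * (σ ^ 2 * phi0 ^ 2) * (36 / 5) ^ 2 / (27 / 640000)) * r ≤ r * r := by
        have e1 : phi0 * (A * (σ ^ 2 * phi0 ^ 2) * (36 / 5) ^ 2 / (27 / 640000)) * r =
            (phi0 ^ 3 * A * r) * (σ ^ 2 * ((36 / 5) ^ 2 / (27 / 640000))) := by ring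
        have e2 : phi0 ^ 3 * A * r ≤ phi0 ^ 3 * A * (phi0 * y) := by
          gcongr
        have e3 : phi0 ^ 3 * A * (phi0 * y) = phi0 ^ 4 * (A * y) := by ring
        have e4 : phi0 ^ 4 ≤ (399 / 1000) ^ 4 := by gcongr
        have e5 : phi0 ^ 4 * (A * y) ≤ (399 / 1000) ^ 4 * (229 / 10 ^ 11) :=
          mul_le_mul e4 hA (by positivity) (by norm_num)
        have e6 : phi0 ^ 3 * A * r ≤ (399 / 1000) ^ 4 * (229 / 10 ^ 11) :=
          e2.trans (e3.le.trans e5)
        rw [e1, hk]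
        have hσ2 : 0 ≤ σ ^ 2 := sq_nonneg σ
        have e7 : (399 / 1000 : ℝ) ^ 4 * (229 / 10 ^ 11) * ((36 / 5) ^ 2 / (27 / 640000)) ≤
            ((3 / 212) ^ 2 * (598 / 1000) ^ 2 : ℝ) := by norm_num
        calc (phi0 ^ 3 * A * r) * (σ ^ 2 * ((36 / 5) ^ 2 / (27 / 640000)))
            = (phi0 ^ 3 * A * r) * ((36 / 5) ^ 2 / (27 / 640000)) * σ ^ 2 := by ring
          _ ≤ ((399 / 1000 : ℝ) ^ 4 * (229 / 10 ^ 11)) * ((36 / 5) ^ 2 / (27 / 640000)) * σ ^ 2 := by
              gcongr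
          _ ≤ ((3 / 212) ^ 2 * (598 / 1000) ^ 2 : ℝ) * σ ^ 2 := by gcongr
          _ ≤ ((3 / 212) ^ 2 * V ^ 2) * σ ^ 2 := by gcongr
          _ = _ := by ring
      exact le_of_mul_le_mul_right hkey hr0
    exact hgoal

/-- The descent step: a maximizer with many vectors can lose its smallest vector. -/
theorem descent_step {m : ℕ} (hm : 1200 ≤ m) (T : Fin (m + 1) → E) (hT : Opt T)
    (hV : 598 / 1000 ≤ VV T) :
    ∃ T' : Fin m → E, T' ∈ (SS m : Set (Fin m → E)) ∧ VV T ≤ VV T' := by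
  have : NeZero m := ⟨by omega⟩
  have hVpos : 0 < VV T := by linarith
  obtain ⟨i, -, hi⟩ := Finset.exists_min_image (Finset.univ : Finset (Fin (m + 1)))
    (fun j => ‖T j‖) ⟨0, Finset.mem_univ _⟩
  have hi' : ∀ j, ‖T i‖ ≤ ‖T j‖ := fun j => hi j (Finset.mem_univ j)
  set σ := ‖T i‖ with hσdef
  have hσ0 : 0 ≤ σ := norm_nonneg _
  set w : Fin m → E := fun l => T (i.succAbove l) with hw
  have hsum1 := opt_sum_sq_eq hT hVpos
  have hsum2 : ∑ j, ‖T j‖ ^ 2 = σ ^ 2 + ∑ l, ‖w l‖ ^ 2 :=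
    Fin.sum_univ_succAbove (fun j => ‖T j‖ ^ 2) i
  have hσsmall : σ ^ 2 * (m + 1) ≤ 1 := by
    have h1 : ∑ _j : Fin (m + 1), σ ^ 2 ≤ ∑ j, ‖T j‖ ^ 2 :=
      Finset.sum_le_sum (fun j _ => by
        have := hi' j
        gcongr)
    simp only [Finset.sum_const, Finset.card_univ, Fintype.card_fin, nsmul_eq_mul] at h1
    push_cast at h1
    linarith
  have hm1 : (1200 : ℝ) ≤ m := by exact_mod_cast hm
  have hσ2 : σ ^ 2 ≤ 1 / 1200 := by
    have : 0 ≤ σ ^ 2 := sq_nonneg σ
    nlinarith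
  have hwsum : ∑ l, w l + T i = 0 := by
    have := Fin.sum_univ_succAbove T i
    rw [opt_sum_zero hT hVpos] at this
    rw [add_comm]
    exact this.symm
  rcases hσ0.eq_or_lt with h0 | hσpos
  · -- the zero vector can be dropped
    have hTi : T i = 0 := norm_eq_zero.mp h0.symm
    refine ⟨w, ?_, ?_⟩
    · rw [mem_SS]
      have : ∑ l, ‖w l‖ ^ 2 = 1 := by
        rw [← h0] at hsum2
        linarith [hsum1, hsum2, sq_nonneg (0 : ℝ)]
      linarith
    · apply le_of_eq
      have hVT : VV T = VV w + ∫ x, max (⟪T i, x⟫ - Vf w x) 0 ∂(stdGaussian E) :=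
        VV_succAbove T i
      rw [hVT]
      have : ∀ x, max (⟪T i, x⟫ - Vf w x) 0 = 0 := by
        intro x
        rw [hTi, inner_zero_left]
        apply max_eq_right
        have h1 : ∑ l, ⟪w l, x⟫ = 0 := by
          rw [← sum_inner]
          rw [hTi, add_zero] at hwsum
          rw [hwsum, inner_zero_left]
        have h2 : ∑ l, ⟪w l, x⟫ ≤ ∑ _l : Fin m, Vf w x :=
          Finset.sum_le_sum (fun l _ => inner_le_Vf w l x)
        rw [h1] at h2
        simp only [Finset.sum_const, Finset.card_univ, Fintype.card_fin, nsmul_eq_mul] at h2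
        by_contra hcon
        have hcon' : Vf w x < 0 := by linarith [not_le.mp hcon]
        have hmpos : (0 : ℝ) < m := by linarith
        have := mul_neg_of_pos_of_neg hmpos hcon'
        linarith
      simp_rw [this]
      simp
  · -- the main case
    have hTi : T i ≠ 0 := by
      intro h0
      rw [hσdef, h0, norm_zero] at hσpos
      exact lt_irrefl _ hσpos
    set u := σ⁻¹ • T i with hu
    have hTu : σ • u = T i := by
      rw [hu, smul_smul, mul_inv_cancel₀ hσpos.ne', one_smul]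
    have hcell : CellData σ u w := by
      refine ⟨hσpos, norm_smul_inv_norm hTi, ?_, ?_, ?_⟩
      · intro l
        rw [hu, inner_smul_right]
        apply mul_nonpos_of_nonneg_of_nonpos (by positivity)
        exact opt_obtuse hT hVpos (Fin.succAbove_ne i l)
      · rw [hTu]
        exact hwsum
      · intro l r hlr
        exact opt_obtuse hT hVpos (fun h => hlr (Fin.succAbove_right_injective h))
    have hmin : ∀ l, σ ≤ ‖w l‖ := fun l => hi' _
    -- the gain
    have hgain := gain_bound hcell (by norm_num : (0 : ℝ) ≤ 9 / 5)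
    rw [hTu] at hgain
    have hM : ∫ y in DD σ w u, ⟪u, y⟫ ∂(stdGaussian E) ≤ VV T * σ := by
      have h1 : ⟪u, T i⟫ = σ := by
        rw [hu, inner_smul_left, real_inner_self_eq_norm_sq]
        simp only [conj_trivial]
        rw [← hσdef]
        field_simp
      have h2 := opt_inner_cell hT hVpos i u
      rw [h1] at h2
      rw [← h2]
      apply setIntegral_mono_set (integrable_inner_gauss u).integrableOn
      · have hm : MeasurableSet (vorCell T i) := (isPart_vorCell T).meas i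
        filter_upwards [ae_restrict_mem hm] with y hy
        have h3 := opt_nonneg_cell hT hVpos hy
        have h4 : ⟪T i, y⟫ = σ * ⟪u, y⟫ := by
          rw [← hTu, inner_smul_left]
          simp
        rw [h4] at h3
        exact nonneg_of_mul_nonneg_right h3 hσpos
      · apply Eventually.of_forall
        intro y hy
        apply strict_subset_vorCell T i
        intro j hj
        obtain ⟨l, rfl⟩ := Fin.exists_succAbove_eq hj
        have := hy l
        rw [hTu] at this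
        exact this
    -- the big vectors
    have hbig : 4 * σ < 3 / 400 → ∃ p q, p ≠ q ∧ 3 / 400 ≤ ‖w p‖ ∧ 3 / 400 ≤ ‖w q‖ ∧
        -(1 / 2) * (‖w p‖ * ‖w q‖) ≤ ⟪w p, w q⟫ := by
      intro h4σ
      obtain ⟨j₁, j₂, j₃, h12, h13, h23, hb1, hb2, hb3⟩ := big_three T hT.mem hV
      have hne : ∀ j, 3 / 400 ≤ ‖T j‖ → j ≠ i := by
        rintro j hj rfl
        rw [← hσdef] at hj
        linarith
      obtain ⟨l₁, rfl⟩ := Fin.exists_succAbove_eq (hne j₁ hb1)
      obtain ⟨l₂, rfl⟩ := Fin.exists_succAbove_eq (hne j₂ hb2)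
      obtain ⟨l₃, rfl⟩ := Fin.exists_succAbove_eq (hne j₃ hb3)
      have hn0 : ∀ {a : E}, 3 / 400 ≤ ‖a‖ → a ≠ 0 := by
        rintro a ha rfl
        rw [norm_zero] at ha
        linarith
      rcases three_vectors (w l₁) (w l₂) (w l₃) (hn0 hb1) (hn0 hb2) (hn0 hb3) with h | h | h
      · exact ⟨l₁, l₂, fun e => h12 (by rw [e]), hb1, hb2, h⟩
      · exact ⟨l₁, l₃, fun e => h13 (by rw [e]), hb1, hb3, h⟩
      · exact ⟨l₂, l₃, fun e => h23 (by rw [e]), hb2, hb3, h⟩
    have hP := P_numeric hm hcell hmin hV hbig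
    -- the gain is small
    have hg : ∫ x, max (⟪T i, x⟫ - Vf w x) 0 ∂(stdGaussian E) ≤ (VV T / 2) * σ ^ 2 := by
      refine hgain.trans ?_
      have h1 : (∫ y in DD σ w u, ⟪u, y⟫ ∂(stdGaussian E)) / (1 + (9 / 5 : ℝ) ^ 2) ≤
          (VV T * σ) * (25 / 106) := by
        rw [div_eq_mul_inv]
        have : ((1 + (9 / 5 : ℝ) ^ 2))⁻¹ = 25 / 106 := by norm_num
        rw [this]
        gcongr
      have h2 : 2 * σ * ((∫ y in DD σ w u, ⟪u, y⟫ ∂(stdGaussian E)) / (1 + (9 / 5 : ℝ) ^ 2) +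
          phi0 * (stdGaussian E).real {x | GG σ w u x < 9 / 5}) ≤
          2 * σ * ((VV T * σ) * (25 / 106) + (3 / 212) * VV T * σ) := by
        gcongr
      refine h2.trans (le_of_eq ?_)
      ring
    -- rescale
    have hVT : VV T = VV w + ∫ x, max (⟪T i, x⟫ - Vf w x) 0 ∂(stdGaussian E) :=
      VV_succAbove T i
    have h1σ : 0 < 1 - σ ^ 2 := by linarith
    set ρ := √(1 - σ ^ 2) with hρ
    have hρpos : 0 < ρ := Real.sqrt_pos.mpr h1σ
    have hρsq : ρ ^ 2 = 1 - σ ^ 2 := Real.sq_sqrt h1σ.le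
    refine ⟨fun l => ρ⁻¹ • w l, ?_, ?_⟩
    · rw [mem_SS]
      have : ∑ l, ‖ρ⁻¹ • w l‖ ^ 2 = (ρ⁻¹) ^ 2 * ∑ l, ‖w l‖ ^ 2 := by
        rw [Finset.mul_sum]
        apply Finset.sum_congr rfl
        intro l _
        rw [norm_smul, mul_pow, norm_inv, Real.norm_eq_abs, abs_of_pos hρpos]
      rw [this]
      have h2 : ∑ l, ‖w l‖ ^ 2 = ρ ^ 2 := by
        rw [hρsq]
        linarith
      rw [h2]
      apply le_of_eq
      field_simp
    · rw [VV_smul w (inv_pos.mpr hρpos)]
      have h3 : VV T * (1 - σ ^ 2 / 2) ≤ VV w := by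
        have e : VV T * (1 - σ ^ 2 / 2) = VV T - (VV T / 2) * σ ^ 2 := by ring
        rw [e]
        linarith
      have h4 : ρ ≤ 1 - σ ^ 2 / 2 := by
        have h5 : ρ ^ 2 ≤ (1 - σ ^ 2 / 2) ^ 2 := by
          rw [hρsq]
          nlinarith [sq_nonneg (σ ^ 2)]
        exact (pow_le_pow_iff_left₀ hρpos.le (by nlinarith) two_ne_zero).1 h5
      rw [inv_mul_eq_div, le_div_iff₀ hρpos]
      calc VV T * ρ ≤ VV T * (1 - σ ^ 2 / 2) := by gcongr
        _ ≤ _ := h3

end

end Vale.Agent.Lib.P226
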