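import Mathlib
import Vale.Agent.Lib.P226.Descent

open MeasureTheory ProbabilityTheory Real Set Filter Topology
open scoped ENNReal NNReal RealInnerProductSpace

namespace Vale.Agent.Lib.P226

set_option linter.unusedSectionVars false

noncomputable section

variable {E : Type*} [NormedAddCommGroup E] [InnerProductSpace ℝ E] [FiniteDimensional ℝ E]
  [MeasurableSpace E] [BorelSpace E]

/-- Iterating the descent from any number of vectors down to 1200 vectors. -/
theorem reduce_to (k : ℕ) (hk : 1200 ≤ k) :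
    ∀ T : Fin k → E, T ∈ (SS k : Set (Fin k → E)) → 598 / 1000 ≤ VV T →
      ∃ T' : Fin 1200 → E, T' ∈ (SS 1200 : Set (Fin 1200 → E)) ∧ VV T ≤ VV T' := by
  induction k, hk using Nat.le_induction with
  | base => exact fun T hT _ => ⟨T, hT, le_rfl⟩
  | succ k hk ih =>
    intro T hT hV
    obtain ⟨S, hS, hmax⟩ := exists_opt (E := E) (k + 1)
    have hopt : Opt S := ⟨hS, hmax⟩
    have h1 : VV T ≤ VV S := hmax T hT
    obtain ⟨T₁, hT₁, h2⟩ := descent_step hk S hopt (by linarith)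
    obtain ⟨T₂, hT₂, h3⟩ := ih T₁ hT₁ (by linarith)
    exact ⟨T₂, hT₂, by linarith⟩

/-- Padding with zero vectors. -/
theorem pad_to (k : ℕ) [NeZero k] (hk : k ≤ 1200) (T : Fin k → E)
    (hT : T ∈ (SS k : Set (Fin k → E))) :
    ∃ T' : Fin 1200 → E, T' ∈ (SS 1200 : Set (Fin 1200 → E)) ∧ VV T ≤ VV T' := by
  set T' : Fin 1200 → E := fun j => if h : j.1 < k then T ⟨j.1, h⟩ else 0 with hT'
  refine ⟨T', ?_, ?_⟩
  · rw [mem_SS]
    have h1 : ∑ j : Fin 1200, ‖T' j‖ ^ 2 = ∑ j ∈ Finset.univ.map (Fin.castLEEmb hk), ‖T' j‖ ^ 2 := by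
      symm
      apply Finset.sum_subset (Finset.subset_univ _)
      intro j _ hj
      have hjk : ¬ j.1 < k := by
        intro h
        apply hj
        simp only [Finset.mem_map, Finset.mem_univ, true_and]
        exact ⟨⟨j.1, h⟩, by ext; simp⟩
      simp [hT', hjk]
    rw [h1, Finset.sum_map]
    have h2 : ∀ i : Fin k, ‖T' (Fin.castLEEmb hk i)‖ ^ 2 = ‖T i‖ ^ 2 := by
      intro i
      simp [hT']
    simp_rw [h2]
    exact hT
  · unfold VV
    apply integral_mono (integrable_Vf T) (integrable_Vf T')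
    intro x
    apply Vf_le
    intro i
    have h1 := inner_le_Vf T' (Fin.castLEEmb hk i) x
    have h2 : T' (Fin.castLEEmb hk i) = T i := by
      simp [hT']
    rwa [h2] at h1

/-- Any family with large expected maximum yields a partition with 1200 cells. -/
theorem partition_of_family (T : Fin 1200 → E) (hT : T ∈ (SS 1200 : Set (Fin 1200 → E))) :
    ∃ B : Fin 1200 → Set E, IsPart B ∧ VV T ^ 2 ≤ ∑ i, ‖zz (B i)‖ ^ 2 := by
  refine ⟨vorCell T, isPart_vorCell T, ?_⟩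
  have h1 : 0 ≤ ∑ i, ‖zz (vorCell T i) - VV T • T i‖ ^ 2 :=
    Finset.sum_nonneg (fun _ _ => sq_nonneg _)
  have h2 : ∀ i, ‖zz (vorCell T i) - VV T • T i‖ ^ 2 =
      ‖zz (vorCell T i)‖ ^ 2 - 2 * VV T * ⟪T i, zz (vorCell T i)⟫ + VV T ^ 2 * ‖T i‖ ^ 2 := by
    intro i
    rw [norm_sub_sq_real, norm_smul, mul_pow, inner_smul_right, real_inner_comm]
    simp
    ring
  simp_rw [h2] at h1
  rw [Finset.sum_add_distrib, Finset.sum_sub_distrib, ← Finset.mul_sum, ← Finset.mul_sum,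
    sum_inner_vorCell T] at h1
  have h3 : ∑ i, ‖T i‖ ^ 2 ≤ 1 := hT
  have h4 : VV T ^ 2 * ∑ i, ‖T i‖ ^ 2 ≤ VV T ^ 2 * 1 := by gcongr
  nlinarith

/-- From a partition with large value to a family of 1200 vectors. -/
theorem family_of_partition (k : ℕ) (A : Fin k → Set E) (hA : IsPart A)
    (hF : 9 / (8 * π) < ∑ i, ‖zz (A i)‖ ^ 2) :
    ∃ T' : Fin 1200 → E, T' ∈ (SS 1200 : Set (Fin 1200 → E)) ∧ 598 / 1000 ≤ VV T' ∧
      ∑ i, ‖zz (A i)‖ ^ 2 ≤ VV T' ^ 2 := by
  set F := ∑ i, ‖zz (A i)‖ ^ 2 with hFdef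
  have hc : (358 / 1000 : ℝ) < 9 / (8 * π) := by
    rw [lt_div_iff₀ (by positivity)]
    nlinarith [Real.pi_lt_d4]
  have hFpos : 0 < F := by linarith
  have hk : k ≠ 0 := by
    rintro rfl
    simp [hFdef] at hFpos
  have : NeZero k := ⟨hk⟩
  set N := √F with hN
  have hNpos : 0 < N := Real.sqrt_pos.mpr hFpos
  have hNsq : N ^ 2 = F := Real.sq_sqrt hFpos.le
  have hN598 : 598 / 1000 ≤ N := by
    by_contra hcon
    have h1 : N < 598 / 1000 := not_le.mp hcon
    have h2 : N ^ 2 < (598 / 1000) ^ 2 := by gcongr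
    norm_num at h2
    linarith
  -- the family
  set T : Fin k → E := fun i => N⁻¹ • zz (A i) with hT
  have hTS : T ∈ (SS k : Set (Fin k → E)) := by
    rw [mem_SS]
    have : ∑ i, ‖N⁻¹ • zz (A i)‖ ^ 2 = (N⁻¹) ^ 2 * F := by
      rw [hFdef, Finset.mul_sum]
      apply Finset.sum_congr rfl
      intro i _
      rw [norm_smul, mul_pow, norm_inv, Real.norm_eq_abs, abs_of_pos hNpos]
    rw [this, ← hNsq]
    apply le_of_eq
    field_simp
  have hVT : N ≤ VV T := by
    have h1 := sum_inner_le_VV hA T id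
    have h2 : ∑ l, ⟪T (id l), zz (A l)⟫ = N := by
      have : ∀ l, ⟪T (id l), zz (A l)⟫ = N⁻¹ * ‖zz (A l)‖ ^ 2 := by
        intro l
        simp [hT, inner_smul_left]
      simp_rw [this]
      rw [← Finset.mul_sum, ← hFdef, ← hNsq]
      field_simp
    rwa [h2] at h1
  -- reduce the number of vectors
  obtain ⟨T', hT', hle⟩ : ∃ T' : Fin 1200 → E, T' ∈ (SS 1200 : Set (Fin 1200 → E)) ∧
      VV T ≤ VV T' := by
    by_cases hk' : k ≤ 1200
    · exact pad_to k hk' T hTS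
    · exact reduce_to k (by omega) T hTS (by linarith)
  refine ⟨T', hT', by linarith, ?_⟩
  have h5 : N ≤ VV T' := by linarith
  have h6 : N ^ 2 ≤ VV T' ^ 2 := pow_le_pow_left₀ hNpos.le h5 2
  rw [← hNsq]
  exact h6

/-- The finite reduction for partitions. -/
theorem finite_reduction (k : ℕ) (A : Fin k → Set E) (hA : IsPart A)
    (hF : 9 / (8 * π) < ∑ i, ‖zz (A i)‖ ^ 2) :
    ∃ B : Fin 1200 → Set E, IsPart B ∧ ∑ i, ‖zz (A i)‖ ^ 2 ≤ ∑ i, ‖zz (B i)‖ ^ 2 := by
  obtain ⟨T', hT', -, h6⟩ := family_of_partition k A hA hF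
  obtain ⟨B, hB, hB2⟩ := partition_of_family T' hT'
  exact ⟨B, hB, h6.trans hB2⟩

end

end Vale.Agent.Lib.P226
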