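import Mathlib
import Vale.Agent.Lib.P226.Final

open MeasureTheory ProbabilityTheory Real Set Filter Topology
open scoped ENNReal NNReal RealInnerProductSpace

namespace Vale.Agent.Lib.P226

set_option linter.unusedSectionVars false

noncomputable section

variable {E : Type*} [NormedAddCommGroup E] [InnerProductSpace ℝ E] [FiniteDimensional ℝ E]
  [MeasurableSpace E] [BorelSpace E]
variable {F : Type*} [NormedAddCommGroup F] [InnerProductSpace ℝ F] [FiniteDimensional ℝ F]
  [MeasurableSpace F] [BorelSpace F]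

/-- All the linear forms at once. -/
def coordMap {n : ℕ} (T : Fin n → E) (x : E) : EuclideanSpace ℝ (Fin n) :=
  WithLp.toLp 2 (fun i => ⟪T i, x⟫)

lemma measurable_coordMap {n : ℕ} (T : Fin n → E) : Measurable (coordMap T) := by
  have : Continuous (coordMap T) := by
    unfold coordMap
    fun_prop
  exact this.measurable

omit [FiniteDimensional ℝ E] [MeasurableSpace E] [BorelSpace E] in
lemma inner_coordMap {n : ℕ} (T : Fin n → E) (x : E) (ξ : EuclideanSpace ℝ (Fin n)) :
    ⟪coordMap T x, ξ⟫ = ⟪x, ∑ i, ξ i • T i⟫ := by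
  unfold coordMap
  rw [PiLp.inner_apply, inner_sum]
  apply Finset.sum_congr rfl
  intro i _
  rw [inner_smul_right, real_inner_comm (T i) x]
  simp [RCLike.inner_apply, mul_comm]

lemma charFun_map_coord {n : ℕ} (T : Fin n → E) (ξ : EuclideanSpace ℝ (Fin n)) :
    charFun ((stdGaussian E).map (coordMap T)) ξ =
      Complex.exp (-(((‖∑ i, ξ i • T i‖ ^ 2 : ℝ)) : ℂ) / 2) := by
  rw [charFun_apply, integral_map (measurable_coordMap T).aemeasurable
    (Continuous.aestronglyMeasurable (by fun_prop))]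
  simp_rw [inner_coordMap]
  have h := charFun_stdGaussian (E := E) (∑ i, ξ i • T i)
  rw [charFun_apply] at h
  rw [h]
  push_cast
  rfl

omit [FiniteDimensional ℝ E] [MeasurableSpace E] [BorelSpace E] in
lemma norm_sq_sum {n : ℕ} (T : Fin n → E) (ξ : Fin n → ℝ) :
    ‖∑ i, ξ i • T i‖ ^ 2 = ∑ i, ∑ j, ξ i * ξ j * ⟪T i, T j⟫ := by
  rw [← real_inner_self_eq_norm_sq, sum_inner]
  apply Finset.sum_congr rfl
  intro i _
  rw [inner_sum]
  apply Finset.sum_congr rfl
  intro j _
  rw [inner_smul_left, inner_smul_right]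
  simp only [conj_trivial]
  ring

lemma map_coord_eq {n : ℕ} (T : Fin n → E) (T' : Fin n → F)
    (h : ∀ i j, ⟪T i, T j⟫ = ⟪T' i, T' j⟫) :
    (stdGaussian E).map (coordMap T) = (stdGaussian F).map (coordMap T') := by
  have h1 : IsProbabilityMeasure ((stdGaussian E).map (coordMap T)) :=
    Measure.isProbabilityMeasure_map (measurable_coordMap T).aemeasurable
  have h2 : IsProbabilityMeasure ((stdGaussian F).map (coordMap T')) :=
    Measure.isProbabilityMeasure_map (measurable_coordMap T').aemeasurable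
  apply Measure.ext_of_charFun
  ext ξ
  rw [charFun_map_coord, charFun_map_coord, norm_sq_sum, norm_sq_sum]
  simp_rw [h]

lemma VV_eq_integral_coord {n : ℕ} [NeZero n] (S : Fin n → E) :
    VV S = ∫ z : EuclideanSpace ℝ (Fin n), ⨆ i, z i ∂((stdGaussian E).map (coordMap S)) := by
  have hm : Measurable fun z : EuclideanSpace ℝ (Fin n) => ⨆ i, z i := by
    apply Measurable.iSup
    intro i
    have : Continuous fun z : EuclideanSpace ℝ (Fin n) => z i := by fun_prop
    exact this.measurable
  rw [integral_map (measurable_coordMap S).aemeasurable hm.aestronglyMeasurable]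
  rfl

/-- The expected maximum depends only on the Gram matrix. -/
lemma VV_eq_of_gram {n : ℕ} [NeZero n] (T : Fin n → E) (T' : Fin n → F)
    (h : ∀ i j, ⟪T i, T j⟫ = ⟪T' i, T' j⟫) : VV T = VV T' := by
  rw [VV_eq_integral_coord T, VV_eq_integral_coord T', map_coord_eq T T' h]

/-- Embedding a family with a low dimensional span. -/
lemma exists_embedding {n D : ℕ} (T : Fin n → E)
    (hD : Module.finrank ℝ (Submodule.span ℝ (Set.range T)) ≤ D) :
    ∃ T' : Fin n → EuclideanSpace ℝ (Fin D), ∀ i j, ⟪T i, T j⟫ = ⟪T' i, T' j⟫ := by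
  set W := Submodule.span ℝ (Set.range T) with hW
  set b := stdOrthonormalBasis ℝ W with hb
  set g : Fin (Module.finrank ℝ W) → EuclideanSpace ℝ (Fin D) :=
    fun j => EuclideanSpace.single (Fin.castLE hD j) (1 : ℝ) with hg
  have hgo : Orthonormal ℝ g := by
    have h1 := EuclideanSpace.orthonormal_single (ι := Fin D) (𝕜 := ℝ)
    exact h1.comp (Fin.castLE hD) (Fin.castLE_injective hD)
  set f : W →ₗ[ℝ] EuclideanSpace ℝ (Fin D) := b.toBasis.constr ℝ g with hf
  have hbo : Orthonormal ℝ (b.toBasis : Fin (Module.finrank ℝ W) → W) := by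
    rw [OrthonormalBasis.coe_toBasis]
    exact b.orthonormal
  have hfo : Orthonormal ℝ (f ∘ b.toBasis) := by
    have : f ∘ b.toBasis = g := by
      ext1 j
      simp only [Function.comp, hf]
      rw [Module.Basis.constr_basis]
    rw [this]
    exact hgo
  set L := f.isometryOfOrthonormal hbo hfo with hL
  have hmem : ∀ i, T i ∈ W := fun i => Submodule.subset_span (Set.mem_range_self i)
  refine ⟨fun i => L ⟨T i, hmem i⟩, ?_⟩
  intro i j
  rw [L.inner_map_map]
  rfl

/-- The span of a zero sum family has low dimension. -/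
lemma finrank_span_of_sum_zero {n : ℕ} (T : Fin (n + 1) → E) (h : ∑ i, T i = 0) :
    Module.finrank ℝ (Submodule.span ℝ (Set.range T)) ≤ n := by
  have h1 : Submodule.span ℝ (Set.range T) ≤
      Submodule.span ℝ (Set.range (fun i : Fin n => T i.castSucc)) := by
    rw [Submodule.span_le]
    rintro _ ⟨i, rfl⟩
    refine Fin.lastCases ?_ (fun j => ?_) i
    · rw [Fin.sum_univ_castSucc] at h
      have h2 : T (Fin.last n) = -∑ i : Fin n, T i.castSucc :=
        eq_neg_of_add_eq_zero_right h
      rw [h2]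
      apply Submodule.neg_mem
      apply Submodule.sum_mem
      intro j _
      exact Submodule.subset_span (Set.mem_range_self j)
    · exact Submodule.subset_span (Set.mem_range_self j)
  refine (Submodule.finrank_mono h1).trans ?_
  have := finrank_range_le_card (R := ℝ) (fun i : Fin n => T i.castSucc)
  simpa [Set.finrank] using this

/-- The global form of the reduction. -/
theorem global_reduction :
    ∃ B : Fin 1200 → Set (EuclideanSpace ℝ (Fin 1199)), IsPart B ∧
      ∀ (E : Type) [NormedAddCommGroup E] [InnerProductSpace ℝ E] [FiniteDimensional ℝ E]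
        [MeasurableSpace E] [BorelSpace E] (k : ℕ) (A : Fin k → Set E), IsPart A →
        9 / (8 * π) < ∑ i, ‖zz (A i)‖ ^ 2 → ∑ i, ‖zz (A i)‖ ^ 2 ≤ ∑ i, ‖zz (B i)‖ ^ 2 := by
  obtain ⟨Tstar, hTstar, hmax⟩ := exists_opt (E := EuclideanSpace ℝ (Fin 1199)) 1200
  obtain ⟨B, hB, hB2⟩ := partition_of_family Tstar hTstar
  refine ⟨B, hB, ?_⟩
  intro E _ _ _ _ _ k A hA hF
  obtain ⟨T', hT', h598, hle⟩ := family_of_partition k A hA hF
  obtain ⟨S, hS, hSmax⟩ := exists_opt (E := E) 1200
  have hopt : Opt S := ⟨hS, hSmax⟩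
  have h1 : VV T' ≤ VV S := hSmax T' hT'
  have hVS : 0 < VV S := by linarith
  have hsum := opt_sum_zero hopt hVS
  have hfin := finrank_span_of_sum_zero (n := 1199) S hsum
  obtain ⟨S', hS'⟩ := exists_embedding S hfin
  have hS'mem : S' ∈ (SS 1200 : Set (Fin 1200 → EuclideanSpace ℝ (Fin 1199))) := by
    rw [mem_SS]
    have : ∀ i, ‖S' i‖ ^ 2 = ‖S i‖ ^ 2 := by
      intro i
      rw [← real_inner_self_eq_norm_sq, ← real_inner_self_eq_norm_sq]
      exact (hS' i i).symm
    simp_rw [this]
    exact hS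
  have h2 : VV S = VV S' := VV_eq_of_gram S S' hS'
  have h3 : VV S' ≤ VV Tstar := hmax S' hS'mem
  have h4 : VV T' ≤ VV Tstar := by linarith
  have h5 : 0 ≤ VV T' := by linarith
  have h6 : VV T' ^ 2 ≤ VV Tstar ^ 2 := pow_le_pow_left₀ h5 h4 2
  exact hle.trans (h6.trans hB2)

end

end Vale.Agent.Lib.P226
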