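import Mathlib
import Vale.Agent.Lib.P226.Embed

open MeasureTheory ProbabilityTheory Real Set Filter Topology
open scoped ENNReal NNReal RealInnerProductSpace

namespace Vale.Agent.Lib.P226

set_option linter.unusedSectionVars false

noncomputable section

variable {E : Type*} [NormedAddCommGroup E] [InnerProductSpace ℝ E] [FiniteDimensional ℝ E]
  [MeasurableSpace E] [BorelSpace E]

variable (E) in
/-- The normalizing constant of the Gaussian density on `E`. -/
def gaussK : ℝ := (2 * π) ^ (-((Module.finrank ℝ E : ℝ) / 2))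

lemma gaussK_pos : 0 < gaussK E := by
  unfold gaussK
  positivity

/-- The Gaussian density as a function of the radius. -/
def radialD (E : Type*) [NormedAddCommGroup E] [InnerProductSpace ℝ E] [FiniteDimensional ℝ E]
    (r : ℝ) : ℝ≥0∞ := ENNReal.ofReal (gaussK E * rexp (-(1 / 2) * r ^ 2))

lemma measurable_radialD : Measurable (radialD E) := by
  unfold radialD
  fun_prop

lemma integral_gauss_real :
    ∫ v : E, rexp (-(1 / 2) * ‖v‖ ^ 2) = (2 * π) ^ ((Module.finrank ℝ E : ℝ) / 2) := by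
  have h := GaussianFourier.integral_rexp_neg_mul_sq_norm (V := E) (b := 1 / 2) (by norm_num)
  rw [h]
  congr 1
  ring

lemma integrable_gauss_real : Integrable (fun v : E => rexp (-(1 / 2) * ‖v‖ ^ 2)) := by
  by_contra hcon
  have h1 := integral_undef hcon
  rw [integral_gauss_real] at h1
  have : (0 : ℝ) < (2 * π) ^ ((Module.finrank ℝ E : ℝ) / 2) := by positivity
  linarith

lemma gaussK_mul : gaussK E * (2 * π) ^ ((Module.finrank ℝ E : ℝ) / 2) = 1 := by
  unfold gaussK
  rw [← rpow_add (by positivity)]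
  simp

lemma lintegral_radialD : ∫⁻ x : E, radialD E ‖x‖ = 1 := by
  unfold radialD
  rw [← ofReal_integral_eq_lintegral_ofReal (integrable_gauss_real.const_mul _)
    (Eventually.of_forall fun x => by have := gaussK_pos (E := E); positivity),
    integral_const_mul, integral_gauss_real, gaussK_mul]
  simp

/-- The density of the standard Gaussian measure. -/
theorem stdGaussian_eq_withDensity :
    stdGaussian E = (volume : Measure E).withDensity (fun x => radialD E ‖x‖) := by
  have hmeas : Measurable (fun x : E => radialD E ‖x‖) := measurable_radialD.comp measurable_norm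
  have hprob : IsProbabilityMeasure ((volume : Measure E).withDensity (fun x => radialD E ‖x‖)) :=
    ⟨by rw [withDensity_apply _ MeasurableSet.univ, Measure.restrict_univ, lintegral_radialD]⟩
  apply Measure.ext_of_charFun
  ext t
  rw [charFun_stdGaussian, charFun_apply,
    integral_withDensity_eq_integral_toReal_smul hmeas
      (Eventually.of_forall fun x => ENNReal.ofReal_lt_top)]
  have h1 : ∀ x : E, (radialD E ‖x‖).toReal • Complex.exp ((⟪x, t⟫ : ℂ) * Complex.I) =
      (gaussK E : ℂ) * Complex.exp (-(1 / 2 : ℂ) * (‖x‖ : ℂ) ^ 2 + Complex.I * (⟪t, x⟫ : ℂ)) := by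
    intro x
    unfold radialD
    have hK := gaussK_pos (E := E)
    rw [ENNReal.toReal_ofReal (by positivity), Complex.real_smul, real_inner_comm t x]
    push_cast
    rw [mul_assoc, ← Complex.exp_add]
    ring_nf
  simp_rw [h1]
  rw [integral_const_mul, GaussianFourier.integral_cexp_neg_mul_sq_norm_add (by norm_num)]
  have h2 : ((π : ℂ) / (1 / 2)) = ((2 * π : ℝ) : ℂ) := by push_cast; ring
  rw [h2]
  have h3 : ((2 * π : ℝ) : ℂ) ^ ((Module.finrank ℝ E : ℂ) / 2) =
      (((2 * π) ^ ((Module.finrank ℝ E : ℝ) / 2) : ℝ) : ℂ) := by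
    rw [Complex.ofReal_cpow (by positivity)]
    push_cast
    rfl
  rw [h3, ← mul_assoc, ← Complex.ofReal_mul, gaussK_mul]
  simp only [Complex.ofReal_one, one_mul]
  congr 1
  have hI : Complex.I ^ 2 = -1 := Complex.I_sq
  rw [hI]
  ring

/-- Polar coordinates on a cone. -/
theorem lintegral_cone [Nontrivial E] {A : Set E} (hA : MeasurableSet A)
    (hcone : ∀ (c : ℝ) (x : E), 0 < c → (c • x ∈ A ↔ x ∈ A)) {g : ℝ → ℝ≥0∞} (hg : Measurable g) :
    ∫⁻ x in A, g ‖x‖ = (volume : Measure E).toSphere (Subtype.val ⁻¹' A) *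
      ∫⁻ r : Ioi (0 : ℝ), g r ∂(Measure.volumeIoiPow (Module.finrank ℝ E - 1)) := by
  set S : Set (Metric.sphere (0 : E) 1) := Subtype.val ⁻¹' A with hS
  have hSm : MeasurableSet S := measurable_subtype_coe hA
  set G : Metric.sphere (0 : E) 1 × Ioi (0 : ℝ) → ℝ≥0∞ :=
    fun p => S.indicator (fun _ => 1) p.1 * g p.2 with hG
  have hGm : Measurable G := by
    refine Measurable.mul ?_ ?_
    · exact (measurable_const.indicator hSm).comp measurable_fst
    · exact hg.comp (measurable_subtype_coe.comp measurable_snd)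
  have e1 : ∫⁻ x in A, g ‖x‖ = ∫⁻ x, A.indicator (fun x => g ‖x‖) x := by
    rw [lintegral_indicator hA]
  have e2 : ∫⁻ x, A.indicator (fun x => g ‖x‖) x =
      ∫⁻ x in ({0}ᶜ : Set E), A.indicator (fun x => g ‖x‖) x := by
    rw [restrict_compl_singleton]
  have e3 : ∫⁻ x in ({0}ᶜ : Set E), A.indicator (fun x => g ‖x‖) x =
      ∫⁻ x : ({0}ᶜ : Set E), A.indicator (fun x => g ‖x‖) x.1
        ∂((volume : Measure E).comap (↑)) := by
    rw [lintegral_subtype_comap (measurableSet_singleton _).compl]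
  have e4 : ∀ x : ({0}ᶜ : Set E), A.indicator (fun x => g ‖x‖) x.1 =
      G (homeomorphUnitSphereProd E x) := by
    intro x
    have hx : x.1 ≠ 0 := x.2
    have hn : 0 < ‖x.1‖ := norm_pos_iff.mpr hx
    have hiff : ((homeomorphUnitSphereProd E x).1 : Metric.sphere (0 : E) 1) ∈ S ↔ x.1 ∈ A := by
      show (((homeomorphUnitSphereProd E x).1 : Metric.sphere (0 : E) 1) : E) ∈ A ↔ x.1 ∈ A
      have : (((homeomorphUnitSphereProd E x).1 : Metric.sphere (0 : E) 1) : E) =
          ‖x.1‖⁻¹ • x.1 := by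
        simp [homeomorphUnitSphereProd]
      rw [this]
      exact hcone _ _ (inv_pos.mpr hn)
    have hr : (((homeomorphUnitSphereProd E x).2 : Ioi (0 : ℝ)) : ℝ) = ‖x.1‖ := by
      simp [homeomorphUnitSphereProd]
    simp only [hG, hr]
    by_cases hxA : x.1 ∈ A
    · rw [indicator_of_mem hxA, indicator_of_mem (hiff.mpr hxA), one_mul]
    · rw [indicator_of_notMem hxA, indicator_of_notMem (fun h => hxA (hiff.mp h)), zero_mul]
  have hmp := (volume : Measure E).measurePreserving_homeomorphUnitSphereProd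
  calc ∫⁻ x in A, g ‖x‖
      = ∫⁻ x : ({0}ᶜ : Set E), G (homeomorphUnitSphereProd E x)
          ∂((volume : Measure E).comap (↑)) := by
        rw [e1, e2, e3]
        exact lintegral_congr e4
    _ = ∫⁻ p, G p ∂((volume : Measure E).toSphere.prod
          (Measure.volumeIoiPow (Module.finrank ℝ E - 1))) := hmp.lintegral_comp hGm
    _ = _ := by
        rw [hG, lintegral_prod_mul
          (f := fun u : Metric.sphere (0 : E) 1 => S.indicator (fun _ => (1 : ℝ≥0∞)) u)
          (g := fun r : Ioi (0 : ℝ) => g r)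
          ((measurable_const.indicator hSm).aemeasurable)
          ((hg.comp measurable_subtype_coe).aemeasurable)]
        rw [lintegral_indicator hSm]
        simp

/-- Radial integrals over a cone under the Gaussian measure. -/
lemma lintegral_cone_gauss [Nontrivial E] {A : Set E} (hA : MeasurableSet A)
    (hcone : ∀ (c : ℝ) (x : E), 0 < c → (c • x ∈ A ↔ x ∈ A)) {g : ℝ → ℝ≥0∞} (hg : Measurable g) :
    ∫⁻ x in A, g ‖x‖ ∂(stdGaussian E) = (volume : Measure E).toSphere (Subtype.val ⁻¹' A) *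
      ∫⁻ r : Ioi (0 : ℝ), (radialD E r * g r)
        ∂(Measure.volumeIoiPow (Module.finrank ℝ E - 1)) := by
  have h := setLIntegral_withDensity_eq_setLIntegral_mul (volume : Measure E)
    (f := fun x : E => radialD E ‖x‖) (g := fun x : E => g ‖x‖)
    (measurable_radialD.comp measurable_norm) (hg.comp measurable_norm) hA
  rw [stdGaussian_eq_withDensity, h]
  exact lintegral_cone hA hcone (measurable_radialD.mul hg)

/-- Radial independence on cones. -/
theorem integral_norm_cone {A : Set E} (hA : MeasurableSet A)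
    (hcone : ∀ (c : ℝ) (x : E), 0 < c → (c • x ∈ A ↔ x ∈ A)) :
    ∫ x in A, ‖x‖ ∂(stdGaussian E) = (∫ x, ‖x‖ ∂(stdGaussian E)) * (stdGaussian E).real A := by
  rcases subsingleton_or_nontrivial E with hE | hE
  · have h0 : ∀ x : E, ‖x‖ = 0 := fun x => by
      rw [Subsingleton.elim x 0, norm_zero]
    simp [h0]
  set γ := stdGaussian E with hγ
  have hng : Measurable (fun r : ℝ => ENNReal.ofReal r) := ENNReal.measurable_ofReal
  have h1gm : Measurable (fun _ : ℝ => (1 : ℝ≥0∞)) := measurable_const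
  set Λ₁ := ∫⁻ r : Ioi (0 : ℝ), (radialD E r * ENNReal.ofReal r)
    ∂(Measure.volumeIoiPow (Module.finrank ℝ E - 1)) with hΛ₁
  set Λ₀ := ∫⁻ r : Ioi (0 : ℝ), (radialD E r * 1)
    ∂(Measure.volumeIoiPow (Module.finrank ℝ E - 1)) with hΛ₀
  set σ := (volume : Measure E).toSphere with hσ
  have hconeU : ∀ (c : ℝ) (x : E), 0 < c → (c • x ∈ (univ : Set E) ↔ x ∈ (univ : Set E)) := by
    simp
  have L1 : ∫⁻ x in A, ENNReal.ofReal ‖x‖ ∂γ = σ (Subtype.val ⁻¹' A) * Λ₁ :=
    lintegral_cone_gauss hA hcone hng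
  have L2 : γ A = σ (Subtype.val ⁻¹' A) * Λ₀ := by
    have := lintegral_cone_gauss hA hcone h1gm
    rw [lintegral_one, Measure.restrict_apply MeasurableSet.univ, univ_inter] at this
    exact this
  have L3 : ∫⁻ x, ENNReal.ofReal ‖x‖ ∂γ = σ (Subtype.val ⁻¹' univ) * Λ₁ := by
    have := lintegral_cone_gauss MeasurableSet.univ hconeU hng
    rwa [Measure.restrict_univ] at this
  have L4 : (1 : ℝ≥0∞) = σ (Subtype.val ⁻¹' univ) * Λ₀ := by
    have := lintegral_cone_gauss MeasurableSet.univ hconeU h1gm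
    rw [lintegral_one, Measure.restrict_univ, measure_univ] at this
    exact this
  have key : ∫⁻ x in A, ENNReal.ofReal ‖x‖ ∂γ = (∫⁻ x, ENNReal.ofReal ‖x‖ ∂γ) * γ A := by
    rw [L1, L2, L3]
    calc σ (Subtype.val ⁻¹' A) * Λ₁
        = σ (Subtype.val ⁻¹' A) * Λ₁ * 1 := by rw [mul_one]
      _ = σ (Subtype.val ⁻¹' A) * Λ₁ * (σ (Subtype.val ⁻¹' univ) * Λ₀) := by rw [← L4]
      _ = _ := by ring
  rw [integral_eq_lintegral_of_nonneg_ae (Eventually.of_forall fun x => norm_nonneg x)
      measurable_norm.aestronglyMeasurable,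
    integral_eq_lintegral_of_nonneg_ae (Eventually.of_forall fun x => norm_nonneg x)
      measurable_norm.aestronglyMeasurable, key, ENNReal.toReal_mul]
  rfl

/-- Consequence: the cap inequality, all sets that are cones. -/
theorem cone_cap_bound {A : Set E} (hA : MeasurableSet A)
    (hcone : ∀ (c : ℝ) (x : E), 0 < c → (c • x ∈ A ↔ x ∈ A)) (u : E) {t : ℝ} :
    ∫ x in A, ⟪u, x⟫ ∂(stdGaussian E) ≤
      t * (∫ x, ‖x‖ ∂(stdGaussian E)) * (stdGaussian E).real A +
        ∫ x, max 0 (⟪u, x⟫ - t * ‖x‖) ∂(stdGaussian E) := by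
  have hn : Integrable (fun x : E => ‖x‖) (stdGaussian E) := integrable_norm_gauss
  have hi : Integrable (fun x : E => ⟪u, x⟫) (stdGaussian E) := integrable_inner_gauss u
  have hm : Integrable (fun x : E => max 0 (⟪u, x⟫ - t * ‖x‖)) (stdGaussian E) :=
    (integrable_zero _ _ _).sup (hi.sub (hn.const_mul t))
  have h1 : ∫ x in A, ⟪u, x⟫ ∂(stdGaussian E) ≤
      ∫ x in A, (t * ‖x‖ + max 0 (⟪u, x⟫ - t * ‖x‖)) ∂(stdGaussian E) := by
    refine setIntegral_mono hi.integrableOn
      ((hn.const_mul t).add hm).integrableOn fun x => ?_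
    have := le_max_right 0 (⟪u, x⟫ - t * ‖x‖)
    linarith
  have h2 : ∫ x in A, (t * ‖x‖ + max 0 (⟪u, x⟫ - t * ‖x‖)) ∂(stdGaussian E) =
      t * ∫ x in A, ‖x‖ ∂(stdGaussian E) + ∫ x in A, max 0 (⟪u, x⟫ - t * ‖x‖) ∂(stdGaussian E) := by
    rw [integral_add (hn.const_mul t).integrableOn hm.integrableOn, integral_const_mul]
  have h3 : ∫ x in A, max 0 (⟪u, x⟫ - t * ‖x‖) ∂(stdGaussian E) ≤
      ∫ x, max 0 (⟪u, x⟫ - t * ‖x‖) ∂(stdGaussian E) :=
    setIntegral_le_integral hm (Eventually.of_forall fun x => le_max_left _ _)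
  rw [h2, integral_norm_cone hA hcone] at h1
  linarith

end

end Vale.Agent.Lib.P226
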