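import Mathlib
import Vale.Agent.Lib.P226.Embed
import Vale.Agent.Lib.P226.G7Radial

open MeasureTheory ProbabilityTheory Real Set Filter Topology
open scoped ENNReal NNReal RealInnerProductSpace

namespace Vale.Agent.Lib.P226

set_option linter.unusedSectionVars false

noncomputable section

variable {E : Type*} [NormedAddCommGroup E] [InnerProductSpace ℝ E] [FiniteDimensional ℝ E]
  [MeasurableSpace E] [BorelSpace E]

namespace CapInt

/-- The norm of the component orthogonal to `u`. -/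
def Rr (u y : E) : ℝ := ‖y - ⟪u, y⟫ • u‖

lemma measurable_Rr (u : E) : Measurable (Rr u) := by
  unfold Rr
  exact (continuous_norm.comp (continuous_id.sub
    ((continuous_const.inner continuous_id).smul continuous_const))).measurable

lemma Rr_nonneg (u y : E) : 0 ≤ Rr u y := norm_nonneg _

lemma Rr_QQ {u : E} (hu : ‖u‖ = 1) (s : ℝ) (y : E) : Rr u (QQ u (s, y)) = Rr u y := by
  unfold Rr
  rw [inner_u_QQ hu]
  simp [QQ]

lemma norm_QQ_sq {u : E} (hu : ‖u‖ = 1) (s : ℝ) (y : E) :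
    ‖QQ u (s, y)‖ ^ 2 = s ^ 2 + Rr u y ^ 2 := by
  unfold Rr QQ
  have h1 : ⟪u, u⟫ = 1 := by rw [real_inner_self_eq_norm_sq, hu]; norm_num
  have h2 : ⟪s • u, y - ⟪u, y⟫ • u⟫ = 0 := by
    rw [inner_smul_left, inner_sub_right, inner_smul_right, h1]
    simp
  rw [norm_add_sq_real, h2, norm_smul, hu]
  simp

lemma Rr_smul (u : E) {c : ℝ} (hc : 0 ≤ c) (x : E) : Rr u (c • x) = c * Rr u x := by
  unfold Rr
  rw [inner_smul_right, mul_smul, ← smul_sub, norm_smul, Real.norm_eq_abs, abs_of_nonneg hc]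

lemma Rr_sq {u : E} (hu : ‖u‖ = 1) (x : E) : Rr u x ^ 2 = ‖x‖ ^ 2 - ⟪u, x⟫ ^ 2 := by
  unfold Rr
  have h1 : ⟪u, u⟫ = 1 := by rw [real_inner_self_eq_norm_sq, hu]; norm_num
  rw [norm_sub_sq_real, inner_smul_right, norm_smul, hu, real_inner_comm u x]
  simp
  ring

/-- The scale attached to an exponential tilt. -/
def tc (l : ℝ) : ℝ := (√(1 + 2 * l))⁻¹

lemma tc_pos {l : ℝ} (hl : 0 ≤ l) : 0 < tc l := by
  unfold tc
  positivity

lemma tc_sq {l : ℝ} (hl : 0 ≤ l) : tc l ^ 2 * (1 + 2 * l) = 1 := by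
  unfold tc
  rw [inv_pow, Real.sq_sqrt (by linarith)]
  field_simp

/-- Exponential tilt of the Gaussian measure. -/
theorem lintegral_tilt {l : ℝ} (hl : 0 ≤ l) {F : E → ℝ≥0∞} (hF : Measurable F) :
    ∫⁻ x, F x * ENNReal.ofReal (rexp (-l * ‖x‖ ^ 2)) ∂(stdGaussian E) =
      ENNReal.ofReal (tc l ^ Module.finrank ℝ E) * ∫⁻ x, F (tc l • x) ∂(stdGaussian E) := by
  have hc := tc_pos hl
  set c := tc l with hcdef
  have hc2 := tc_sq hl
  rw [← hcdef] at hc2
  set Ψ : E → ℝ≥0∞ := fun x =>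
    ENNReal.ofReal (gaussK E * rexp (-(1 / 2) * (1 + 2 * l) * ‖x‖ ^ 2)) * F x with hΨ
  have hΨm : Measurable Ψ := by
    refine Measurable.mul ?_ hF
    fun_prop
  have hmeasD : Measurable (fun x : E => radialD E ‖x‖) := measurable_radialD.comp measurable_norm
  have hK := gaussK_pos (E := E)
  have e1 : ∫⁻ x, F x * ENNReal.ofReal (rexp (-l * ‖x‖ ^ 2)) ∂(stdGaussian E) = ∫⁻ x, Ψ x := by
    have hm : Measurable (fun x : E => F x * ENNReal.ofReal (rexp (-l * ‖x‖ ^ 2))) :=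
      hF.mul (by fun_prop)
    have h0 := lintegral_withDensity_eq_lintegral_mul (volume : Measure E) hmeasD hm
    rw [stdGaussian_eq_withDensity, h0]
    refine lintegral_congr fun x => ?_
    simp only [Pi.mul_apply, hΨ, radialD]
    rw [mul_comm (F x), ← mul_assoc, ← ENNReal.ofReal_mul (by positivity)]
    congr 2
    rw [mul_assoc, ← Real.exp_add]
    congr 2
    ring
  have e2 : ∫⁻ x, F (c • x) ∂(stdGaussian E) = ∫⁻ x, Ψ (c • x) := by
    have hm : Measurable (fun x : E => F (c • x)) := hF.comp (measurable_const_smul c)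
    have h0 := lintegral_withDensity_eq_lintegral_mul (volume : Measure E) hmeasD hm
    rw [stdGaussian_eq_withDensity, h0]
    refine lintegral_congr fun x => ?_
    simp only [Pi.mul_apply, hΨ, radialD]
    congr 4
    rw [norm_smul, Real.norm_eq_abs, abs_of_pos hc, mul_pow]
    have : (1 + 2 * l) * (c ^ 2 * ‖x‖ ^ 2) = ‖x‖ ^ 2 := by
      calc (1 + 2 * l) * (c ^ 2 * ‖x‖ ^ 2) = (c ^ 2 * (1 + 2 * l)) * ‖x‖ ^ 2 := by ring
        _ = _ := by rw [hc2, one_mul]
    calc -(1 / 2) * ‖x‖ ^ 2 = -(1 / 2) * ((1 + 2 * l) * (c ^ 2 * ‖x‖ ^ 2)) := by rw [this]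
      _ = _ := by ring
  have e3 : ∫⁻ x, Ψ (c • x) = ENNReal.ofReal ((c ^ Module.finrank ℝ E)⁻¹) * ∫⁻ x, Ψ x := by
    have hmap := Measure.map_addHaar_smul (volume : Measure E) hc.ne'
    have h3 : ∫⁻ x, Ψ (c • x) = ∫⁻ x, Ψ x ∂(Measure.map (fun x : E => c • x) volume) := by
      rw [lintegral_map hΨm (measurable_const_smul c)]
    rw [h3, hmap, lintegral_smul_measure, abs_of_pos (by positivity)]
    rfl
  rw [e1, e2, e3, ← mul_assoc, ← ENNReal.ofReal_mul (by positivity), mul_inv_cancel₀ (by positivity)]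
  simp

/-- The one dimensional exponential moment. -/
lemma lintegral_exp_NN {l : ℝ} (hl : 0 ≤ l) :
    ∫⁻ s, ENNReal.ofReal (rexp (-l * s ^ 2)) ∂NN = ENNReal.ofReal (tc l) := by
  have hbd : Integrable (fun s : ℝ => rexp (-l * s ^ 2)) NN := by
    refine Integrable.of_bound (by fun_prop) 1 (Eventually.of_forall fun s => ?_)
    rw [Real.norm_eq_abs, abs_of_pos (exp_pos _)]
    apply Real.exp_le_one_iff.mpr
    have := sq_nonneg s
    nlinarith
  rw [← ofReal_integral_eq_lintegral_ofReal hbd (Eventually.of_forall fun s => (exp_pos _).le)]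
  congr 1
  rw [integral_gaussianReal_eq_integral_smul (μ := 0) (v := 1) one_ne_zero]
  have h1 : ∀ s : ℝ, gaussianPDFReal 0 1 s • rexp (-l * s ^ 2) =
      phi0 * rexp (-(1 / 2 + l) * s ^ 2) := by
    intro s
    have := phi_eq s
    simp only [phi] at this
    rw [this, smul_eq_mul, mul_assoc, ← Real.exp_add]
    congr 2
    ring
  simp_rw [h1]
  rw [integral_const_mul, integral_gaussian]
  unfold tc phi0
  have h2 : 0 < 1 + 2 * l := by linarith
  have h3 : π / (1 / 2 + l) = 2 * π / (1 + 2 * l) := by field_simp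
  rw [h3, Real.sqrt_div (by positivity)]
  have h4 : √(2 * π) ≠ 0 := by positivity
  field_simp

lemma integral_sq_NN : ∫ s, s ^ 2 ∂NN = 1 := by
  have h := variance_id_gaussianReal (μ := 0) (v := 1)
  rw [variance_of_integral_eq_zero aemeasurable_id (by simp)] at h
  simpa using h

lemma integral_inner_sq (t : E) : ∫ x, ⟪t, x⟫ ^ 2 ∂(stdGaussian E) = ‖t‖ ^ 2 := by
  have hm1 : AEMeasurable (fun x : E => ⟪t, x⟫) (stdGaussian E) :=
    (continuous_const.inner continuous_id).measurable.aemeasurable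
  have h1 : ∫ x, ⟪t, x⟫ ^ 2 ∂(stdGaussian E) =
      ∫ r, r ^ 2 ∂((stdGaussian E).map (fun x : E => ⟪t, x⟫)) := by
    rw [integral_map hm1 (by fun_prop)]
  rw [h1, map_inner_eq, integral_map (by fun_prop) (by fun_prop)]
  simp_rw [mul_pow]
  rw [integral_const_mul, integral_sq_NN, mul_one]

lemma integrable_norm_sq_gauss : Integrable (fun x : E => ‖x‖ ^ 2) (stdGaussian E) := by
  have := (IsGaussian.memLp_two_id (μ := stdGaussian E)).integrable_norm_pow two_ne_zero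
  simpa using this

lemma integrable_inner_sq (t : E) : Integrable (fun x : E => ⟪t, x⟫ ^ 2) (stdGaussian E) := by
  refine Integrable.mono' (integrable_norm_sq_gauss.const_mul (‖t‖ ^ 2))
    (Continuous.aestronglyMeasurable (by fun_prop)) (Eventually.of_forall fun x => ?_)
  rw [Real.norm_eq_abs, abs_of_nonneg (sq_nonneg _), ← mul_pow, ← sq_abs]
  exact pow_le_pow_left₀ (abs_nonneg _) (abs_real_inner_le_norm t x) 2

lemma integral_norm_sq_gauss :
    ∫ x : E, ‖x‖ ^ 2 ∂(stdGaussian E) = Module.finrank ℝ E := by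
  set b := stdOrthonormalBasis ℝ E with hb
  have h1 : ∀ x : E, ‖x‖ ^ 2 = ∑ i, ⟪b i, x⟫ ^ 2 := fun x => (b.sum_sq_inner_right x).symm
  simp_rw [h1]
  rw [integral_finsetSum _ fun i _ => integrable_inner_sq (b i)]
  simp_rw [integral_inner_sq, b.norm_eq_one]
  simp

lemma integral_Rr_sq {u : E} (hu : ‖u‖ = 1) :
    ∫ x : E, Rr u x ^ 2 ∂(stdGaussian E) = (Module.finrank ℝ E : ℝ) - 1 := by
  simp_rw [Rr_sq hu]
  rw [integral_sub integrable_norm_sq_gauss (integrable_inner_sq u), integral_norm_sq_gauss,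
    integral_inner_sq, hu]
  simp

lemma integrable_Rr_sq {u : E} (hu : ‖u‖ = 1) :
    Integrable (fun x : E => Rr u x ^ 2) (stdGaussian E) := by
  simp_rw [Rr_sq hu]
  exact integrable_norm_sq_gauss.sub (integrable_inner_sq u)

lemma lintegral_Rr_sq {u : E} (hu : ‖u‖ = 1) :
    ∫⁻ x : E, ENNReal.ofReal (Rr u x ^ 2) ∂(stdGaussian E) =
      ENNReal.ofReal ((Module.finrank ℝ E : ℝ) - 1) := by
  rw [← ofReal_integral_eq_lintegral_ofReal (integrable_Rr_sq hu)
    (Eventually.of_forall fun x => sq_nonneg _), integral_Rr_sq hu]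

/-- Resampling identity for lower integrals. -/
lemma lintegral_eq_QQ {u : E} (hu : ‖u‖ = 1) {f : E → ℝ≥0∞} (hf : Measurable f) :
    ∫⁻ x, f x ∂(stdGaussian E) = ∫⁻ y, ∫⁻ s, f (QQ u (s, y)) ∂NN ∂(stdGaussian E) := by
  conv_lhs => rw [← map_QQ u hu]
  rw [lintegral_map hf (measurable_QQ u)]
  exact lintegral_prod_symm (μ := NN) (ν := stdGaussian E) (fun p => f (QQ u p))
    (hf.comp (measurable_QQ u)).aemeasurable

/-- The moment `E[R^2 exp(-l R^2)]`. -/
theorem lintegral_Rr_sq_exp {u : E} (hu : ‖u‖ = 1) {l : ℝ} (hl : 0 ≤ l) :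
    ∫⁻ y, ENNReal.ofReal (Rr u y ^ 2 * rexp (-l * Rr u y ^ 2)) ∂(stdGaussian E) =
      ENNReal.ofReal (((Module.finrank ℝ E : ℝ) - 1) * tc l ^ (Module.finrank ℝ E + 1)) := by
  have hc := tc_pos hl
  set c := tc l with hcdef
  set N := Module.finrank ℝ E with hN
  have hmR := measurable_Rr u
  set F : E → ℝ≥0∞ := fun x => ENNReal.ofReal (Rr u x ^ 2) with hF
  have hFm : Measurable F := by
    simp only [hF]
    fun_prop
  set T := ∫⁻ x, F x * ENNReal.ofReal (rexp (-l * ‖x‖ ^ 2)) ∂(stdGaussian E) with hT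
  have hTm : Measurable (fun x : E => F x * ENNReal.ofReal (rexp (-l * ‖x‖ ^ 2))) :=
    hFm.mul (by fun_prop)
  have i1 : T = (∫⁻ y, ENNReal.ofReal (Rr u y ^ 2 * rexp (-l * Rr u y ^ 2)) ∂(stdGaussian E)) *
      ENNReal.ofReal c := by
    rw [hT, lintegral_eq_QQ hu hTm, ← lintegral_mul_const _ (by fun_prop)]
    refine lintegral_congr fun y => ?_
    have h1 : ∀ s : ℝ, F (QQ u (s, y)) * ENNReal.ofReal (rexp (-l * ‖QQ u (s, y)‖ ^ 2)) =
        ENNReal.ofReal (Rr u y ^ 2 * rexp (-l * Rr u y ^ 2)) *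
          ENNReal.ofReal (rexp (-l * s ^ 2)) := by
      intro s
      simp only [hF]
      rw [Rr_QQ hu, norm_QQ_sq hu, ← ENNReal.ofReal_mul (sq_nonneg _),
        ← ENNReal.ofReal_mul (by positivity)]
      congr 1
      rw [mul_assoc, ← Real.exp_add]
      congr 2
      ring
    simp_rw [h1]
    rw [lintegral_const_mul _ (by fun_prop), lintegral_exp_NN hl]
  have i2 : T = ENNReal.ofReal (c ^ N * (c ^ 2 * ((N : ℝ) - 1))) := by
    rw [hT, lintegral_tilt hl hFm]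
    have h1 : ∀ x : E, F (tc l • x) = ENNReal.ofReal (c ^ 2) * F x := by
      intro x
      simp only [hF]
      rw [Rr_smul u hc.le, ← ENNReal.ofReal_mul (by positivity), mul_pow]
    simp_rw [h1]
    rw [lintegral_const_mul _ hFm, lintegral_Rr_sq hu, ← hcdef, ← hN,
      ← ENNReal.ofReal_mul (by positivity)]
    exact (ENNReal.ofReal_mul (by positivity)).symm
  set B := ∫⁻ y, ENNReal.ofReal (Rr u y ^ 2 * rexp (-l * Rr u y ^ 2)) ∂(stdGaussian E) with hB
  have hcne : ENNReal.ofReal c ≠ 0 := by simpa using hc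
  have hctop : ENNReal.ofReal c ≠ ⊤ := ENNReal.ofReal_ne_top
  have i3 : B * ENNReal.ofReal c = ENNReal.ofReal (((N : ℝ) - 1) * c ^ (N + 1)) *
      ENNReal.ofReal c := by
    rw [← i1, i2, ← ENNReal.ofReal_mul' hc.le]
    congr 1
    ring
  exact (ENNReal.mul_left_inj hcne hctop).mp i3

/-- The profile appearing after the substitution `s = R τ`. -/
def Gh (G : ℝ → ℝ≥0∞) (τ : ℝ) : ℝ≥0∞ :=
  ENNReal.ofReal (√(1 + τ ^ 2)) * G (τ / √(1 + τ ^ 2))

lemma measurable_Gh {G : ℝ → ℝ≥0∞} (hG : Measurable G) : Measurable (Gh G) := by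
  unfold Gh
  refine Measurable.mul (by fun_prop) (hG.comp ?_)
  fun_prop

/-- The inner integral, for a fixed positive value of the orthogonal radius. -/
lemma inner_eval {G : ℝ → ℝ≥0∞} (hG : Measurable G) {ρ : ℝ} (hρ : 0 < ρ) :
    ∫⁻ s, ENNReal.ofReal (√(s ^ 2 + ρ ^ 2)) * G (s / √(s ^ 2 + ρ ^ 2)) ∂NN =
      ∫⁻ τ, ENNReal.ofReal phi0 *
        (ENNReal.ofReal (ρ ^ 2 * rexp (-(τ ^ 2 / 2) * ρ ^ 2)) * Gh G τ) := by
  set H : ℝ → ℝ≥0∞ := fun s => ENNReal.ofReal (√(s ^ 2 + ρ ^ 2)) * G (s / √(s ^ 2 + ρ ^ 2)) with hH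
  have hHm : Measurable H := by
    refine Measurable.mul (by fun_prop) (hG.comp ?_)
    fun_prop
  set P : ℝ → ℝ≥0∞ := fun s => ENNReal.ofReal (phi0 * rexp (-s ^ 2 / 2)) * H s with hP
  have hPm : Measurable P := Measurable.mul (by fun_prop) hHm
  have e1 : ∫⁻ s, H s ∂NN = ∫⁻ s, P s := by
    have hNN : NN = volume.withDensity (gaussianPDF 0 1) :=
      gaussianReal_of_var_ne_zero 0 one_ne_zero
    rw [hNN, lintegral_withDensity_eq_lintegral_mul _ (measurable_gaussianPDF 0 1) hHm]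
    refine lintegral_congr fun s => ?_
    have h1 := phi_eq s
    simp only [phi] at h1
    simp only [Pi.mul_apply, gaussianPDF, hP]
    rw [h1]
  have e2 : ∫⁻ τ, P (ρ * τ) = ENNReal.ofReal ρ⁻¹ * ∫⁻ s, P s := by
    have hmap := Real.map_volume_mul_left hρ.ne'
    have h3 : ∫⁻ τ, P (ρ * τ) = ∫⁻ s, P s ∂(Measure.map (fun τ : ℝ => ρ * τ) volume) := by
      rw [lintegral_map hPm (by fun_prop)]
    rw [h3, hmap, lintegral_smul_measure, abs_of_pos (by positivity)]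
    rfl
  have e3 : ∫⁻ s, P s = ENNReal.ofReal ρ * ∫⁻ τ, P (ρ * τ) := by
    rw [e2, ← mul_assoc, ← ENNReal.ofReal_mul hρ.le, mul_inv_cancel₀ hρ.ne']
    simp
  have hPm' : Measurable fun τ : ℝ => P (ρ * τ) := hPm.comp (by fun_prop)
  rw [show (∫⁻ s, ENNReal.ofReal (√(s ^ 2 + ρ ^ 2)) * G (s / √(s ^ 2 + ρ ^ 2)) ∂NN) =
    ∫⁻ s, H s ∂NN from rfl, e1, e3, ← lintegral_const_mul _ hPm']
  refine lintegral_congr fun τ => ?_
  have h0 := phi0_pos
  have h1 : √((ρ * τ) ^ 2 + ρ ^ 2) = ρ * √(1 + τ ^ 2) := by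
    rw [show (ρ * τ) ^ 2 + ρ ^ 2 = ρ ^ 2 * (1 + τ ^ 2) by ring, Real.sqrt_mul (by positivity),
      Real.sqrt_sq hρ.le]
  have h2 : ρ * τ / (ρ * √(1 + τ ^ 2)) = τ / √(1 + τ ^ 2) :=
    mul_div_mul_left _ _ hρ.ne'
  simp only [hP, hH, Gh]
  rw [h1, h2]
  set g₀ := G (τ / √(1 + τ ^ 2))
  have e : ENNReal.ofReal ρ * ENNReal.ofReal (phi0 * rexp (-(ρ * τ) ^ 2 / 2)) *
      ENNReal.ofReal (ρ * √(1 + τ ^ 2)) = ENNReal.ofReal phi0 *
        ENNReal.ofReal (ρ ^ 2 * rexp (-(τ ^ 2 / 2) * ρ ^ 2)) * ENNReal.ofReal (√(1 + τ ^ 2)) := by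
    rw [← ENNReal.ofReal_mul hρ.le, ← ENNReal.ofReal_mul (by positivity),
      ← ENNReal.ofReal_mul h0.le, ← ENNReal.ofReal_mul (by positivity)]
    congr 1
    rw [show -(ρ * τ) ^ 2 / 2 = -(τ ^ 2 / 2) * ρ ^ 2 by ring]
    ring
  calc _ = (ENNReal.ofReal ρ * ENNReal.ofReal (phi0 * rexp (-(ρ * τ) ^ 2 / 2)) *
      ENNReal.ofReal (ρ * √(1 + τ ^ 2))) * g₀ := by ring
    _ = _ := by rw [e]; ring

/-- The orthogonal radius is almost surely positive. -/
lemma ae_Rr_pos (hN : 2 ≤ Module.finrank ℝ E) {u : E} (hu : ‖u‖ = 1) :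
    ∀ᵐ y ∂(stdGaussian E), 0 < Rr u y := by
  have hu0 : u ≠ 0 := by
    intro h
    rw [h, norm_zero] at hu
    norm_num at hu
  have hne : (ℝ ∙ u) ≠ ⊤ := by
    intro h
    have h1 := finrank_span_singleton (K := ℝ) hu0
    rw [h, finrank_top] at h1
    omega
  have h0 : (volume : Measure E) ((ℝ ∙ u : Submodule ℝ E) : Set E) = 0 :=
    Measure.addHaar_submodule _ _ hne
  have hac : stdGaussian E ≪ (volume : Measure E) := by
    rw [stdGaussian_eq_withDensity]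
    exact withDensity_absolutelyContinuous _ _
  have h1 := hac h0
  have h2 : ∀ᵐ y ∂(stdGaussian E), y ∉ ((ℝ ∙ u : Submodule ℝ E) : Set E) :=
    measure_eq_zero_iff_ae_notMem.mp h1
  filter_upwards [h2] with y hy
  unfold Rr
  rw [norm_pos_iff]
  intro h
  apply hy
  have : y = ⟪u, y⟫ • u := sub_eq_zero.mp h
  rw [this]
  exact Submodule.smul_mem _ _ (Submodule.mem_span_singleton_self u)

lemma S_props {w : ℝ} (hw : w ∈ Ioo (-1 : ℝ) 1) :
    0 < √(1 - w ^ 2) ∧ √(1 - w ^ 2) ^ 2 = 1 - w ^ 2 := by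
  have h1 : 0 < 1 - w ^ 2 := by nlinarith [hw.1, hw.2]
  exact ⟨Real.sqrt_pos.mpr h1, Real.sq_sqrt h1.le⟩

lemma sqrt_one_add_T {w : ℝ} (hw : w ∈ Ioo (-1 : ℝ) 1) :
    √(1 + (w / √(1 - w ^ 2)) ^ 2) = (√(1 - w ^ 2))⁻¹ := by
  obtain ⟨h1, h2⟩ := S_props hw
  set S := √(1 - w ^ 2)
  have h3 : 1 + (w / S) ^ 2 = (S⁻¹) ^ 2 := by
    have hw2 : w ^ 2 = 1 - S ^ 2 := by linarith
    field_simp
    linarith
  rw [h3, Real.sqrt_sq (by positivity)]

lemma hasDerivAt_T {w : ℝ} (hw : w ∈ Ioo (-1 : ℝ) 1) :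
    HasDerivAt (fun w : ℝ => w / √(1 - w ^ 2)) ((√(1 - w ^ 2) ^ 3)⁻¹) w := by
  obtain ⟨h1, h2⟩ := S_props hw
  have h3 : HasDerivAt (fun w : ℝ => 1 - w ^ 2) (-(2 * w)) w := by
    have := ((hasDerivAt_id w).pow 2).const_sub 1
    simpa using this
  have h4 := h3.sqrt (by
    have : 0 < 1 - w ^ 2 := by nlinarith [hw.1, hw.2]
    exact this.ne')
  have h5 := (hasDerivAt_id w).div h4 h1.ne'
  refine h5.congr_deriv ?_
  simp only [id]
  set S := √(1 - w ^ 2)
  have hw2 : w ^ 2 = 1 - S ^ 2 := by linarith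
  field_simp
  nlinarith

/-- The final substitution `τ = w / √(1 - w ^ 2)`. -/
lemma lintegral_subst (hN : 3 ≤ Module.finrank ℝ E) {G : ℝ → ℝ≥0∞} :
    ∫⁻ τ, ENNReal.ofReal phi0 * (ENNReal.ofReal (((Module.finrank ℝ E : ℝ) - 1) *
        tc (τ ^ 2 / 2) ^ (Module.finrank ℝ E + 1)) * Gh G τ) =
      ENNReal.ofReal (phi0 * ((Module.finrank ℝ E : ℝ) - 1)) *
        ∫⁻ w in Ioo (-1 : ℝ) 1, G w * ENNReal.ofReal (√(1 - w ^ 2) ^ (Module.finrank ℝ E - 3)) := by
  set N := Module.finrank ℝ E with hNdef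
  set g : ℝ → ℝ≥0∞ := fun τ => ENNReal.ofReal phi0 * (ENNReal.ofReal (((N : ℝ) - 1) *
        tc (τ ^ 2 / 2) ^ (N + 1)) * Gh G τ) with hg
  set T : ℝ → ℝ := fun w => w / √(1 - w ^ 2) with hT
  have himg : T '' Ioo (-1 : ℝ) 1 = univ := by
    refine eq_univ_of_forall fun τ => ?_
    have hp : 0 < √(1 + τ ^ 2) := Real.sqrt_pos.mpr (by positivity)
    have hq : √(1 + τ ^ 2) ^ 2 = 1 + τ ^ 2 := Real.sq_sqrt (by positivity)
    set q := √(1 + τ ^ 2)
    have hlt : τ ^ 2 < q ^ 2 := by linarith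
    have habs : |τ| < q := by
      have := abs_lt_of_sq_lt_sq hlt hp.le
      simpa [abs_lt] using (abs_lt.mpr (abs_lt.mp this))
    refine ⟨τ / q, ⟨?_, ?_⟩, ?_⟩
    · rw [lt_div_iff₀ hp]
      have := (abs_lt.mp habs).1
      linarith
    · rw [div_lt_one hp]
      exact (abs_lt.mp habs).2
    · have h1 : 1 - (τ / q) ^ 2 = (q⁻¹) ^ 2 := by
        field_simp
        linarith
      simp only [hT]
      rw [h1, Real.sqrt_sq (by positivity)]
      field_simp
  have hinj : InjOn T (Ioo (-1 : ℝ) 1) := by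
    intro a ha b hb hab
    have key : ∀ {w : ℝ}, w ∈ Ioo (-1 : ℝ) 1 → T w * √(1 - w ^ 2) = w := by
      intro w hw
      obtain ⟨h1, -⟩ := S_props hw
      simp only [hT]
      field_simp
    have hs : √(1 + T a ^ 2) = √(1 + T b ^ 2) := by rw [hab]
    simp only [hT] at hs
    rw [sqrt_one_add_T ha, sqrt_one_add_T hb] at hs
    have hs' : √(1 - a ^ 2) = √(1 - b ^ 2) := inv_injective hs
    rw [← key ha, ← key hb, hab, hs']
  have hchg := lintegral_image_eq_lintegral_abs_deriv_mul measurableSet_Ioo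
    (fun w hw => (hasDerivAt_T hw).hasDerivWithinAt) hinj g
  rw [himg, Measure.restrict_univ] at hchg
  rw [show (∫⁻ τ, ENNReal.ofReal phi0 * (ENNReal.ofReal (((N : ℝ) - 1) *
        tc (τ ^ 2 / 2) ^ (N + 1)) * Gh G τ)) = ∫⁻ τ, g τ from rfl, hchg,
    ← lintegral_const_mul' _ _ ENNReal.ofReal_ne_top]
  refine setLIntegral_congr_fun measurableSet_Ioo fun w hw => ?_
  obtain ⟨h1, h2⟩ := S_props hw
  have hT2 : √(1 + (w / √(1 - w ^ 2)) ^ 2) = (√(1 - w ^ 2))⁻¹ := sqrt_one_add_T hw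
  have hT3 : w / √(1 - w ^ 2) / (√(1 - w ^ 2))⁻¹ = w := by
    field_simp
  have htc : tc ((w / √(1 - w ^ 2)) ^ 2 / 2) = √(1 - w ^ 2) := by
    unfold tc
    rw [show 1 + 2 * ((w / √(1 - w ^ 2)) ^ 2 / 2) = 1 + (w / √(1 - w ^ 2)) ^ 2 by ring, hT2,
      inv_inv]
  simp only [hg, Gh]
  rw [hT2, hT3, htc, abs_of_pos (by positivity)]
  set S := √(1 - w ^ 2)
  have hN1 : (0 : ℝ) ≤ (N : ℝ) - 1 := by
    have : (3 : ℝ) ≤ N := by exact_mod_cast hN
    linarith
  have h0 := phi0_pos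
  have hpow : S ^ (N + 1) = S ^ (N - 3) * S ^ 4 := by
    rw [← pow_add]
    congr 1
    omega
  have e : ENNReal.ofReal ((S ^ 3)⁻¹) * ENNReal.ofReal phi0 *
      ENNReal.ofReal (((N : ℝ) - 1) * S ^ (N + 1)) * ENNReal.ofReal S⁻¹ =
      ENNReal.ofReal (phi0 * ((N : ℝ) - 1)) * ENNReal.ofReal (S ^ (N - 3)) := by
    rw [← ENNReal.ofReal_mul (by positivity), ← ENNReal.ofReal_mul (by positivity),
      ← ENNReal.ofReal_mul (by positivity), ← ENNReal.ofReal_mul (by positivity)]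
    congr 1
    rw [hpow]
    field_simp
  calc _ = (ENNReal.ofReal ((S ^ 3)⁻¹) * ENNReal.ofReal phi0 *
      ENNReal.ofReal (((N : ℝ) - 1) * S ^ (N + 1)) * ENNReal.ofReal S⁻¹) * G w := by ring
    _ = _ := by rw [e]; ring

/-- The master formula for functions homogeneous of degree one. -/
theorem lintegral_homog (hN : 3 ≤ Module.finrank ℝ E) {u : E} (hu : ‖u‖ = 1) {G : ℝ → ℝ≥0∞}
    (hG : Measurable G) :
    ∫⁻ x, ENNReal.ofReal ‖x‖ * G (⟪u, x⟫ / ‖x‖) ∂(stdGaussian E) =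
      ENNReal.ofReal (phi0 * ((Module.finrank ℝ E : ℝ) - 1)) *
        ∫⁻ w in Ioo (-1 : ℝ) 1, G w * ENNReal.ofReal (√(1 - w ^ 2) ^ (Module.finrank ℝ E - 3)) := by
  have hfm : Measurable (fun x : E => ENNReal.ofReal ‖x‖ * G (⟪u, x⟫ / ‖x‖)) := by
    refine Measurable.mul (by fun_prop) (hG.comp ?_)
    exact ((continuous_const.inner continuous_id).measurable).div measurable_norm
  rw [lintegral_eq_QQ hu hfm]
  have h1 : ∀ᵐ y ∂(stdGaussian E),
      ∫⁻ s, ENNReal.ofReal ‖QQ u (s, y)‖ * G (⟪u, QQ u (s, y)⟫ / ‖QQ u (s, y)‖) ∂NN =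
      ∫⁻ τ, ENNReal.ofReal phi0 *
        (ENNReal.ofReal (Rr u y ^ 2 * rexp (-(τ ^ 2 / 2) * Rr u y ^ 2)) * Gh G τ) := by
    filter_upwards [ae_Rr_pos (by omega) hu] with y hy
    rw [← inner_eval hG hy]
    refine lintegral_congr fun s => ?_
    have h2 : ‖QQ u (s, y)‖ = √(s ^ 2 + Rr u y ^ 2) := by
      rw [← norm_QQ_sq hu, Real.sqrt_sq (norm_nonneg _)]
    rw [inner_u_QQ hu, h2]
  rw [lintegral_congr_ae h1]
  have hRm := measurable_Rr u
  have hΦ : Measurable (Function.uncurry fun (y : E) (τ : ℝ) => ENNReal.ofReal phi0 *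
        (ENNReal.ofReal (Rr u y ^ 2 * rexp (-(τ ^ 2 / 2) * Rr u y ^ 2)) * Gh G τ)) := by
    have hGh := measurable_Gh hG
    refine Measurable.const_mul (Measurable.mul ?_ (hGh.comp measurable_snd)) _
    refine ENNReal.measurable_ofReal.comp ?_
    have h3 : Measurable fun p : E × ℝ => Rr u p.1 := hRm.comp measurable_fst
    have h4 : Measurable fun p : E × ℝ => p.2 := measurable_snd
    exact (h3.pow_const 2).mul (Real.measurable_exp.comp
      ((((h4.pow_const 2).div_const 2).neg).mul (h3.pow_const 2)))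
  rw [lintegral_lintegral_swap hΦ.aemeasurable]
  rw [← lintegral_subst hN]
  refine lintegral_congr fun τ => ?_
  have hm : Measurable fun y : E => ENNReal.ofReal (Rr u y ^ 2 * rexp (-(τ ^ 2 / 2) * Rr u y ^ 2)) := by
    refine ENNReal.measurable_ofReal.comp ?_
    exact (hRm.pow_const 2).mul (Real.measurable_exp.comp ((hRm.pow_const 2).const_mul _))
  rw [lintegral_const_mul _ (hm.mul_const _), lintegral_mul_const _ hm,
    lintegral_Rr_sq_exp hu (by positivity)]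

lemma S_pow_eq (hN : 3 ≤ Module.finrank ℝ E) {w : ℝ} (hw : w ∈ Ioo (-1 : ℝ) 1) :
    √(1 - w ^ 2) ^ (Module.finrank ℝ E - 3) =
      (1 - w ^ 2) ^ (((Module.finrank ℝ E : ℝ) - 3) / 2) := by
  have h1 : 0 < 1 - w ^ 2 := by nlinarith [hw.1, hw.2]
  rw [Real.sqrt_eq_rpow, ← Real.rpow_natCast, ← Real.rpow_mul h1.le]
  congr 1
  rw [Nat.cast_sub hN]
  push_cast
  ring

end CapInt

open CapInt

/-- One dimensional formula for the mean norm. -/
theorem integral_norm_eq (hN : 3 ≤ Module.finrank ℝ E) :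
    ∫ x, ‖x‖ ∂(stdGaussian E) = phi0 * ((Module.finrank ℝ E : ℝ) - 1) *
      ∫ w in (-1 : ℝ)..1, (1 - w ^ 2) ^ (((Module.finrank ℝ E : ℝ) - 3) / 2) := by
  have hpos : 0 < Module.finrank ℝ E := by omega
  have : Nontrivial E := Module.nontrivial_of_finrank_pos hpos
  obtain ⟨v, hv⟩ := exists_ne (0 : E)
  have hu : ‖(‖v‖⁻¹ • v)‖ = 1 := norm_smul_inv_norm hv
  have hN1 : (0 : ℝ) ≤ (Module.finrank ℝ E : ℝ) - 1 := by
    have : (3 : ℝ) ≤ Module.finrank ℝ E := by exact_mod_cast hN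
    linarith
  have h0 := phi0_pos
  have hm := lintegral_homog hN hu (G := fun _ => (1 : ℝ≥0∞)) measurable_const
  simp only [mul_one, one_mul] at hm
  rw [integral_eq_lintegral_of_nonneg_ae (Eventually.of_forall fun x => norm_nonneg x)
      measurable_norm.aestronglyMeasurable, hm, ENNReal.toReal_mul,
    ENNReal.toReal_ofReal (by positivity)]
  congr 1
  rw [intervalIntegral.integral_of_le (by norm_num), integral_Ioc_eq_integral_Ioo]
  have hmeas : Measurable fun w : ℝ => (1 - w ^ 2) ^ (((Module.finrank ℝ E : ℝ) - 3) / 2) := by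
    fun_prop
  rw [integral_eq_lintegral_of_nonneg_ae _ hmeas.aestronglyMeasurable]
  · congr 1
    refine setLIntegral_congr_fun measurableSet_Ioo fun w hw => ?_
    rw [S_pow_eq hN hw]
  · filter_upwards [ae_restrict_mem measurableSet_Ioo] with w hw
    have h1 : 0 < 1 - w ^ 2 := by nlinarith [hw.1, hw.2]
    exact Real.rpow_nonneg h1.le _

/-- One dimensional formula for the cap functional. -/
theorem integral_cap_eq (hN : 3 ≤ Module.finrank ℝ E) {u : E} (hu : ‖u‖ = 1) {t : ℝ} (ht0 : 0 ≤ t)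
    (ht1 : t ≤ 1) :
    ∫ x, max 0 (⟪u, x⟫ - t * ‖x‖) ∂(stdGaussian E) = phi0 * ((Module.finrank ℝ E : ℝ) - 1) *
      ∫ w in t..1, (w - t) * (1 - w ^ 2) ^ (((Module.finrank ℝ E : ℝ) - 3) / 2) := by
  have hN1 : (0 : ℝ) ≤ (Module.finrank ℝ E : ℝ) - 1 := by
    have : (3 : ℝ) ≤ Module.finrank ℝ E := by exact_mod_cast hN
    linarith
  have h0 := phi0_pos
  set a := ((Module.finrank ℝ E : ℝ) - 3) / 2 with ha
  set G : ℝ → ℝ≥0∞ := fun w => ENNReal.ofReal (max 0 (w - t)) with hG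
  have hGm : Measurable G := by
    simp only [hG]
    fun_prop
  have hm := lintegral_homog hN hu hGm
  have h1 : ∀ x : E, ENNReal.ofReal ‖x‖ * G (⟪u, x⟫ / ‖x‖) =
      ENNReal.ofReal (max 0 (⟪u, x⟫ - t * ‖x‖)) := by
    intro x
    simp only [hG]
    rw [← ENNReal.ofReal_mul (norm_nonneg x)]
    congr 1
    by_cases hx : x = 0
    · simp [hx]
    have hn : 0 < ‖x‖ := norm_pos_iff.mpr hx
    have h2 : ⟪u, x⟫ - t * ‖x‖ = ‖x‖ * (⟪u, x⟫ / ‖x‖ - t) := by
      field_simp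
    rw [h2, mul_max_of_nonneg _ _ hn.le, mul_zero]
  simp_rw [h1] at hm
  have hf : Measurable fun x : E => max 0 (⟪u, x⟫ - t * ‖x‖) := by
    refine measurable_const.max (Measurable.sub ?_ (measurable_norm.const_mul t))
    exact (continuous_const.inner continuous_id).measurable
  have hnn : 0 ≤ᵐ[stdGaussian E] (fun x : E => max 0 (⟪u, x⟫ - t * ‖x‖)) :=
    Eventually.of_forall fun x => le_max_left _ _
  rw [integral_eq_lintegral_of_nonneg_ae hnn hf.aestronglyMeasurable, hm, ENNReal.toReal_mul,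
    ENNReal.toReal_ofReal (by positivity)]
  congr 1
  rw [intervalIntegral.integral_of_le ht1]
  have hmeas : Measurable fun w : ℝ => (w - t) * (1 - w ^ 2) ^ a := by
    fun_prop
  rw [integral_eq_lintegral_of_nonneg_ae _ hmeas.aestronglyMeasurable]
  · congr 1
    rw [← Measure.restrict_congr_set (Ioo_ae_eq_Ioc (a := t) (b := (1 : ℝ))),
      ← lintegral_indicator measurableSet_Ioo, ← lintegral_indicator measurableSet_Ioo]
    refine lintegral_congr fun w => ?_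
    by_cases hw : w ∈ Ioo (-1 : ℝ) 1
    · rw [indicator_of_mem hw]
      by_cases hwt : t < w
      · have hw' : w ∈ Ioo t 1 := ⟨hwt, hw.2⟩
        rw [indicator_of_mem hw']
        simp only [hG]
        rw [max_eq_right (by linarith), S_pow_eq hN hw, ← ha, ENNReal.ofReal_mul (by linarith)]
      · have hw' : w ∉ Ioo t 1 := fun h => hwt h.1
        rw [indicator_of_notMem hw']
        simp only [hG]
        rw [max_eq_left (by linarith)]
        simp
    · have hw' : w ∉ Ioo t 1 := fun h => hw ⟨by linarith [h.1], h.2⟩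
      rw [indicator_of_notMem hw, indicator_of_notMem hw']
  · filter_upwards [ae_restrict_mem measurableSet_Ioc] with w hw
    have h1 : 0 ≤ 1 - w ^ 2 := by nlinarith [hw.1, hw.2]
    exact mul_nonneg (by linarith [hw.1]) (Real.rpow_nonneg h1 _)

end

end Vale.Agent.Lib.P226
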