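import Mathlib

/-!
Module M9 of the propeller proof: one dimensional integrals `∫ (1-w^2)^a`.
All statements are elementary calculus. Proofs: integration by parts or derivative of the
explicit antiderivative (for the recursions use `intervalIntegral.integral_eq_sub_of_hasDerivAt`,
taking care of the endpoint `w = 1` where `(1-w^2)^(a-1)` may be singular when `a < 1`; here `a ≥ 1`
in the recursion, so all integrands are continuous on `[t,1]`).
-/

open MeasureTheory Real intervalIntegral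

namespace Vale.Agent.Lib.P226

/-- `J(a,t) = ∫_t^1 (1-w^2)^a dw` (real power). -/
noncomputable def Jr (a t : ℝ) : ℝ := ∫ w in t..1, (1 - w ^ 2) ^ a

/-- `K(a,t) = ∫_t^1 (w-t) (1-w^2)^a dw` (real power). -/
noncomputable def Kr (a t : ℝ) : ℝ := ∫ w in t..1, (w - t) * (1 - w ^ 2) ^ a

theorem cont_one_sub_sq_rpow {a : ℝ} (ha : 0 ≤ a) : Continuous fun w : ℝ => (1 - w ^ 2) ^ a := by
  refine Continuous.rpow_const (by fun_prop) ?_
  intro w
  exact Or.inr ha

/-- Split of `K` : antiderivative of `w (1-w^2)^a` is `-(1-w^2)^(a+1)/(2(a+1))`. -/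
theorem Kr_eq {a t : ℝ} (ha : 0 ≤ a) (ht0 : 0 ≤ t) (ht1 : t ≤ 1) :
    Kr a t = (1 - t ^ 2) ^ (a + 1) / (2 * (a + 1)) - t * Jr a t := by
  have hc := cont_one_sub_sq_rpow ha
  have ha1 : 0 < a + 1 := by linarith
  have h1 : ∫ w in t..1, w * (1 - w ^ 2) ^ a = (1 - t ^ 2) ^ (a + 1) / (2 * (a + 1)) := by
    have hd : ∀ w ∈ Set.uIcc t 1, HasDerivAt (fun w : ℝ => -(1 - w ^ 2) ^ (a + 1) / (2 * (a + 1)))
        (w * (1 - w ^ 2) ^ a) w := by
      intro w _
      have h0 : HasDerivAt (fun w : ℝ => 1 - w ^ 2) (-(2 * w)) w := by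
        have := ((hasDerivAt_pow 2 w).const_sub 1)
        simpa using this
      have h2 := h0.rpow_const (p := a + 1) (Or.inr (by linarith))
      have h3 := (h2.fun_neg).div_const (2 * (a + 1))
      refine h3.congr_deriv ?_
      rw [add_sub_cancel_right]
      field_simp
    rw [intervalIntegral.integral_eq_sub_of_hasDerivAt hd
      ((continuous_id.mul hc).intervalIntegrable _ _)]
    have : (1 - (1:ℝ) ^ 2) = 0 := by norm_num
    rw [this, Real.zero_rpow (by linarith)]
    ring
  unfold Kr Jr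
  have h2 : (fun w : ℝ => (w - t) * (1 - w ^ 2) ^ a)
      = fun w : ℝ => w * (1 - w ^ 2) ^ a - t * (1 - w ^ 2) ^ a := by
    funext w; ring
  have hi1 : IntervalIntegrable (fun w : ℝ => w * (1 - w ^ 2) ^ a) volume t 1 :=
    (continuous_id.mul hc).intervalIntegrable _ _
  have hi2 : IntervalIntegrable (fun w : ℝ => t * (1 - w ^ 2) ^ a) volume t 1 :=
    (continuous_const.mul hc).intervalIntegrable _ _
  rw [h2, intervalIntegral.integral_sub hi1 hi2, h1, intervalIntegral.integral_const_mul]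

theorem Jr_zero_exp (t : ℝ) : Jr 0 t = 1 - t := by
  unfold Jr
  simp

/-- The recursion: derivative of `w (1-w^2)^a` is
`(2a+1)(1-w^2)^a - 2a (1-w^2)^(a-1)`. -/
theorem Jr_rec {a t : ℝ} (ha : 1 ≤ a) (ht0 : 0 ≤ t) (ht1 : t ≤ 1) :
    (2 * a + 1) * Jr a t = 2 * a * Jr (a - 1) t - t * (1 - t ^ 2) ^ a := by
  have hc := cont_one_sub_sq_rpow (a := a) (by linarith)
  have hc' := cont_one_sub_sq_rpow (a := a - 1) (by linarith)
  have hd : ∀ w ∈ Set.uIcc t 1, HasDerivAt (fun w : ℝ => w * (1 - w ^ 2) ^ a)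
      ((2 * a + 1) * (1 - w ^ 2) ^ a - 2 * a * (1 - w ^ 2) ^ (a - 1)) w := by
    intro w hw
    rw [Set.uIcc_of_le ht1] at hw
    have hw0 : 0 ≤ w := le_trans ht0 hw.1
    have hw1 : 0 ≤ 1 - w ^ 2 := by nlinarith [hw.2]
    have h0 : HasDerivAt (fun w : ℝ => 1 - w ^ 2) (-(2 * w)) w := by
      have := ((hasDerivAt_pow 2 w).const_sub 1)
      simpa using this
    have h2 := h0.rpow_const (p := a) (Or.inr ha)
    have h3 := (hasDerivAt_id' w).fun_mul h2
    refine h3.congr_deriv ?_
    have e : (1 - w ^ 2) ^ a = (1 - w ^ 2) ^ (a - 1) * (1 - w ^ 2) := by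
      have hne : a - 1 + 1 ≠ 0 := by
        have : a - 1 + 1 = a := by ring
        rw [this]
        linarith
      have := Real.rpow_add_one' (x := 1 - w ^ 2) (y := a - 1) hw1 hne
      rwa [sub_add_cancel] at this
    rw [e]
    ring
  have hi1 : IntervalIntegrable (fun w : ℝ => (2 * a + 1) * (1 - w ^ 2) ^ a) volume t 1 :=
    (continuous_const.mul hc).intervalIntegrable _ _
  have hi2 : IntervalIntegrable (fun w : ℝ => 2 * a * (1 - w ^ 2) ^ (a - 1)) volume t 1 :=
    (continuous_const.mul hc').intervalIntegrable _ _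
  have hint := intervalIntegral.integral_eq_sub_of_hasDerivAt hd (hi1.sub hi2)
  rw [intervalIntegral.integral_sub hi1 hi2, intervalIntegral.integral_const_mul,
    intervalIntegral.integral_const_mul] at hint
  have e1 : (1 - (1:ℝ) ^ 2) = 0 := by norm_num
  rw [e1, Real.zero_rpow (by linarith)] at hint
  unfold Jr
  linarith

/-- Symmetry. -/
theorem I0_eq (a : ℝ) : ∫ w in (-1 : ℝ)..1, (1 - w ^ 2) ^ a = 2 * Jr a 0 := by
  unfold Jr
  set f : ℝ → ℝ := fun w => (1 - w ^ 2) ^ a with hf
  have heven : ∀ w, f (-w) = f w := by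
    intro w; simp [hf]
  by_cases hi : IntervalIntegrable f volume 0 1
  · have hi' : IntervalIntegrable f volume (-1) 0 := by
      have h3 : IntervalIntegrable (fun x => f (-x)) volume (-0) (-1) :=
        (IntervalIntegrable.iff_comp_neg (by simp)).mp hi
      simp only [neg_zero] at h3
      have h2 : (fun x => f (-x)) = f := by funext x; exact heven x
      rw [h2] at h3
      exact h3.symm
    have e1 : ∫ w in (-1 : ℝ)..0, f w = ∫ w in (0 : ℝ)..1, f w := by
      have := intervalIntegral.integral_comp_neg (a := (0:ℝ)) (b := 1) f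
      simp only [neg_zero] at this
      rw [← this]
      congr 1
      funext x
      exact heven x
    rw [← intervalIntegral.integral_add_adjacent_intervals hi' hi, e1]
    ring
  · have h0 : ∫ w in (0 : ℝ)..1, f w = 0 := intervalIntegral.integral_undef hi
    have h1 : ¬ IntervalIntegrable f volume (-1) 1 := by
      intro h
      apply hi
      refine h.mono_set ?_
      rw [Set.uIcc_of_le (by norm_num), Set.uIcc_of_le (by norm_num)]
      exact Set.Icc_subset_Icc (by norm_num) le_rfl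
    rw [intervalIntegral.integral_undef h1, h0]
    ring

/-- Use `integral_sqrt_one_sub_sq` of Mathlib and symmetry. -/
theorem Jr_half_zero : Jr (1 / 2) 0 = π / 4 := by
  have h := I0_eq (1 / 2)
  have h2 : ∫ w in (-1 : ℝ)..1, (1 - w ^ 2) ^ ((1:ℝ) / 2) = π / 2 := by
    have := integral_sqrt_one_sub_sq
    simpa [Real.sqrt_eq_rpow] using this
  rw [h2] at h
  linarith

/-- Chord bound for the concave function `√(1-w^2)`: with lower bounds `ha, hb` at the endpoints,
the chord `L` satisfies `L(w)^2 + w^2 ≤ 1` on `[a,b]` (a convex quadratic in `w`, nonpositive at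
the endpoints), so `L ≤ √(1-w^2)`. -/
theorem chord_le {a b ha hb : ℝ} (h0 : 0 ≤ a) (hab : a ≤ b) (hb1 : b ≤ 1) (hha : 0 ≤ ha)
    (hhb : 0 ≤ hb) (h1 : ha ^ 2 + a ^ 2 ≤ 1) (h2 : hb ^ 2 + b ^ 2 ≤ 1) :
    (b - a) * (ha + hb) / 2 ≤ ∫ w in a..b, (1 - w ^ 2) ^ ((1 : ℝ) / 2) := by
  rcases hab.eq_or_lt with h | hlt
  · subst h
    simp
  have hba : 0 < b - a := by linarith
  set L : ℝ → ℝ := fun w => ha + (hb - ha) * ((w - a) / (b - a)) with hL
  have hLint : ∫ w in a..b, L w = (b - a) * (ha + hb) / 2 := by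
    have hd : ∀ w ∈ Set.uIcc a b, HasDerivAt
        (fun w : ℝ => ha * w + (hb - ha) * ((w - a) ^ 2 / (2 * (b - a)))) (L w) w := by
      intro w _
      have h3 : HasDerivAt (fun w : ℝ => (w - a) ^ 2) (2 * (w - a)) w := by
        have := ((hasDerivAt_id' w).sub_const a).fun_pow 2
        simpa using this
      have h4 := ((hasDerivAt_id' w).const_mul ha).fun_add
        ((h3.div_const (2 * (b - a))).const_mul (hb - ha))
      refine h4.congr_deriv ?_
      simp only [hL]
      field_simp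
    have hcont : Continuous L := by
      simp only [hL]
      fun_prop
    rw [intervalIntegral.integral_eq_sub_of_hasDerivAt hd (hcont.intervalIntegrable _ _)]
    field_simp
    ring
  rw [← hLint]
  have hc := cont_one_sub_sq_rpow (a := 1 / 2) (by norm_num)
  have hcont : Continuous L := by
    simp only [hL]
    fun_prop
  refine intervalIntegral.integral_mono_on hab (hcont.intervalIntegrable _ _)
    (hc.intervalIntegrable _ _) ?_
  intro w hw
  set θ := (w - a) / (b - a) with hθ
  have hθ0 : 0 ≤ θ := div_nonneg (by linarith [hw.1]) hba.le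
  have hθ1 : θ ≤ 1 := by
    rw [hθ, div_le_one hba]
    linarith [hw.2]
  have hw_eq : w = (1 - θ) * a + θ * b := by
    rw [hθ]
    field_simp
    ring
  have hLw : L w = (1 - θ) * ha + θ * hb := by
    simp only [hL]
    ring
  have hkey : (L w) ^ 2 + w ^ 2 ≤ 1 := by
    rw [hLw]
    have hwsq : w ^ 2 = ((1 - θ) * a + θ * b) ^ 2 := by rw [← hw_eq]
    rw [hwsq]
    have h5 : ((1 - θ) * ha + θ * hb) ^ 2 + ((1 - θ) * a + θ * b) ^ 2
        = (1 - θ) * (ha ^ 2 + a ^ 2) + θ * (hb ^ 2 + b ^ 2)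
          - (1 - θ) * θ * ((ha - hb) ^ 2 + (a - b) ^ 2) := by ring
    rw [h5]
    have h6 : 0 ≤ (1 - θ) * θ * ((ha - hb) ^ 2 + (a - b) ^ 2) := by
      have : 0 ≤ 1 - θ := by linarith
      positivity
    have h7 : (1 - θ) * (ha ^ 2 + a ^ 2) ≤ (1 - θ) * 1 :=
      mul_le_mul_of_nonneg_left h1 (by linarith)
    have h8 : θ * (hb ^ 2 + b ^ 2) ≤ θ * 1 := mul_le_mul_of_nonneg_left h2 hθ0
    linarith
  have hLw0 : 0 ≤ L w := by
    rw [hLw]
    have : 0 ≤ 1 - θ := by linarith
    positivity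
  have h9 : L w ≤ √(1 - w ^ 2) := by
    apply Real.le_sqrt_of_sq_le
    linarith
  rw [← Real.sqrt_eq_rpow]
  exact h9

end Vale.Agent.Lib.P226
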