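import Mathlib
import Vale.Agent.Lib.P226.G8CapInt
import Vale.Agent.Lib.P226.G9Integrals

/-!
Module M10 of the propeller proof: tangent lines `σ ρ - κ ≤ μ` for a cone in `ℝ^N`.
-/

open MeasureTheory ProbabilityTheory Real Set Filter Topology
open scoped ENNReal NNReal RealInnerProductSpace

namespace Vale.Agent.Lib.P226

/-- Euclidean space of dimension `N`. -/
abbrev EN (N : ℕ) := EuclideanSpace ℝ (Fin N)

/-- A line below the cell measure, for cones whose moment in direction `u` is at least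
`(3/2) φ0 ρ`. -/
def TanProp (N : ℕ) (σ κ : ℝ) : Prop :=
  ∀ (A : Set (EN N)) (u : EN N) (ρ : ℝ), MeasurableSet A →
    (∀ (c : ℝ) (x : EN N), 0 < c → (c • x ∈ A ↔ x ∈ A)) → ‖u‖ = 1 → 0 ≤ ρ →
    (3 / 2) * phi0 * ρ ≤ ∫ x in A, ⟪u, x⟫ ∂(stdGaussian (EN N)) →
    σ * ρ - κ ≤ (stdGaussian (EN N)).real A

/-- The quadratic rule near zero. -/
def ZeroProp (N : ℕ) (b Λ : ℝ) : Prop :=
  ∀ (A : Set (EN N)) (u : EN N) (ρ : ℝ), MeasurableSet A →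
    (∀ (c : ℝ) (x : EN N), 0 < c → (c • x ∈ A ↔ x ∈ A)) → ‖u‖ = 1 → 0 ≤ ρ → ρ ≤ b →
    (3 / 2) * phi0 * ρ ≤ ∫ x in A, ⟪u, x⟫ ∂(stdGaussian (EN N)) →
    Λ * ρ ^ 2 ≤ (stdGaussian (EN N)).real A

/-- Exponent of the dimension. -/
noncomputable def aN (N : ℕ) : ℝ := ((N : ℝ) - 3) / 2

/-- `α(t) = (N-1) t I0`. -/
noncomputable def alphaN (N : ℕ) (t : ℝ) : ℝ :=
  ((N : ℝ) - 1) * t * ∫ w in (-1 : ℝ)..1, (1 - w ^ 2) ^ aN N

/-- `β(t) = (N-1) K(a,t)`. -/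
noncomputable def betaN (N : ℕ) (t : ℝ) : ℝ := ((N : ℝ) - 1) * Kr (aN N) t

lemma aN_nonneg {N : ℕ} (hN : 3 ≤ N) : 0 ≤ aN N := by
  unfold aN
  have : (3 : ℝ) ≤ N := by exact_mod_cast hN
  linarith

/-- Positivity of `I0`. -/
lemma I0_pos {a : ℝ} (ha : 0 ≤ a) : 0 < ∫ w in (-1 : ℝ)..1, (1 - w ^ 2) ^ a := by
  have hc : Continuous fun w : ℝ => (1 - w ^ 2) ^ a :=
    Continuous.rpow_const (by fun_prop) (fun _ => Or.inr ha)
  refine intervalIntegral.intervalIntegral_pos_of_pos_on (hc.intervalIntegrable _ _) ?_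
    (by norm_num)
  intro w hw
  have : 0 < 1 - w ^ 2 := by nlinarith [hw.1, hw.2]
  exact Real.rpow_pos_of_pos this _

lemma finrank_EN (N : ℕ) : Module.finrank ℝ (EN N) = N := by simp

/-- From `cone_cap_bound`, `integral_norm_eq`, `integral_cap_eq` with `finrank = N`:
`(3/2) ρ ≤ α μ + β`. -/
theorem tanProp_of_bounds {N : ℕ} (hN : 3 ≤ N) {t σ κ : ℝ} (ht0 : 0 < t) (ht1 : t ≤ 1)
    (h1 : σ * alphaN N t ≤ 3 / 2) (h2 : betaN N t ≤ κ * alphaN N t) : TanProp N σ κ := by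
  intro A u ρ hA hcone hu hρ hmom
  have hfr : Module.finrank ℝ (EN N) = N := finrank_EN N
  have hfr3 : 3 ≤ Module.finrank ℝ (EN N) := by rw [hfr]; exact hN
  have hb := cone_cap_bound (E := EN N) hA hcone u (t := t)
  rw [integral_norm_eq hfr3, integral_cap_eq hfr3 hu ht0.le ht1, hfr] at hb
  have h0 : 0 < phi0 := phi0_pos
  have hN' : (3 : ℝ) ≤ N := by exact_mod_cast hN
  have hαpos : 0 < alphaN N t := by
    unfold alphaN
    have := I0_pos (aN_nonneg hN)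
    have h3 : (0 : ℝ) < (N : ℝ) - 1 := by linarith
    positivity
  set μ := (stdGaussian (EN N)).real A with hμ
  have hK : ∫ w in t..1, (w - t) * (1 - w ^ 2) ^ (((N : ℝ) - 3) / 2) = Kr (aN N) t := rfl
  have hmain : (3 / 2) * ρ ≤ alphaN N t * μ + betaN N t := by
    have h4 : phi0 * ((3 / 2) * ρ) ≤ phi0 * (alphaN N t * μ + betaN N t) := by
      calc phi0 * ((3 / 2) * ρ) = (3 / 2) * phi0 * ρ := by ring
        _ ≤ _ := hmom
        _ ≤ _ := hb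
        _ = _ := by
          rw [hK]
          unfold alphaN betaN aN
          ring
    exact le_of_mul_le_mul_left h4 h0
  have h5 : alphaN N t * (σ * ρ - κ) ≤ alphaN N t * μ := by
    have h6 : σ * alphaN N t * ρ ≤ (3 / 2) * ρ := mul_le_mul_of_nonneg_right h1 hρ
    nlinarith
  exact le_of_mul_le_mul_left h5 hαpos

/-- A line with `κ = 0` gives the quadratic rule. -/
theorem zeroProp_of_tan {N : ℕ} {σ b Λ : ℝ} (h : TanProp N σ 0) (hb : Λ * b ≤ σ) (hΛ : 0 ≤ Λ) :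
    ZeroProp N b Λ := by
  intro A u ρ hA hcone hu hρ hρb hmom
  have h1 := h A u ρ hA hcone hu hρ hmom
  have h2 : Λ * ρ ≤ Λ * b := mul_le_mul_of_nonneg_left hρb hΛ
  have h3 : Λ * ρ * ρ ≤ σ * ρ := mul_le_mul_of_nonneg_right (h2.trans hb) hρ
  nlinarith

/-- The trivial line. -/
theorem tanProp_zero (N : ℕ) : TanProp N 0 0 := by
  intro A u ρ hA hcone hu hρ hmom
  have : 0 ≤ (stdGaussian (EN N)).real A := measureReal_nonneg
  simp [this]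

/-- Rational value of `J(m,t)` for integer `m`. -/
def qJ : ℕ → ℚ → ℚ
  | 0, t => 1 - t
  | m + 1, t => ((2 * (m : ℚ) + 2) * qJ m t - t * (1 - t ^ 2) ^ (m + 1)) / (2 * (m : ℚ) + 3)

/-- `Jr (m:ℝ) t = qJ m t`: induction with `Jr_zero_exp`, `Jr_rec`. -/
theorem Jr_nat (m : ℕ) {t : ℚ} (ht0 : 0 ≤ t) (ht1 : t ≤ 1) :
    Jr (m : ℝ) (t : ℝ) = (qJ m t : ℝ) := by
  have ht0' : (0 : ℝ) ≤ t := by exact_mod_cast ht0
  have ht1' : (t : ℝ) ≤ 1 := by exact_mod_cast ht1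
  induction m with
  | zero =>
    simp only [Nat.cast_zero, qJ, Rat.cast_sub, Rat.cast_one]
    exact Jr_zero_exp _
  | succ m ih =>
    have hrec := Jr_rec (a := ((m + 1 : ℕ) : ℝ)) (t := (t : ℝ))
      (by push_cast; linarith [(Nat.cast_nonneg m : (0 : ℝ) ≤ m)]) ht0' ht1'
    have e1 : ((m + 1 : ℕ) : ℝ) - 1 = (m : ℝ) := by push_cast; ring
    rw [e1, ih, Real.rpow_natCast] at hrec
    have hm : (0 : ℝ) ≤ m := Nat.cast_nonneg m
    have h3 : (2 * ((m : ℝ)) + 3) ≠ 0 := by positivity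
    simp only [qJ]
    push_cast at hrec ⊢
    rw [eq_div_iff h3]
    linarith

/-- Validity of one tangent in odd dimension `N = 2m+3`; `t = n/1000`; `σ = s/10^6`, `κ = k/10^6`. -/
def oddOK (m : ℕ) (e : ℕ × ℕ × ℕ) : Bool :=
  let t : ℚ := (e.1 : ℚ) / 1000
  let s : ℚ := (e.2.1 : ℚ) / 1000000
  let k : ℚ := (e.2.2 : ℚ) / 1000000
  let I0 : ℚ := 2 * qJ m 0
  let α : ℚ := (2 * (m : ℚ) + 2) * t * I0
  let β : ℚ := (2 * (m : ℚ) + 2) * ((1 - t ^ 2) ^ (m + 1) / (2 * ((m : ℚ) + 1)) - t * qJ m t)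
  decide (0 < e.1) && decide (e.1 ≤ 1000) && decide (s * α ≤ 3 / 2) && decide (β ≤ k * α)

/-- Soundness for odd dimension. -/
theorem tanProp_odd {m : ℕ} {e : ℕ × ℕ × ℕ} (h : oddOK m e = true) :
    TanProp (2 * m + 3) ((e.2.1 : ℝ) / 1000000) ((e.2.2 : ℝ) / 1000000) := by
  obtain ⟨n, s, k⟩ := e
  simp only [oddOK, Bool.and_eq_true, decide_eq_true_eq] at h
  obtain ⟨⟨⟨hn0, hn1⟩, hs⟩, hk⟩ := h
  simp only at hs hk ⊢
  set t : ℚ := (n : ℚ) / 1000 with ht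
  have htpos : 0 < t := by
    rw [ht]
    have : (0 : ℚ) < n := by exact_mod_cast hn0
    positivity
  have ht1 : t ≤ 1 := by
    rw [ht, div_le_one (by norm_num)]
    exact_mod_cast hn1
  have htpos' : (0 : ℝ) < (t : ℝ) := by exact_mod_cast htpos
  have ht1' : (t : ℝ) ≤ 1 := by exact_mod_cast ht1
  have haN : aN (2 * m + 3) = (m : ℝ) := by
    unfold aN; push_cast; ring
  have hN1 : (((2 * m + 3 : ℕ) : ℝ) - 1) = 2 * (m : ℝ) + 2 := by push_cast; ring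
  have hα : alphaN (2 * m + 3) (t : ℝ) =
      (((2 * (m : ℚ) + 2) * t * (2 * qJ m 0) : ℚ) : ℝ) := by
    unfold alphaN
    rw [haN, I0_eq, hN1]
    have := Jr_nat m (t := 0) le_rfl (by norm_num)
    simp only [Rat.cast_zero] at this
    rw [this]
    push_cast
    ring
  have hβ : betaN (2 * m + 3) (t : ℝ) =
      (((2 * (m : ℚ) + 2) * ((1 - t ^ 2) ^ (m + 1) / (2 * ((m : ℚ) + 1)) - t * qJ m t) : ℚ) : ℝ) := by
    unfold betaN
    have hm : (0 : ℝ) ≤ m := Nat.cast_nonneg m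
    rw [haN, hN1, Kr_eq hm htpos'.le ht1', Jr_nat m htpos.le ht1]
    have e2 : ((1 - (t : ℝ) ^ 2) ^ ((m : ℝ) + 1)) = (1 - (t : ℝ) ^ 2) ^ (m + 1) := by
      rw [← Real.rpow_natCast (1 - (t : ℝ) ^ 2) (m + 1)]
      push_cast
      rfl
    rw [e2]
    push_cast
    ring
  refine tanProp_of_bounds (by omega) htpos' ht1' ?_ ?_
  · rw [hα]
    have : (((s : ℚ) / 1000000 * ((2 * (m : ℚ) + 2) * t * (2 * qJ m 0)) : ℚ) : ℝ) ≤ ((3 / 2 : ℚ) : ℝ) := by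
      exact_mod_cast hs
    push_cast at this ⊢
    linarith
  · rw [hα, hβ]
    have : (((2 * (m : ℚ) + 2) * ((1 - t ^ 2) ^ (m + 1) / (2 * ((m : ℚ) + 1)) - t * qJ m t) : ℚ) : ℝ) ≤
        (((k : ℚ) / 1000000 * ((2 * (m : ℚ) + 2) * t * (2 * qJ m 0)) : ℚ) : ℝ) := by
      exact_mod_cast hk
    push_cast at this ⊢
    linarith

/-- Lower bound of `J(m+1/2,t)` from `l ≤ J(1/2,t)` and `s ≥ √(1-t²)`. -/
def rJ (t s l : ℚ) : ℕ → ℚ
  | 0 => l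
  | m + 1 => ((2 * (m : ℚ) + 3) * rJ t s l m - t * s ^ (2 * m + 3)) / (2 * (m : ℚ) + 4)

/-- `(1-t²)^(m+1/2) ≤ s^(2m+1)`. -/
lemma rpow_half_le {t s : ℝ} (ht0 : 0 ≤ t) (ht1 : t ≤ 1) (hs0 : 0 ≤ s) (hs : 1 - t ^ 2 ≤ s ^ 2)
    (m : ℕ) : (1 - t ^ 2) ^ ((m : ℝ) + 1 / 2) ≤ s ^ (2 * m + 1) := by
  have h0 : 0 ≤ 1 - t ^ 2 := by nlinarith
  have hm : (0 : ℝ) ≤ (m : ℝ) + 1 / 2 := by positivity
  calc (1 - t ^ 2) ^ ((m : ℝ) + 1 / 2) ≤ (s ^ 2) ^ ((m : ℝ) + 1 / 2) :=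
        Real.rpow_le_rpow h0 hs hm
    _ = s ^ (2 * m + 1) := by
      rw [← Real.rpow_natCast s 2, ← Real.rpow_mul hs0, ← Real.rpow_natCast s (2 * m + 1)]
      congr 1
      push_cast
      ring

/-- Induction with `Jr_rec`; note `(1-t²)^(m+1/2) ≤ s^(2m+1)`. -/
theorem rJ_le {t s l : ℚ} (ht0 : 0 ≤ t) (ht1 : t ≤ 1) (hs0 : 0 ≤ s) (hs : 1 - t ^ 2 ≤ s ^ 2)
    (hl : (l : ℝ) ≤ Jr (1 / 2) (t : ℝ)) (m : ℕ) :
    (rJ t s l m : ℝ) ≤ Jr ((m : ℝ) + 1 / 2) (t : ℝ) := by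
  have ht0' : (0 : ℝ) ≤ t := by exact_mod_cast ht0
  have ht1' : (t : ℝ) ≤ 1 := by exact_mod_cast ht1
  have hs0' : (0 : ℝ) ≤ s := by exact_mod_cast hs0
  have hs' : 1 - (t : ℝ) ^ 2 ≤ (s : ℝ) ^ 2 := by exact_mod_cast hs
  induction m with
  | zero =>
    simpa [rJ] using hl
  | succ m ih =>
    have hm : (0 : ℝ) ≤ m := Nat.cast_nonneg m
    have hrec := Jr_rec (a := ((m + 1 : ℕ) : ℝ) + 1 / 2) (t := (t : ℝ))
      (by push_cast; linarith) ht0' ht1'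
    have e1 : ((m + 1 : ℕ) : ℝ) + 1 / 2 - 1 = (m : ℝ) + 1 / 2 := by push_cast; ring
    rw [e1] at hrec
    have hpow := rpow_half_le ht0' ht1' hs0' hs' (m + 1)
    have htp : (t : ℝ) * (1 - (t : ℝ) ^ 2) ^ (((m + 1 : ℕ) : ℝ) + 1 / 2) ≤
        (t : ℝ) * (s : ℝ) ^ (2 * (m + 1) + 1) := mul_le_mul_of_nonneg_left hpow ht0'
    have h4 : (2 * ((m : ℝ)) + 4) ≠ 0 := by positivity
    have h4' : (0 : ℝ) < 2 * ((m : ℝ)) + 4 := by positivity
    have e3 : 2 * (m + 1) + 1 = 2 * m + 3 := by ring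
    rw [e3] at htp
    simp only [rJ]
    push_cast at hrec htp ⊢
    rw [div_le_iff₀ h4']
    have h5 : (2 * (m : ℝ) + 3) * (rJ t s l m : ℝ) ≤ (2 * (m : ℝ) + 3) * Jr ((m : ℝ) + 1 / 2) t :=
      mul_le_mul_of_nonneg_left ih (by positivity)
    nlinarith

/-- The coefficients of `π` in `I0` for `N = 4, 6, 8`: `I0 = cE m * π`. Uses `Jr_rec` at `t = 0`
and `Jr_half_zero`, `I0_eq`. -/
def cE : ℕ → ℚ
  | 0 => 1 / 2
  | m + 1 => cE m * (2 * (m : ℚ) + 3) / (2 * (m : ℚ) + 4)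

lemma cE_pos (m : ℕ) : 0 < cE m := by
  induction m with
  | zero => simp [cE]
  | succ m ih =>
    simp only [cE]
    positivity

theorem I0_even (m : ℕ) :
    ∫ w in (-1 : ℝ)..1, (1 - w ^ 2) ^ ((m : ℝ) + 1 / 2) = (cE m : ℝ) * π := by
  rw [I0_eq]
  induction m with
  | zero =>
    simp only [Nat.cast_zero, zero_add, cE]
    rw [Jr_half_zero]
    push_cast
    ring
  | succ m ih =>
    have hm : (0 : ℝ) ≤ m := Nat.cast_nonneg m
    have hrec := Jr_rec (a := ((m + 1 : ℕ) : ℝ) + 1 / 2) (t := 0)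
      (by push_cast; linarith) le_rfl zero_le_one
    have e1 : ((m + 1 : ℕ) : ℝ) + 1 / 2 - 1 = (m : ℝ) + 1 / 2 := by push_cast; ring
    rw [e1] at hrec
    have h4 : (2 * ((m : ℝ)) + 4) ≠ 0 := by positivity
    simp only [cE]
    push_cast at hrec ih ⊢
    simp only [zero_mul, sub_zero] at hrec
    have h5 : (2 * (m : ℝ) + 4) * Jr ((m : ℝ) + 1 + 1 / 2) 0 =
      (2 * (m : ℝ) + 3) * Jr ((m : ℝ) + 1 / 2) 0 := by linarith
    rw [div_mul_eq_mul_div, eq_div_iff h4]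
    have h6 : (cE m : ℝ) * π = 2 * Jr ((m : ℝ) + 1 / 2) 0 := ih.symm
    calc 2 * Jr ((m : ℝ) + 1 + 1 / 2) 0 * (2 * (m : ℝ) + 4)
        = 2 * ((2 * (m : ℝ) + 4) * Jr ((m : ℝ) + 1 + 1 / 2) 0) := by ring
      _ = (2 * (m : ℝ) + 3) * (2 * Jr ((m : ℝ) + 1 / 2) 0) := by rw [h5]; ring
      _ = (cE m : ℝ) * (2 * (m : ℝ) + 3) * π := by rw [← h6]; ring

/-- Validity of one tangent in even dimension `N = 2m+4`, `t = n/1000 < 1`, given rational `l`, `s`;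
`l` and `s` are checked by the caller through `hl`, `hs` in `tanProp_even`. -/
def evenOK (m : ℕ) (t s l : ℚ) (σ κ : ℕ) : Bool :=
  let sg : ℚ := (σ : ℚ) / 1000000
  let k : ℚ := (κ : ℚ) / 1000000
  let c : ℚ := (2 * (m : ℚ) + 3) * t * cE m
  let b : ℚ := (2 * (m : ℚ) + 3) * (s ^ (2 * m + 3) / (2 * (m : ℚ) + 3) - t * rJ t s l m)
  decide (0 < t) && decide (t ≤ 1) && decide (0 ≤ s) && decide (1 - t ^ 2 ≤ s ^ 2) &&
    decide (sg * (c * (31416 / 10000)) ≤ 3 / 2) && decide (b ≤ k * (c * (31415 / 10000)))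

/-- Soundness for even dimension. `N-1 = 2m+3`, `a = m + 1/2`. -/
theorem tanProp_even {m : ℕ} {t s l : ℚ} {σ κ : ℕ} (h : evenOK m t s l σ κ = true)
    (hl : (l : ℝ) ≤ Jr (1 / 2) (t : ℝ)) :
    TanProp (2 * m + 4) ((σ : ℝ) / 1000000) ((κ : ℝ) / 1000000) := by
  simp only [evenOK, Bool.and_eq_true, decide_eq_true_eq] at h
  obtain ⟨⟨⟨⟨⟨ht0, ht1⟩, hs0⟩, hs⟩, hsg⟩, hk⟩ := h
  have ht0' : (0 : ℝ) < t := by exact_mod_cast ht0
  have ht1' : (t : ℝ) ≤ 1 := by exact_mod_cast ht1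
  have hs0' : (0 : ℝ) ≤ s := by exact_mod_cast hs0
  have hs' : 1 - (t : ℝ) ^ 2 ≤ (s : ℝ) ^ 2 := by exact_mod_cast hs
  have hm : (0 : ℝ) ≤ m := Nat.cast_nonneg m
  have hc := cE_pos m
  have hc' : (0 : ℝ) < cE m := by exact_mod_cast hc
  have haN : aN (2 * m + 4) = (m : ℝ) + 1 / 2 := by
    unfold aN; push_cast; ring
  have hN1 : (((2 * m + 4 : ℕ) : ℝ) - 1) = 2 * (m : ℝ) + 3 := by push_cast; ring
  have hα : alphaN (2 * m + 4) (t : ℝ) = (2 * (m : ℝ) + 3) * t * (cE m : ℝ) * π := by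
    unfold alphaN
    rw [haN, I0_even, hN1]
    ring
  have hβ : betaN (2 * m + 4) (t : ℝ) ≤
      (2 * (m : ℝ) + 3) * ((s : ℝ) ^ (2 * m + 3) / (2 * (m : ℝ) + 3) - t * (rJ t s l m : ℝ)) := by
    unfold betaN
    rw [haN, hN1, Kr_eq (by positivity) ht0'.le ht1']
    have hpow := rpow_half_le ht0'.le ht1' hs0' hs' (m + 1)
    have e3 : 2 * (m + 1) + 1 = 2 * m + 3 := by ring
    rw [e3] at hpow
    have e4 : (((m + 1 : ℕ) : ℝ) + 1 / 2) = (m : ℝ) + 1 / 2 + 1 := by push_cast; ring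
    rw [e4] at hpow
    have hJ := rJ_le ht0.le ht1 hs0 hs hl m
    have e5 : 2 * ((m : ℝ) + 1 / 2 + 1) = 2 * (m : ℝ) + 3 := by ring
    rw [e5]
    have h3 : (0 : ℝ) < 2 * (m : ℝ) + 3 := by positivity
    apply mul_le_mul_of_nonneg_left _ h3.le
    have h6 : (1 - (t : ℝ) ^ 2) ^ ((m : ℝ) + 1 / 2 + 1) / (2 * (m : ℝ) + 3) ≤
        (s : ℝ) ^ (2 * m + 3) / (2 * (m : ℝ) + 3) := div_le_div_of_nonneg_right hpow h3.le
    have h7 : (t : ℝ) * (rJ t s l m : ℝ) ≤ t * Jr ((m : ℝ) + 1 / 2) t :=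
      mul_le_mul_of_nonneg_left hJ ht0'.le
    linarith
  have hcR : (0 : ℝ) < (2 * (m : ℝ) + 3) * t * (cE m : ℝ) := by positivity
  refine tanProp_of_bounds (by omega) ht0' ht1' ?_ ?_
  · rw [hα]
    have h1 : (((σ : ℚ) / 1000000 * ((2 * (m : ℚ) + 3) * t * cE m * (31416 / 10000)) : ℚ) : ℝ) ≤
        ((3 / 2 : ℚ) : ℝ) := by
      have : (σ : ℚ) / 1000000 * ((2 * (m : ℚ) + 3) * t * cE m * (31416 / 10000)) ≤ 3 / 2 := hsg
      exact_mod_cast this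
    push_cast at h1
    have hπ : π ≤ 31416 / 10000 := by
      have := Real.pi_lt_d4
      norm_num at this ⊢
      linarith
    have hσ : (0 : ℝ) ≤ (σ : ℝ) / 1000000 := by positivity
    calc (σ : ℝ) / 1000000 * ((2 * (m : ℝ) + 3) * t * (cE m : ℝ) * π)
        ≤ (σ : ℝ) / 1000000 * ((2 * (m : ℝ) + 3) * t * (cE m : ℝ) * (31416 / 10000)) := by gcongr
      _ ≤ 3 / 2 := by linarith
  · rw [hα]
    refine hβ.trans ?_
    have h1 : (((2 * (m : ℚ) + 3) * (s ^ (2 * m + 3) / (2 * (m : ℚ) + 3) - t * rJ t s l m) : ℚ) : ℝ) ≤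
        (((κ : ℚ) / 1000000 * ((2 * (m : ℚ) + 3) * t * cE m * (31415 / 10000)) : ℚ) : ℝ) := by
      have : (2 * (m : ℚ) + 3) * (s ^ (2 * m + 3) / (2 * (m : ℚ) + 3) - t * rJ t s l m) ≤
          (κ : ℚ) / 1000000 * ((2 * (m : ℚ) + 3) * t * cE m * (31415 / 10000)) := hk
      exact_mod_cast this
    push_cast at h1
    have hπ : 31415 / 10000 ≤ π := by
      have := Real.pi_gt_d4
      norm_num at this ⊢
      linarith
    have hκ : (0 : ℝ) ≤ (κ : ℝ) / 1000000 := by positivity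
    refine h1.trans ?_
    calc (κ : ℝ) / 1000000 * ((2 * (m : ℝ) + 3) * t * (cE m : ℝ) * (31415 / 10000))
        ≤ (κ : ℝ) / 1000000 * ((2 * (m : ℝ) + 3) * t * (cE m : ℝ) * π) := by gcongr

/-- At `t = 1` in even dimension `κ = 0` is allowed (`K(a,1) = 0`). -/
theorem tanProp_even_one {m : ℕ} {σ : ℕ}
    (h : (σ : ℚ) / 1000000 * ((2 * (m : ℚ) + 3) * cE m * (31416 / 10000)) ≤ 3 / 2) :
    TanProp (2 * m + 4) ((σ : ℝ) / 1000000) 0 := by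
  have hm : (0 : ℝ) ≤ m := Nat.cast_nonneg m
  have hc' : (0 : ℝ) < cE m := by exact_mod_cast cE_pos m
  have haN : aN (2 * m + 4) = (m : ℝ) + 1 / 2 := by
    unfold aN; push_cast; ring
  have hN1 : (((2 * m + 4 : ℕ) : ℝ) - 1) = 2 * (m : ℝ) + 3 := by push_cast; ring
  refine tanProp_of_bounds (by omega) one_pos le_rfl ?_ ?_
  · have hα : alphaN (2 * m + 4) 1 = (2 * (m : ℝ) + 3) * (cE m : ℝ) * π := by
      unfold alphaN
      rw [haN, I0_even, hN1]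
      ring
    rw [hα]
    have h1 : (((σ : ℚ) / 1000000 * ((2 * (m : ℚ) + 3) * cE m * (31416 / 10000)) : ℚ) : ℝ) ≤
        ((3 / 2 : ℚ) : ℝ) := by
      exact_mod_cast h
    push_cast at h1
    have hπ : π ≤ 31416 / 10000 := by
      have := Real.pi_lt_d4
      norm_num at this ⊢
      linarith
    have hσ : (0 : ℝ) ≤ (σ : ℝ) / 1000000 := by positivity
    calc (σ : ℝ) / 1000000 * ((2 * (m : ℝ) + 3) * (cE m : ℝ) * π)
        ≤ (σ : ℝ) / 1000000 * ((2 * (m : ℝ) + 3) * (cE m : ℝ) * (31416 / 10000)) := by gcongr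
      _ ≤ 3 / 2 := by linarith
  · unfold betaN Kr
    simp

end Vale.Agent.Lib.P226
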