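import Mathlib
import Vale.Agent.Lib.P226.G10Tan

/-!
Module M11 of the propeller proof: the cap bound in dimension 3, and the exclusion of the
balanced configuration for four cells.
-/

open MeasureTheory ProbabilityTheory Real Set Filter Topology
open scoped ENNReal NNReal RealInnerProductSpace

namespace Vale.Agent.Lib.P226

/-- the case of small measure -/
theorem cone_three_aux {A : Set (EN 3)} {u : EN 3} (hA : MeasurableSet A)
    (hc : ∀ (c : ℝ) (x : EN 3), 0 < c → (c • x ∈ A ↔ x ∈ A)) (hu : ‖u‖ = 1)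
    (hμ : (stdGaussian (EN 3)).real A ≤ 1 / 2) :
    ∫ x in A, ⟪u, x⟫ ∂(stdGaussian (EN 3)) ≤
      4 * phi0 * ((stdGaussian (EN 3)).real A * (1 - (stdGaussian (EN 3)).real A)) := by
  set μ := (stdGaussian (EN 3)).real A with hμdef
  have hμ0 : 0 ≤ μ := measureReal_nonneg
  have hN : 3 ≤ Module.finrank ℝ (EN 3) := by simp
  have hN' : ((Module.finrank ℝ (EN 3) : ℕ) : ℝ) = 3 := by simp
  set t : ℝ := 1 - 2 * μ with ht
  have ht0 : 0 ≤ t := by rw [ht]; linarith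
  have ht1 : t ≤ 1 := by rw [ht]; linarith
  have h1 := cone_cap_bound hA hc u (t := t)
  rw [integral_norm_eq hN, integral_cap_eq hN hu ht0 ht1, hN'] at h1
  have e0 : ((3 : ℝ) - 3) / 2 = 0 := by norm_num
  simp only [e0, Real.rpow_zero, mul_one] at h1
  have e1 : ∫ w in (-1 : ℝ)..1, (1 : ℝ) = 2 := by
    simp
    norm_num
  have e2 : ∫ w in t..1, (w - t) = (1 - t) ^ 2 / 2 := by
    have : ∫ w in t..1, (w - t) = ∫ w in t..1, (w - t) := rfl
    rw [intervalIntegral.integral_sub (by simp) (by simp)]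
    simp
    ring
  rw [e1, e2] at h1
  refine le_trans h1 (le_of_eq ?_)
  rw [ht]
  ring

/-- In dimension 3: for a cone `A` of measure `μ`, `∫_A ⟨u,x⟩ ≤ 4 φ0 μ (1-μ)`.
Proof: for `μ ≤ 1/2` apply `cone_cap_bound` with `t = 1 - 2 μ`;
`E|x| = 4 φ0` and `E(⟨u,x⟩ - t|x|)_+ = φ0 (1-t)^2` by `integral_norm_eq`, `integral_cap_eq`
(`N = 3`, exponent `0`), so the bound is `φ0 (4 t μ + (1-t)^2) = 4 φ0 μ (1-μ)`.
For `μ > 1/2` apply the first case to the complement of `A` and `-u`, using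
`∫ ⟨u,x⟩ = 0` over the whole space. -/
theorem cone_three {A : Set (EN 3)} {u : EN 3} (hA : MeasurableSet A)
    (hc : ∀ (c : ℝ) (x : EN 3), 0 < c → (c • x ∈ A ↔ x ∈ A)) (hu : ‖u‖ = 1) :
    ∫ x in A, ⟪u, x⟫ ∂(stdGaussian (EN 3)) ≤
      4 * phi0 * ((stdGaussian (EN 3)).real A * (1 - (stdGaussian (EN 3)).real A)) := by
  rcases le_total ((stdGaussian (EN 3)).real A) (1 / 2) with hμ | hμ
  · exact cone_three_aux hA hc hu hμ
  · have hAc : MeasurableSet Aᶜ := hA.compl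
    have hcc : ∀ (c : ℝ) (x : EN 3), 0 < c → (c • x ∈ Aᶜ ↔ x ∈ Aᶜ) := by
      intro c x h
      simp only [mem_compl_iff, hc c x h]
    have hu' : ‖-u‖ = 1 := by rw [norm_neg, hu]
    have hm : (stdGaussian (EN 3)).real Aᶜ = 1 - (stdGaussian (EN 3)).real A :=
      probReal_compl_eq_one_sub hA
    have h1 := cone_three_aux hAc hcc hu' (by rw [hm]; linarith)
    have hi : Integrable (fun x : EN 3 => ⟪u, x⟫) (stdGaussian (EN 3)) := integrable_inner_gauss u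
    have h0 : ∫ x, ⟪u, x⟫ ∂(stdGaussian (EN 3)) = 0 := by
      rw [integral_inner (integrable_id_gauss (E := EN 3))]
      have : ∫ x : EN 3, x ∂(stdGaussian (EN 3)) = 0 := integral_id_stdGaussian
      rw [this, inner_zero_right]
    have hsplit := integral_add_compl hA hi
    have h2 : ∫ x in Aᶜ, ⟪-u, x⟫ ∂(stdGaussian (EN 3)) = - ∫ x in Aᶜ, ⟪u, x⟫ ∂(stdGaussian (EN 3)) := by
      simp only [inner_neg_left]
      exact integral_neg _
    rw [h2, hm] at h1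
    have h3 : ∫ x in A, ⟪u, x⟫ ∂(stdGaussian (EN 3)) = - ∫ x in Aᶜ, ⟪u, x⟫ ∂(stdGaussian (EN 3)) := by
      linarith
    rw [h3]
    refine le_trans h1 (le_of_eq ?_)
    ring

/-- Pure real lemma for four cells: with `ρ_i`, `μ_i ≥ 0`, `Σ ρ² = 1`, `Σ μ = 1` and
`3/2 ρ_i < 4 μ_i (1-μ_i)` (strict, all `ρ_i > 0`), some `ρ_i` is at most `317/1000`.
Proof: if all `ρ_i > 317/1000` then all `μ_i ≥ 1377/10000` (because `4 μ(1-μ)` is small below,
and also `μ_i ≤ 1`), and the tangent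
`μ²(1-μ)² ≤ 9/256 + (3/16)(μ - 1/4)` on `[0.1377, 1]`
[difference factorises as `(μ-1/4)² (μ² - (3/2) μ + 3/16)`] sums to `Σ μ²(1-μ)² ≤ 9/64`, while the
hypothesis gives `1 = Σ ρ² < (64/9) Σ μ²(1-μ)²`. -/
theorem four_balanced {ρ μ : Fin 4 → ℝ} (hρ : ∀ i, 0 < ρ i) (hμ : ∀ i, 0 ≤ μ i)
    (hρ1 : ∑ i, ρ i ^ 2 = 1) (hμ1 : ∑ i, μ i = 1)
    (h : ∀ i, 3 / 2 * ρ i < 4 * (μ i * (1 - μ i))) :
    ∃ i, ρ i ≤ 317 / 1000 := by
  by_contra hcon
  push Not at hcon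
  have key : ∀ i, ρ i ^ 2 ≤ 64 / 9 * (9 / 256 + 3 / 16 * (μ i - 1 / 4)) := by
    intro i
    have h1 := h i
    have h2 := hcon i
    have h3 := hμ i
    have hle1 : μ i ≤ 1 := by
      have : μ i ≤ ∑ j, μ j := Finset.single_le_sum (fun j _ => hμ j) (Finset.mem_univ i)
      linarith
    have hlow : 1377 / 10000 ≤ μ i := by
      by_contra hlt
      push Not at hlt
      nlinarith
    have hρ2 : ρ i < 8 / 3 * (μ i * (1 - μ i)) := by linarith
    have hsq : ρ i ^ 2 ≤ (8 / 3 * (μ i * (1 - μ i))) ^ 2 := by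
      have := hρ i
      exact pow_le_pow_left₀ this.le hρ2.le 2
    have hquad : (μ i) ^ 2 - 3 / 2 * μ i + 3 / 16 ≤ 0 := by nlinarith
    have htan : (μ i * (1 - μ i)) ^ 2 ≤ 9 / 256 + 3 / 16 * (μ i - 1 / 4) := by
      have e : (μ i * (1 - μ i)) ^ 2 - (9 / 256 + 3 / 16 * (μ i - 1 / 4))
          = (μ i - 1 / 4) ^ 2 * ((μ i) ^ 2 - 3 / 2 * μ i + 3 / 16) := by ring
      have : (μ i - 1 / 4) ^ 2 * ((μ i) ^ 2 - 3 / 2 * μ i + 3 / 16) ≤ 0 :=
        mul_nonpos_of_nonneg_of_nonpos (sq_nonneg _) hquad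
      linarith
    nlinarith
  have hstrict : ρ 0 ^ 2 < 64 / 9 * (9 / 256 + 3 / 16 * (μ 0 - 1 / 4)) := by
    have h1 := h 0
    have h2 := hcon 0
    have h3 := hμ 0
    have hle1 : μ 0 ≤ 1 := by
      have : μ 0 ≤ ∑ j, μ j := Finset.single_le_sum (fun j _ => hμ j) (Finset.mem_univ 0)
      linarith
    have hlow : 1377 / 10000 ≤ μ 0 := by
      by_contra hlt
      push Not at hlt
      nlinarith
    have hρ2 : ρ 0 < 8 / 3 * (μ 0 * (1 - μ 0)) := by linarith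
    have hsq : ρ 0 ^ 2 < (8 / 3 * (μ 0 * (1 - μ 0))) ^ 2 :=
      pow_lt_pow_left₀ hρ2 (hρ 0).le (by norm_num)
    have hquad : (μ 0) ^ 2 - 3 / 2 * μ 0 + 3 / 16 ≤ 0 := by nlinarith
    have htan : (μ 0 * (1 - μ 0)) ^ 2 ≤ 9 / 256 + 3 / 16 * (μ 0 - 1 / 4) := by
      have e : (μ 0 * (1 - μ 0)) ^ 2 - (9 / 256 + 3 / 16 * (μ 0 - 1 / 4))
          = (μ 0 - 1 / 4) ^ 2 * ((μ 0) ^ 2 - 3 / 2 * μ 0 + 3 / 16) := by ring
      have : (μ 0 - 1 / 4) ^ 2 * ((μ 0) ^ 2 - 3 / 2 * μ 0 + 3 / 16) ≤ 0 :=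
        mul_nonpos_of_nonneg_of_nonpos (sq_nonneg _) hquad
      linarith
    nlinarith
  simp only [Fin.sum_univ_four] at hρ1 hμ1
  have k1 := key 1
  have k2 := key 2
  have k3 := key 3
  nlinarith

end Vale.Agent.Lib.P226
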