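import Mathlib

/-!
Finite checker for the profile lemma. All numbers are natural numbers in fixed scales:
norms `n / 16384`, tangent coefficients `s / 10^6`, multipliers `lam / 100`, auxiliary roots `p / 10^4`,
the value scale `U = 1 / (10^6 * 100 * 16384^2)`.
-/

namespace Vale.Agent.Lib.P226

/-- Positive part of the value of `s x - k - lam x^2` at `x = n / 16384`, in units `U`. -/
def pcPos (s n : ℕ) : ℕ := s * n * 100 * 16384

/-- Negative part of the value of `s x - k - lam x^2` at `x = n / 16384`, in units `U`. -/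
def pcNeg (k lam n : ℕ) : ℕ := k * 100 * 268435456 + lam * 1000000 * (n * n)

/-- The test `g(n) >= e` in units `U`. -/
def pcGE (s k lam e n : ℕ) : Bool := Nat.ble (pcNeg k lam n + e) (pcPos s n)

/-- A chain item. -/
structure PcItem where
  tau : ℕ
  row : ℕ
  mbar : ℕ
  p : ℕ
  q : ℕ
  r : ℕ
  ltan : ℕ
  eit : ℕ

/-- A chain entry. -/
structure PcEnt where
  lam : ℕ
  cbar : ℕ
  bbar : ℕ
  a1 : ℕ
  a2 : ℕ
  e : ℕ
  items : List PcItem

/-- Class data. -/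
structure PcClass where
  tan : List (ℕ × ℕ)
  pcs : List (ℕ × ℕ × ℕ)
  x0 : ℕ
  lam0 : ℕ
  K0 : ℕ
  lamtab : List (ℕ × ℕ)
  ents : List (List (List PcEnt))

/-- Lower bound on a list of pieces `(y, σ, κ)`, starting at `x`. -/
def pcPieces (lam e u v : ℕ) : List (ℕ × ℕ × ℕ) → ℕ → Bool
  | [], x => Nat.ble v x
  | (y, s, k) :: ps, x =>
    Nat.ble v x ||
    ((let lo := cond (Nat.ble x u) u x
      let hi := cond (Nat.ble y v) y v
      Nat.blt hi lo || (pcGE s k lam e lo && pcGE s k lam e hi)) &&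
      pcPieces lam e u v ps y)

/-- Lower bound of `mu - lam rho^2` for `rho` in `[u, v]`. -/
def pcRange (c : PcClass) (lam e u v : ℕ) : Bool :=
  (Nat.blt c.x0 u || (Nat.beq e 0 && Nat.ble lam c.lam0)) && pcPieces lam e u v c.pcs c.x0

/-- The numerical test behind one deletion. Norm bound `t/16384`, mass bound `M/16384^2`,
roots `p,q,r` over `10^4`, lower bounds `a1,a2` over `16384`. -/
def pcCrit (j t M p q r a1 a2 : ℕ) : Bool :=
  -- p^2 >= m, q^3 >= t m, r^6 >= t^4 m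
  Nat.ble (M * 100000000) (p * p * 268435456) &&
  Nat.ble (t * M * 1000000000000) (q * q * q * 4398046511104) &&
  Nat.ble (t * t * t * t * M * 1000000000000000000000000) (r * r * r * r * r * r * 19342813113834066795298816) &&
  Nat.blt M (a2 * a2) &&
  let Y := 32 * 16384 * p + 24 * j * 16384 * q + 36 * j * 16384 * r + 27 * j * j * 10000 * t
  -- 4 Y^2 G^4 100^2 <= 1413^2 3 a1^2 (a2^2 - M) R^2, R = 32 * 10^4 * G
  -- cancelling G^2: 4 Y^2 G^2 10^4 <= 1413^2 * 3 * a1^2 * (a2^2-M) * (32*10^4)^2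
  Nat.ble (4 * (Y * Y) * 268435456 * 10000)
    (1996569 * 3 * (a1 * a1) * (a2 * a2 - M) * 102400000000)

/-- Validity of the chain items; `hi`, `ep` are the previous threshold and gain. -/
def pcItems (c : PcClass) (lam cbar a1 a2 : ℕ) : List PcItem → ℕ → ℕ → ℕ → ℕ → Bool
  | [], _, _, _, _ => true
  | it :: its, j, b, hi, ep =>
    let t := c.tan.getD it.ltan (0, 0)
    let w := c.lamtab.getD it.row (0, 0)
    -- mass bound: Lam' rho^2 <= mu on [0, w.1], m <= b / Lam'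
    Nat.ble it.tau w.1 && Nat.blt 0 w.2 &&
    Nat.ble (b * 1638400) (w.2 * it.mbar * 1000000) &&
    pcCrit j it.tau it.mbar it.p it.q it.r a1 a2 &&
    (Nat.ble cbar it.tau ||
      (Nat.ble it.eit ep && (Nat.ble hi it.tau || pcRange c lam it.eit it.tau hi))) &&
    pcItems c lam cbar a1 a2 its (j + 1) (b + t.2 * 16384 - t.1 * it.tau) it.tau it.eit

/-- The sum of the gains. -/
def pcSumE (its : List PcItem) : ℕ := its.foldr (fun it acc => it.eit + acc) 0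

/-- Validity of a chain entry. -/
def PcEnt.valid (c : PcClass) (ent : PcEnt) : Bool :=
  pcRange c ent.lam 0 0 ent.cbar &&
  pcItems c ent.lam ent.cbar ent.a1 ent.a2 ent.items 5 ent.bbar ent.cbar 1000000000000000000000000000000 &&
  Nat.ble ent.e (pcSumE ent.items) &&
  Nat.ble (5 + ent.items.length) (max c.K0 5)

/-- Validity of the table of quadratic lower bounds. -/
def PcClass.validTab (c : PcClass) : Bool := c.lamtab.all (fun w => pcRange c w.2 0 0 w.1)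

/-- Validity of the class. -/
def PcClass.valid (c : PcClass) : Bool :=
  c.validTab && c.ents.all (fun E => E.all (fun F => F.all (PcEnt.valid c)))

/-- Certificate trees. -/
inductive PcT : Type
  | n0 (l r : PcT)
  | n1 (l r : PcT)
  | n2 (l r : PcT)
  | n3 (l r : PcT)
  | n4 (l r : PcT)
  | inf
  | del (j p q r : ℕ)
  | bud (lam l0 l1 l2 l3 l4 e : ℕ)

/-- Default entry. -/
def pcEnt0 : PcEnt := ⟨0, 0, 0, 0, 0, 0, []⟩

/-- Entry number `e`. -/
def PcClass.get (c : PcClass) (e : ℕ) : PcEnt :=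
  ((c.ents.getD (e / 256) []).getD (e / 16 % 16) []).getD (e % 16) pcEnt0

/-- The value of one coordinate: the smaller of the two endpoint values, as `(pos, neg)`. -/
def pcV (t : ℕ × ℕ) (lam a c : ℕ) : ℕ × ℕ :=
  let pa := pcPos t.1 a
  let na := pcNeg t.2 lam a
  let pc := pcPos t.1 c
  let nc := pcNeg t.2 lam c
  if Nat.ble (pa + nc) (pc + na) then (pa, na) else (pc, nc)

/-- The check of a leaf of type `bud`. -/
def pcBud (c : PcClass) (lam l0 l1 l2 l3 l4 e a0 c0 a1 c1 a2 c2 a3 c3 a4 c4 : ℕ) : Bool :=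
  let t0 := c.tan.getD l0 (0, 0)
  let t1 := c.tan.getD l1 (0, 0)
  let t2 := c.tan.getD l2 (0, 0)
  let t3 := c.tan.getD l3 (0, 0)
  let t4 := c.tan.getD l4 (0, 0)
  let ent := c.get e
  let v0 := pcV t0 lam a0 c0
  let v1 := pcV t1 lam a1 c1
  let v2 := pcV t2 lam a2 c2
  let v3 := pcV t3 lam a3 c3
  let v4 := pcV t4 lam a4 c4
  Nat.beq ent.lam lam &&
  (Nat.ble c4 ent.cbar ||
    Nat.ble (268435456 - (a0 * a0 + a1 * a1 + a2 * a2 + a3 * a3 + a4 * a4)) (ent.cbar * ent.cbar)) &&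
  Nat.ble ent.a1 a1 && Nat.ble ent.a2 a2 &&
  -- remaining budget
  Nat.ble (1000000 * 16384 + (t0.2 + t1.2 + t2.2 + t3.2 + t4.2) * 16384)
    (t0.1 * a0 + t1.1 * a1 + t2.1 * a2 + t3.1 * a3 + t4.1 * a4 + ent.bbar) &&
  -- final inequality
  Nat.blt (100 * 1000000 * 268435456 + v0.2 + v1.2 + v2.2 + v3.2 + v4.2)
    (lam * 1000000 * 268435456 + v0.1 + v1.1 + v2.1 + v3.1 + v4.1 + ent.e)

/-- The check of a leaf of type `del`. -/
def pcDel (c : PcClass) (j p q r a0 a1 a2 c3 a3 c4 : ℕ) : Bool :=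
  Nat.blt j c.K0 &&
  (if Nat.ble j 3 then
    Nat.ble 3 j && pcCrit 3 c3 (268435456 - (a0 * a0 + a1 * a1 + a2 * a2)) p q r a1 a2
  else
    Nat.ble j 4 && pcCrit 4 c4 (268435456 - (a0 * a0 + a1 * a1 + a2 * a2 + a3 * a3)) p q r a1 a2)

/-- The check of the whole certificate tree on a box. -/
def PcT.check (c : PcClass) : PcT → (a0 c0 a1 c1 a2 c2 a3 c3 a4 c4 : ℕ) → Bool
  | .n0 l r, a0, c0, a1, c1, a2, c2, a3, c3, a4, c4 =>
    let m := (a0 + c0) / 2
    l.check c a0 m a1 c1 a2 c2 a3 c3 a4 c4 && r.check c m c0 a1 c1 a2 c2 a3 c3 a4 c4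
  | .n1 l r, a0, c0, a1, c1, a2, c2, a3, c3, a4, c4 =>
    let m := (a1 + c1) / 2
    l.check c a0 c0 a1 m a2 c2 a3 c3 a4 c4 && r.check c a0 c0 m c1 a2 c2 a3 c3 a4 c4
  | .n2 l r, a0, c0, a1, c1, a2, c2, a3, c3, a4, c4 =>
    let m := (a2 + c2) / 2
    l.check c a0 c0 a1 c1 a2 m a3 c3 a4 c4 && r.check c a0 c0 a1 c1 m c2 a3 c3 a4 c4
  | .n3 l r, a0, c0, a1, c1, a2, c2, a3, c3, a4, c4 =>
    let m := (a3 + c3) / 2
    l.check c a0 c0 a1 c1 a2 c2 a3 m a4 c4 && r.check c a0 c0 a1 c1 a2 c2 m c3 a4 c4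
  | .n4 l r, a0, c0, a1, c1, a2, c2, a3, c3, a4, c4 =>
    let m := (a4 + c4) / 2
    l.check c a0 c0 a1 c1 a2 c2 a3 c3 a4 m && r.check c a0 c0 a1 c1 a2 c2 a3 c3 m c4
  | .inf, a0, c0, a1, c1, a2, c2, a3, c3, a4, _ =>
    Nat.blt c0 a1 || Nat.blt c1 a2 || Nat.blt c2 a3 || Nat.blt c3 a4 ||
    Nat.blt 268435456 (a0 * a0 + a1 * a1 + a2 * a2 + a3 * a3 + a4 * a4)
  | .del j p q r, a0, _, a1, _, a2, _, a3, c3, _, c4 =>
    pcDel c j p q r a0 a1 a2 c3 a3 c4
  | .bud lam l0 l1 l2 l3 l4 e, a0, c0, a1, c1, a2, c2, a3, c3, a4, c4 =>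
    pcBud c lam l0 l1 l2 l3 l4 e a0 c0 a1 c1 a2 c2 a3 c3 a4 c4

theorem PcClass.valid_of {c : PcClass} (h0 : c.validTab = true)
    (h : ∀ E ∈ c.ents, E.all (fun F => F.all (PcEnt.valid c)) = true) : c.valid = true := by
  unfold PcClass.valid
  rw [h0, Bool.true_and]
  exact List.all_eq_true.mpr h

theorem PcT.check_n0_of {c : PcClass} {l r : PcT} {a0 c0 a1 c1 a2 c2 a3 c3 a4 c4 m : ℕ}
    (hm : (a0 + c0) / 2 = m) (hl : l.check c a0 m a1 c1 a2 c2 a3 c3 a4 c4 = true)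
    (hr : r.check c m c0 a1 c1 a2 c2 a3 c3 a4 c4 = true) :
    (PcT.n0 l r).check c a0 c0 a1 c1 a2 c2 a3 c3 a4 c4 = true := by
  subst hm
  simp only [PcT.check, hl, hr, Bool.and_self]

theorem PcT.check_n1_of {c : PcClass} {l r : PcT} {a0 c0 a1 c1 a2 c2 a3 c3 a4 c4 m : ℕ}
    (hm : (a1 + c1) / 2 = m) (hl : l.check c a0 c0 a1 m a2 c2 a3 c3 a4 c4 = true)
    (hr : r.check c a0 c0 m c1 a2 c2 a3 c3 a4 c4 = true) :
    (PcT.n1 l r).check c a0 c0 a1 c1 a2 c2 a3 c3 a4 c4 = true := by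
  subst hm
  simp only [PcT.check, hl, hr, Bool.and_self]

theorem PcT.check_n2_of {c : PcClass} {l r : PcT} {a0 c0 a1 c1 a2 c2 a3 c3 a4 c4 m : ℕ}
    (hm : (a2 + c2) / 2 = m) (hl : l.check c a0 c0 a1 c1 a2 m a3 c3 a4 c4 = true)
    (hr : r.check c a0 c0 a1 c1 m c2 a3 c3 a4 c4 = true) :
    (PcT.n2 l r).check c a0 c0 a1 c1 a2 c2 a3 c3 a4 c4 = true := by
  subst hm
  simp only [PcT.check, hl, hr, Bool.and_self]

theorem PcT.check_n3_of {c : PcClass} {l r : PcT} {a0 c0 a1 c1 a2 c2 a3 c3 a4 c4 m : ℕ}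
    (hm : (a3 + c3) / 2 = m) (hl : l.check c a0 c0 a1 c1 a2 c2 a3 m a4 c4 = true)
    (hr : r.check c a0 c0 a1 c1 a2 c2 m c3 a4 c4 = true) :
    (PcT.n3 l r).check c a0 c0 a1 c1 a2 c2 a3 c3 a4 c4 = true := by
  subst hm
  simp only [PcT.check, hl, hr, Bool.and_self]

theorem PcT.check_n4_of {c : PcClass} {l r : PcT} {a0 c0 a1 c1 a2 c2 a3 c3 a4 c4 m : ℕ}
    (hm : (a4 + c4) / 2 = m) (hl : l.check c a0 c0 a1 c1 a2 c2 a3 c3 a4 m = true)
    (hr : r.check c a0 c0 a1 c1 a2 c2 a3 c3 m c4 = true) :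
    (PcT.n4 l r).check c a0 c0 a1 c1 a2 c2 a3 c3 a4 c4 = true := by
  subst hm
  simp only [PcT.check, hl, hr, Bool.and_self]

end Vale.Agent.Lib.P226
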