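import Mathlib
import Vale.Agent.Lib.P226.GCheck

open Finset

namespace Vale.Agent.Lib.P226

/-- The tail mass beyond `j`. -/
noncomputable def pcM (k : ℕ) (ρ : ℕ → ℝ) (j : ℕ) : ℝ := ∑ i ∈ Ico j k, ρ i ^ 2

/-- The numerical criterion for deleting everything beyond the first `j` vectors. -/
def PcCrit (k : ℕ) (ρ : ℕ → ℝ) (j : ℕ) : Prop :=
  ∃ Γ : ℝ, 0 < Γ ∧ 4 * Γ ^ 2 ≤ 3 * (ρ 1 ^ 2 * (ρ 2 ^ 2 - pcM k ρ j)) ∧
    ∀ s y : ℝ, 0 ≤ s → s ^ 2 ≤ pcM k ρ j → 0 ≤ y → y ^ 3 = ∑ i ∈ Ico j k, ρ i ^ 3 →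
      (s + 3 / 4 * j * y) ^ 3 ≤ 1413 / 100 * j * Γ * (pcM k ρ j / 2 + s ^ 2 / j)

/-- The real data of a profile. -/
structure PcProf (c : PcClass) (k : ℕ) (ρ μ : ℕ → ℝ) : Prop where
  anti : ∀ i, ρ (i + 1) ≤ ρ i
  nonneg : ∀ i, 0 ≤ ρ i
  supp : ∀ i, k ≤ i → ρ i = 0 ∧ μ i = 0
  pos : ∀ i, i < k → 0 < ρ i
  sum : ∑ i ∈ range k, ρ i ^ 2 = 1
  munn : ∀ i, 0 ≤ μ i
  musum : ∑ i ∈ range k, μ i ≤ 1
  tan : ∀ l i, (((c.tan.getD l (0, 0)).1 : ℕ) : ℝ) / 1000000 * ρ i -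
    (((c.tan.getD l (0, 0)).2 : ℕ) : ℝ) / 1000000 ≤ μ i
  zero : ∀ i, ρ i ≤ (c.x0 : ℝ) / 16384 → (c.lam0 : ℝ) / 100 * ρ i ^ 2 ≤ μ i
  K0le : c.K0 ≤ k
  pcm : ∀ p ∈ c.pcs, (p.2.1, p.2.2) ∈ c.tan

/-- Pure real inequality behind the criterion. -/
lemma crit_real {j : ℕ} (hj : 0 < j) {T Mb P Q R A1 A2 ρ1 ρ2 m y3 t : ℝ}
    (hm : 0 < m) (hmb : m ≤ Mb) (htT : t ≤ T) (ht0 : 0 ≤ t) (hy3 : y3 ≤ t * m) (hP0 : 0 ≤ P)
    (hQ0 : 0 ≤ Q) (hR0 : 0 ≤ R)
    (hP : Mb ≤ P ^ 2) (hQ : T * Mb ≤ Q ^ 3) (hR : T ^ 4 * Mb ≤ R ^ 6)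
    (hA1 : A1 ≤ ρ1) (hA10 : 0 ≤ A1) (hA2 : A2 ≤ ρ2) (hA20 : 0 ≤ A2) (hlt : Mb < A2 ^ 2)
    (hmain : 4 * (P + 3 / 4 * j * Q + 9 / 8 * j * R + 27 / 32 * j ^ 2 * T) ^ 2 ≤
      (1413 / 100) ^ 2 * (3 * (A1 ^ 2 * (A2 ^ 2 - Mb)))) :
    ∃ Γ : ℝ, 0 < Γ ∧ 4 * Γ ^ 2 ≤ 3 * (ρ1 ^ 2 * (ρ2 ^ 2 - m)) ∧
      ∀ s y : ℝ, 0 ≤ s → s ^ 2 ≤ m → 0 ≤ y → y ^ 3 = y3 →
        (s + 3 / 4 * j * y) ^ 3 ≤ 1413 / 100 * j * Γ * (m / 2 + s ^ 2 / j) := by
  have hjR : (0 : ℝ) < j := by exact_mod_cast hj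
  have hT0 : 0 ≤ T := ht0.trans htT
  have hMb : 0 < Mb := hm.trans_le hmb
  have hPpos : 0 < P := by
    rcases hP0.eq_or_lt with h | h
    · rw [← h] at hP; nlinarith
    · exact h
  set Φ := P + 3 / 4 * j * Q + 9 / 8 * j * R + 27 / 32 * j ^ 2 * T with hΦ
  have hΦpos : 0 < Φ := by
    have h1 : 0 ≤ 3 / 4 * (j : ℝ) * Q := by positivity
    have h2 : 0 ≤ 9 / 8 * (j : ℝ) * R := by positivity
    have h3 : 0 ≤ 27 / 32 * (j : ℝ) ^ 2 * T := by positivity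
    rw [hΦ]; linarith
  refine ⟨Φ * (100 / 1413), by positivity, ?_, ?_⟩
  · have h1 : 4 * (Φ * (100 / 1413)) ^ 2 ≤ 3 * (A1 ^ 2 * (A2 ^ 2 - Mb)) := by
      have : 4 * (Φ * (100 / 1413)) ^ 2 = 4 * Φ ^ 2 * (100 / 1413) ^ 2 := by ring
      rw [this]
      have h2 : 4 * Φ ^ 2 * (100 / 1413) ^ 2 ≤
          ((1413 / 100) ^ 2 * (3 * (A1 ^ 2 * (A2 ^ 2 - Mb)))) * (100 / 1413) ^ 2 := by
        gcongr
      refine h2.trans (le_of_eq ?_)
      ring
    refine h1.trans ?_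
    have h2 : A1 ^ 2 ≤ ρ1 ^ 2 := by gcongr
    have h3 : A2 ^ 2 ≤ ρ2 ^ 2 := by gcongr
    have h4 : 0 ≤ A2 ^ 2 - Mb := by linarith
    have h5 : A2 ^ 2 - Mb ≤ ρ2 ^ 2 - m := by linarith
    have h6 : A1 ^ 2 * (A2 ^ 2 - Mb) ≤ ρ1 ^ 2 * (ρ2 ^ 2 - m) :=
      mul_le_mul h2 h5 h4 (sq_nonneg _)
    linarith
  · intro s y hs hsm hy hyy
    set n := √m with hn
    have hnpos : 0 < n := Real.sqrt_pos.mpr hm
    have hn2 : n ^ 2 = m := Real.sq_sqrt hm.le
    have hsn : s ≤ n := by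
      rw [hn]
      exact Real.le_sqrt_of_sq_le hsm
    have hnP : n ≤ P := by
      have : n ^ 2 ≤ P ^ 2 := by rw [hn2]; linarith
      exact (pow_le_pow_iff_left₀ hnpos.le hP0 two_ne_zero).1 this
    have hy3m : y ^ 3 ≤ T * m := by
      rw [hyy]
      refine hy3.trans ?_
      gcongr
    have hyQ : y ≤ Q := by
      have : y ^ 3 ≤ Q ^ 3 := by
        refine hy3m.trans (le_trans ?_ hQ)
        gcongr
      exact (pow_le_pow_iff_left₀ hy hQ0 (by norm_num)).1 this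
    set z := y ^ 2 / n with hz
    have hz0 : 0 ≤ z := by positivity
    have hzR : z ≤ R := by
      have h1 : z ^ 6 ≤ R ^ 6 := by
        have h2 : z ^ 6 * m ^ 3 = (y ^ 3) ^ 4 := by
          have : z * n = y ^ 2 := by rw [hz]; field_simp
          calc z ^ 6 * m ^ 3 = (z * n) ^ 6 := by rw [← hn2]; ring
            _ = (y ^ 2) ^ 6 := by rw [this]
            _ = (y ^ 3) ^ 4 := by ring
        have h3 : (y ^ 3) ^ 4 ≤ (T * m) ^ 4 := by
          have : 0 ≤ y ^ 3 := by positivity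
          gcongr
        have h4 : z ^ 6 * m ^ 3 ≤ (T ^ 4 * Mb) * m ^ 3 := by
          rw [h2]
          refine h3.trans ?_
          have : (T * m) ^ 4 = T ^ 4 * m * m ^ 3 := by ring
          rw [this]
          gcongr
        have h5 : z ^ 6 ≤ T ^ 4 * Mb := le_of_mul_le_mul_right h4 (by positivity)
        exact h5.trans hR
      exact (pow_le_pow_iff_left₀ hz0 hR0 (by norm_num)).1 h1
    have hw : y ^ 3 / m ≤ T := by
      rw [div_le_iff₀ hm]; exact hy3m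
    set c := 3 / 4 * (j : ℝ) * y with hc
    have hc0 : 0 ≤ c := by positivity
    have hcs : 0 ≤ s + c := by positivity
    -- Cauchy Schwarz
    have hCS : (s + c) ^ 2 * m ≤ (s ^ 2 / j + m / 2) * (j * m + 2 * c ^ 2) := by
      have h : (s ^ 2 / j + m / 2) * (j * m + 2 * c ^ 2) - (s + c) ^ 2 * m =
          2 * (s * c - j * m / 2) ^ 2 / j := by
        field_simp
        ring
      have : 0 ≤ 2 * (s * c - j * m / 2) ^ 2 / j := by positivity
      linarith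
    have hbr : 0 ≤ s ^ 2 / j + m / 2 := by positivity
    -- the main bound
    have h8 : (n + c) * (j * m + 2 * c ^ 2) ≤ j * Φ * m := by
      have e1 : (n + c) * (j * m + 2 * c ^ 2) =
          j * m * (n + c + 9 / 8 * j * z + 27 / 32 * j ^ 2 * (y ^ 3 / m)) := by
        have hnn : n * z = y ^ 2 := by rw [hz]; field_simp
        have hmn : m = n ^ 2 := hn2.symm
        rw [hc]
        have hz' : z = y ^ 2 / n := hz
        rw [hz']
        rw [hmn]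
        field_simp
        ring
      rw [e1]
      have h9 : n + c + 9 / 8 * j * z + 27 / 32 * j ^ 2 * (y ^ 3 / m) ≤ Φ := by
        rw [hΦ, hc]
        have a1 : 3 / 4 * (j : ℝ) * y ≤ 3 / 4 * j * Q := by gcongr
        have a2 : 9 / 8 * (j : ℝ) * z ≤ 9 / 8 * j * R := by gcongr
        have a3 : 27 / 32 * (j : ℝ) ^ 2 * (y ^ 3 / m) ≤ 27 / 32 * j ^ 2 * T := by gcongr
        linarith
      calc j * m * (n + c + 9 / 8 * j * z + 27 / 32 * j ^ 2 * (y ^ 3 / m)) ≤ j * m * Φ := by gcongr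
        _ = j * Φ * m := by ring
    have h10 : (s + c) ^ 3 * m ≤ j * Φ * (m / 2 + s ^ 2 / j) * m := by
      calc (s + c) ^ 3 * m = (s + c) * ((s + c) ^ 2 * m) := by ring
        _ ≤ (n + c) * ((s ^ 2 / j + m / 2) * (j * m + 2 * c ^ 2)) := by
            gcongr
        _ = (s ^ 2 / j + m / 2) * ((n + c) * (j * m + 2 * c ^ 2)) := by ring
        _ ≤ (s ^ 2 / j + m / 2) * (j * Φ * m) := by gcongr
        _ = j * Φ * (m / 2 + s ^ 2 / j) * m := by ring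
    have h11 := le_of_mul_le_mul_right h10 hm
    refine h11.trans (le_of_eq ?_)
    field_simp


section Prof

variable {c : PcClass} {k : ℕ} {ρ μ : ℕ → ℝ}

lemma PcProf.anti' (h : PcProf c k ρ μ) {i j : ℕ} (hij : i ≤ j) : ρ j ≤ ρ i :=
  antitone_nat_of_succ_le h.anti hij

lemma PcProf.sum_of_le (h : PcProf c k ρ μ) {n : ℕ} (hn : k ≤ n) :
    ∑ i ∈ range n, ρ i ^ 2 = 1 := by
  rw [← h.sum]
  symm
  apply Finset.sum_subset (range_subset_range.mpr hn)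
  intro i hi hi'
  have : k ≤ i := by
    simpa using hi'
  rw [(h.supp i this).1]
  norm_num

lemma PcProf.musum_of_le (h : PcProf c k ρ μ) {n : ℕ} (hn : k ≤ n) :
    ∑ i ∈ range n, μ i ≤ 1 := by
  refine le_trans (le_of_eq ?_) h.musum
  symm
  apply Finset.sum_subset (range_subset_range.mpr hn)
  intro i hi hi'
  have : k ≤ i := by
    simpa using hi'
  exact (h.supp i this).2

lemma PcProf.pcM_pos (h : PcProf c k ρ μ) {j : ℕ} (hj : j < k) : 0 < pcM k ρ j := by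
  unfold pcM
  apply Finset.sum_pos
  · intro i hi
    have := h.pos i (Finset.mem_Ico.mp hi).2
    positivity
  · exact ⟨j, Finset.mem_Ico.mpr ⟨le_rfl, hj⟩⟩

/-- From the numerical test to the criterion. -/
lemma PcProf.crit_of_check (h : PcProf c k ρ μ) {j t M p q r a1 a2 : ℕ} (hj0 : 0 < j) (hjk : j < k)
    (hcheck : pcCrit j t M p q r a1 a2 = true) (ht : ρ j ≤ (t : ℝ) / 16384)
    (hM : pcM k ρ j ≤ (M : ℝ) / 268435456) (ha1 : (a1 : ℝ) / 16384 ≤ ρ 1)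
    (ha2 : (a2 : ℝ) / 16384 ≤ ρ 2) : PcCrit k ρ j := by
  simp only [pcCrit, Bool.and_eq_true, Nat.ble_eq, Nat.blt_eq] at hcheck
  obtain ⟨⟨⟨⟨h1, h2⟩, h3⟩, h4⟩, h5⟩ := hcheck
  have h1' : (M : ℝ) * 100000000 ≤ p * p * 268435456 := by exact_mod_cast h1
  have h2' : (t : ℝ) * M * 1000000000000 ≤ q * q * q * 4398046511104 := by exact_mod_cast h2
  have h3' : (t : ℝ) * t * t * t * M * 1000000000000000000000000 ≤
      r * r * r * r * r * r * 19342813113834066795298816 := by exact_mod_cast h3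
  have h4' : (M : ℝ) < a2 * a2 := by exact_mod_cast h4
  have hsub : ((a2 * a2 - M : ℕ) : ℝ) = (a2 : ℝ) * a2 - M := by
    rw [Nat.cast_sub h4.le]; push_cast; ring
  have h5' := (Nat.cast_le (α := ℝ)).2 h5
  simp only [Nat.cast_mul, Nat.cast_add, Nat.cast_ofNat, hsub] at h5'
  have hm := h.pcM_pos hjk
  have hy3 : ∑ i ∈ Ico j k, ρ i ^ 3 ≤ ρ j * pcM k ρ j := by
    unfold pcM
    rw [Finset.mul_sum]
    apply Finset.sum_le_sum
    intro i hi
    have h6 : ρ i ≤ ρ j := h.anti' (Finset.mem_Ico.mp hi).1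
    have h7 := h.nonneg i
    have : ρ i ^ 3 = ρ i * ρ i ^ 2 := by ring
    rw [this]
    gcongr
  refine crit_real (T := (t : ℝ) / 16384) (Mb := (M : ℝ) / 268435456) (P := (p : ℝ) / 10000)
    (Q := (q : ℝ) / 10000) (R := (r : ℝ) / 10000) (A1 := (a1 : ℝ) / 16384)
    (A2 := (a2 : ℝ) / 16384) (t := ρ j) hj0 hm hM ht (h.nonneg j) hy3
    (by positivity) (by positivity) (by positivity) ?_ ?_ ?_ ha1 (by positivity) ha2
    (by positivity) ?_ ?_
  · have e : ((p : ℝ) / 10000) ^ 2 = p * p / 100000000 := by ring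
    rw [e, div_le_div_iff₀ (by norm_num) (by norm_num)]
    linarith
  · have e1 : ((q : ℝ) / 10000) ^ 3 = q * q * q / 1000000000000 := by ring
    have e2 : (t : ℝ) / 16384 * (M / 268435456) = t * M / 4398046511104 := by ring
    rw [e1, e2, div_le_div_iff₀ (by norm_num) (by norm_num)]
    linarith
  · have e1 : ((r : ℝ) / 10000) ^ 6 = r * r * r * r * r * r / 1000000000000000000000000 := by ring
    have e2 : ((t : ℝ) / 16384) ^ 4 * (M / 268435456) =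
        t * t * t * t * M / 19342813113834066795298816 := by ring
    rw [e1, e2, div_le_div_iff₀ (by norm_num) (by norm_num)]
    linarith
  · have e : ((a2 : ℝ) / 16384) ^ 2 = a2 * a2 / 268435456 := by ring
    rw [e, div_lt_div_iff₀ (by norm_num) (by norm_num)]
    linarith
  · set Y : ℝ := 32 * 16384 * p + 24 * j * 16384 * q + 36 * j * 16384 * r +
      27 * j * j * 10000 * t with hY
    have e1 : (p : ℝ) / 10000 + 3 / 4 * j * (q / 10000) + 9 / 8 * j * (r / 10000) +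
        27 / 32 * j ^ 2 * (t / 16384) = Y / 5242880000 := by
      rw [hY]; ring
    rw [e1]
    have e2 : ((a2 : ℝ) / 16384) ^ 2 - M / 268435456 = ((a2 : ℝ) * a2 - M) / 268435456 := by ring
    rw [e2]
    set X : ℝ := (a2 : ℝ) * a2 - M with hX
    have e3 : 4 * (Y / 5242880000) ^ 2 = 4 * (Y * Y) / 27487790694400000000 := by ring
    have e4 : (1413 / 100 : ℝ) ^ 2 * (3 * (((a1 : ℝ) / 16384) ^ 2 * (X / 268435456))) =
        1996569 * 3 * (a1 * a1) * X / (10000 * 72057594037927936) := by ring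
    rw [e3, e4, div_le_div_iff₀ (by norm_num) (by norm_num)]
    have h6 := mul_le_mul_of_nonneg_right h5' (by norm_num : (0 : ℝ) ≤ 268435456)
    nlinarith [h6]

/-- Concavity of the parabola. -/
lemma conc_ge {σ κ Λ e A B x : ℝ} (hΛ : 0 ≤ Λ) (hA : A ≤ x) (hB : x ≤ B)
    (h1 : e ≤ σ * A - κ - Λ * A ^ 2) (h2 : e ≤ σ * B - κ - Λ * B ^ 2) :
    e ≤ σ * x - κ - Λ * x ^ 2 := by
  rcases (hA.trans hB).eq_or_lt with h | h
  · have : x = A := le_antisymm (by rw [h]; exact hB) hA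
    rw [this]; exact h1
  · have hpos : 0 < B - A := by linarith
    have key : (B - A) * (σ * x - κ - Λ * x ^ 2 - e) =
        (B - x) * (σ * A - κ - Λ * A ^ 2 - e) + (x - A) * (σ * B - κ - Λ * B ^ 2 - e) +
          Λ * ((x - A) * (B - x) * (B - A)) := by ring
    have h3 : 0 ≤ (B - x) * (σ * A - κ - Λ * A ^ 2 - e) :=
      mul_nonneg (by linarith) (by linarith)
    have h4 : 0 ≤ (x - A) * (σ * B - κ - Λ * B ^ 2 - e) :=
      mul_nonneg (by linarith) (by linarith)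
    have h5 : 0 ≤ Λ * ((x - A) * (B - x) * (B - A)) := by
      apply mul_nonneg hΛ
      apply mul_nonneg (mul_nonneg (by linarith) (by linarith)) hpos.le
    have h6 : 0 ≤ (B - A) * (σ * x - κ - Λ * x ^ 2 - e) := by rw [key]; linarith
    have := nonneg_of_mul_nonneg_right h6 hpos
    linarith

/-- The value scale. -/
noncomputable def pcU : ℝ := 1 / (1000000 * 100 * 268435456)

lemma pcU_pos : 0 < pcU := by unfold pcU; norm_num

/-- Real meaning of `pcPos`, `pcNeg`. -/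
lemma pc_val (s k lam n : ℕ) :
    (s : ℝ) / 1000000 * ((n : ℝ) / 16384) - (k : ℝ) / 1000000 - (lam : ℝ) / 100 * ((n : ℝ) / 16384) ^ 2
      = (((pcPos s n : ℕ) : ℝ) - ((pcNeg k lam n : ℕ) : ℝ)) * pcU := by
  unfold pcPos pcNeg pcU
  push_cast
  ring

lemma pcGE_sound {s k lam e n : ℕ} (h : pcGE s k lam e n = true) :
    (e : ℝ) * pcU ≤ (s : ℝ) / 1000000 * ((n : ℝ) / 16384) - (k : ℝ) / 1000000 -
      (lam : ℝ) / 100 * ((n : ℝ) / 16384) ^ 2 := by
  rw [pc_val]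
  simp only [pcGE, Nat.ble_eq] at h
  have h' : ((pcNeg k lam n : ℕ) : ℝ) + e ≤ ((pcPos s n : ℕ) : ℝ) := by exact_mod_cast h
  apply mul_le_mul_of_nonneg_right _ pcU_pos.le
  linarith

/-- A line of the list. -/
lemma PcProf.line (h : PcProf c k ρ μ) {s κ : ℕ} (hm : (s, κ) ∈ c.tan) (i : ℕ) :
    (s : ℝ) / 1000000 * ρ i - (κ : ℝ) / 1000000 ≤ μ i := by
  obtain ⟨l, hl, he⟩ := List.mem_iff_getElem.mp hm
  have h1 := h.tan l i
  rw [List.getD_eq_getElem _ _ hl, he] at h1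
  exact h1

/-- Soundness of the pieces. -/
lemma pcPieces_sound (h : PcProf c k ρ μ) {lam e u v : ℕ} :
    ∀ (ps : List (ℕ × ℕ × ℕ)) (x : ℕ), (∀ p ∈ ps, (p.2.1, p.2.2) ∈ c.tan) →
      pcPieces lam e u v ps x = true →
      ∀ i, (x : ℝ) / 16384 < ρ i → (u : ℝ) / 16384 ≤ ρ i → ρ i ≤ (v : ℝ) / 16384 →
        (e : ℝ) * pcU ≤ μ i - (lam : ℝ) / 100 * ρ i ^ 2 := by
  intro ps
  induction ps with
  | nil =>
    intro x _ hx i hi hu hv
    simp only [pcPieces, Nat.ble_eq] at hx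
    have hx' : (v : ℝ) ≤ x := by exact_mod_cast hx
    have : (v : ℝ) / 16384 ≤ (x : ℝ) / 16384 := by gcongr
    linarith
  | cons a ps ih =>
    rcases a with ⟨y, s, κ⟩
    intro x hm hx i hi hu hv
    simp only [pcPieces, Bool.and_eq_true, Bool.or_eq_true, Nat.blt_eq, Nat.ble_eq] at hx
    rcases hx with hx | hx
    · exfalso
      have hx' : (v : ℝ) ≤ x := by exact_mod_cast hx
      have : (v : ℝ) / 16384 ≤ (x : ℝ) / 16384 := by gcongr
      linarith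
    obtain ⟨h1, h2⟩ := hx
    by_cases hy : ρ i ≤ (y : ℝ) / 16384
    · -- this piece
      set lo := cond (Nat.ble x u) u x with hlo
      set hi' := cond (Nat.ble y v) y v with hhi
      have hlo' : (lo : ℝ) / 16384 ≤ ρ i := by
        rw [hlo]
        cases Nat.ble x u
        · exact hi.le
        · exact hu
      have hhi' : ρ i ≤ (hi' : ℝ) / 16384 := by
        rw [hhi]
        cases Nat.ble y v
        · exact hv
        · exact hy
      rcases h1 with h1 | ⟨h1, h3⟩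
      · exfalso
        have : (hi' : ℝ) < lo := by exact_mod_cast h1
        have h4 : (hi' : ℝ) / 16384 < (lo : ℝ) / 16384 := by gcongr
        linarith
      · have h5 := pcGE_sound h1
        have h6 := pcGE_sound h3
        have h7 := conc_ge (by positivity) hlo' hhi' h5 h6
        have h8 := h.line (hm (y, s, κ) (by simp)) i
        linarith
    · exact ih y (fun p hp => hm p (by simp [hp])) h2 i (not_le.mp hy) hu hv

/-- Soundness of a range. -/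
lemma pcRange_sound (h : PcProf c k ρ μ) {lam e u v : ℕ} (hr : pcRange c lam e u v = true)
    (i : ℕ) (hu : (u : ℝ) / 16384 ≤ ρ i) (hv : ρ i ≤ (v : ℝ) / 16384) :
    (e : ℝ) * pcU ≤ μ i - (lam : ℝ) / 100 * ρ i ^ 2 := by
  simp only [pcRange, Bool.and_eq_true, Bool.or_eq_true, Nat.blt_eq, Nat.beq_eq, Nat.ble_eq] at hr
  obtain ⟨h1, h2⟩ := hr
  by_cases hx : (c.x0 : ℝ) / 16384 < ρ i
  · exact pcPieces_sound h _ _ h.pcm h2 i hx hu hv
  · have hx' := not_lt.mp hx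
    rcases h1 with h1 | ⟨h1, h3⟩
    · exfalso
      have : (c.x0 : ℝ) < u := by exact_mod_cast h1
      have h4 : (c.x0 : ℝ) / 16384 < (u : ℝ) / 16384 := by gcongr
      linarith
    · rw [h1]
      have h5 := h.zero i hx'
      have h6 : (lam : ℝ) ≤ c.lam0 := by exact_mod_cast h3
      have h7 : (lam : ℝ) / 100 * ρ i ^ 2 ≤ (c.lam0 : ℝ) / 100 * ρ i ^ 2 := by gcongr
      simp only [Nat.cast_zero, zero_mul]
      linarith


end Prof

end Vale.Agent.Lib.P226
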