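import Mathlib
import Vale.Agent.Lib.P226.GSound

open Finset

namespace Vale.Agent.Lib.P226

section Prof

variable {c : PcClass} {k : ℕ} {ρ μ : ℕ → ℝ}

/-- The value of one coordinate, abstract form. -/
lemma pcV_aux {pa na pc nc : ℕ} {A B x U σ κ Λ : ℝ} (hU : 0 < U) (hΛ : 0 ≤ Λ) (hA : A ≤ x) (hB : x ≤ B)
    (h1 : σ * A - κ - Λ * A ^ 2 = ((pa : ℝ) - na) * U) (h2 : σ * B - κ - Λ * B ^ 2 = ((pc : ℝ) - nc) * U) :
    ((((if Nat.ble (pa + nc) (pc + na) = true then (pa, na) else (pc, nc)) : ℕ × ℕ).1 : ℝ) -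
      (((if Nat.ble (pa + nc) (pc + na) = true then (pa, na) else (pc, nc)) : ℕ × ℕ).2 : ℝ)) * U ≤
      σ * x - κ - Λ * x ^ 2 := by
  by_cases hle : Nat.ble (pa + nc) (pc + na) = true
  · rw [if_pos hle]
    simp only [Nat.ble_eq] at hle
    have hle' : (pa : ℝ) + nc ≤ pc + na := by exact_mod_cast hle
    refine conc_ge hΛ hA hB ?_ ?_
    · rw [h1]
    · rw [h2]
      apply mul_le_mul_of_nonneg_right _ hU.le
      linarith
  · rw [if_neg hle]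
    simp only [Nat.ble_eq, not_le] at hle
    have hle' : (pc : ℝ) + na < pa + nc := by exact_mod_cast hle
    refine conc_ge hΛ hA hB ?_ ?_
    · rw [h1]
      apply mul_le_mul_of_nonneg_right _ hU.le
      linarith
    · rw [h2]

/-- The value of one coordinate. -/
lemma pcV_sound {t : ℕ × ℕ} {lam a c' : ℕ} {x : ℝ} (ha : (a : ℝ) / 16384 ≤ x)
    (hc : x ≤ (c' : ℝ) / 16384) :
    (((pcV t lam a c').1 : ℝ) - ((pcV t lam a c').2 : ℝ)) * pcU ≤
      (t.1 : ℝ) / 1000000 * x - (t.2 : ℝ) / 1000000 - (lam : ℝ) / 100 * x ^ 2 :=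
  pcV_aux pcU_pos (by positivity) ha hc (pc_val t.1 t.2 lam a) (pc_val t.1 t.2 lam c')

lemma PcProf.getD_mem_or {α : Type*} (l : List α) (i : ℕ) (d : α) : l.getD i d ∈ l ∨ l.getD i d = d := by
  by_cases he : i < l.length
  · left
    rw [List.getD_eq_getElem _ _ he]
    exact List.getElem_mem he
  · right
    rw [List.getD_eq_default _ _ (not_lt.mp he)]

/-- Mass bound. -/
lemma PcProf.mass_le (h : PcProf c k ρ μ) {j n lamp tau mbar b : ℕ} (hn : k ≤ n) (hl : 0 < lamp)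
    (hr : pcRange c lamp 0 0 tau = true) (hρ : ρ j ≤ (tau : ℝ) / 16384)
    (hb : ∑ i ∈ Ico j n, μ i ≤ (b : ℝ) / (1000000 * 16384))
    (hm : b * 1638400 ≤ lamp * mbar * 1000000) :
    pcM k ρ j ≤ (mbar : ℝ) / 268435456 := by
  have hlR : (0 : ℝ) < (lamp : ℝ) / 100 := by
    have : (0 : ℝ) < lamp := by exact_mod_cast hl
    positivity
  have h1 : (lamp : ℝ) / 100 * pcM k ρ j ≤ ∑ i ∈ Ico j n, μ i := by
    unfold pcM
    rw [Finset.mul_sum]
    calc ∑ i ∈ Ico j k, (lamp : ℝ) / 100 * ρ i ^ 2 ≤ ∑ i ∈ Ico j k, μ i := by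
          apply Finset.sum_le_sum
          intro i hi
          have h2 : ρ i ≤ (tau : ℝ) / 16384 :=
            (h.anti' (Finset.mem_Ico.mp hi).1).trans hρ
          have h3 := pcRange_sound h hr i (by simpa using h.nonneg i) h2
          simp only [Nat.cast_zero, zero_mul] at h3
          linarith
      _ ≤ ∑ i ∈ Ico j n, μ i := by
          apply Finset.sum_le_sum_of_subset_of_nonneg
          · exact Finset.Ico_subset_Ico_right hn
          · intro i _ _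
            exact h.munn i
  have hm' : (b : ℝ) * 1638400 ≤ lamp * mbar * 1000000 := by exact_mod_cast hm
  have h2 : (lamp : ℝ) / 100 * pcM k ρ j ≤ (lamp : ℝ) / 100 * ((mbar : ℝ) / 268435456) := by
    refine (h1.trans hb).trans ?_
    rw [div_le_iff₀ (by norm_num)]
    have : (lamp : ℝ) / 100 * ((mbar : ℝ) / 268435456) * (1000000 * 16384) =
        (lamp * mbar * 1000000) / 1638400 := by ring
    rw [this, le_div_iff₀ (by norm_num)]
    exact hm'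
  exact le_of_mul_le_mul_left h2 hlR

/-- Soundness of the chain. -/
lemma PcProf.items_sound (h : PcProf c k ρ μ) (htab : c.validTab = true) {lam cbar a1 a2 n : ℕ}
    (hn : k ≤ n)
    (hcbar : ∀ i, 5 ≤ i → ρ i ≤ (cbar : ℝ) / 16384)
    (htail : ∀ i, 5 ≤ i → 0 ≤ μ i - (lam : ℝ) / 100 * ρ i ^ 2)
    (ha1 : (a1 : ℝ) / 16384 ≤ ρ 1) (ha2 : (a2 : ℝ) / 16384 ≤ ρ 2) :
    ∀ (its : List PcItem) (j b hi ep : ℕ), pcItems c lam cbar a1 a2 its j b hi ep = true → 5 ≤ j →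
      j + its.length ≤ max k 5 → ∑ i ∈ Ico j n, μ i ≤ (b : ℝ) / (1000000 * 16384) →
      (∀ i, 5 ≤ i → (hi : ℝ) / 16384 < ρ i → (ep : ℝ) * pcU ≤ μ i - (lam : ℝ) / 100 * ρ i ^ 2) →
      (∃ j', 3 ≤ j' ∧ j' < k ∧ PcCrit k ρ j') ∨
        (pcSumE its : ℝ) * pcU ≤ ∑ i ∈ Ico j n, (μ i - (lam : ℝ) / 100 * ρ i ^ 2) := by
  intro its
  induction its with
  | nil =>
    intro j b hi ep _ hj _ _ _
    right
    simp only [pcSumE, List.foldr, Nat.cast_zero, zero_mul]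
    apply Finset.sum_nonneg
    intro i hi'
    exact htail i (hj.trans (Finset.mem_Ico.mp hi').1)
  | cons it its ih =>
    intro j b hi ep hv hj hlen hb hH
    simp only [pcItems, Bool.and_eq_true, Bool.or_eq_true, Nat.ble_eq, Nat.blt_eq] at hv
    obtain ⟨⟨⟨⟨⟨h0, h1⟩, h3⟩, h4⟩, he5⟩, h6⟩ := hv
    have hlen' : j + (its.length + 1) ≤ max k 5 := by simpa using hlen
    have hjk : j < k := by
      rcases max_cases k 5 with ⟨e, _⟩ | ⟨e, _⟩ <;> rw [e] at hlen' <;> omega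
    set w := c.lamtab.getD it.row (0, 0) with hw
    have hwm : pcRange c w.2 0 0 w.1 = true := by
      rcases PcProf.getD_mem_or c.lamtab it.row (0, 0) with h7 | h7
      · rw [← hw] at h7
        exact List.all_eq_true.mp htab w h7
      · rw [← hw] at h7
        rw [h7] at h1
        simp at h1
    by_cases hτ : ρ j ≤ (it.tau : ℝ) / 16384
    · -- the criterion applies
      left
      refine ⟨j, by omega, hjk, ?_⟩
      refine h.crit_of_check (by omega) hjk h4 hτ ?_ ha1 ha2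
      have h8 : (it.tau : ℝ) ≤ w.1 := by exact_mod_cast h0
      have h9 : (it.tau : ℝ) / 16384 ≤ (w.1 : ℝ) / 16384 := by gcongr
      exact h.mass_le hn h1 hwm (hτ.trans h9) hb h3
    · -- a gain
      have hτ' := not_le.mp hτ
      have hU := pcU_pos
      have hnew : ∀ i, 5 ≤ i → (it.tau : ℝ) / 16384 < ρ i →
          (it.eit : ℝ) * pcU ≤ μ i - (lam : ℝ) / 100 * ρ i ^ 2 := by
        intro i hi5 hi6
        rcases he5 with he5 | ⟨he, h5⟩
        · exfalso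
          have h7 : (cbar : ℝ) ≤ it.tau := by exact_mod_cast he5
          have h8 : (cbar : ℝ) / 16384 ≤ (it.tau : ℝ) / 16384 := by gcongr
          have h9 := hcbar i hi5
          linarith
        have hep : (it.eit : ℝ) ≤ ep := by exact_mod_cast he
        by_cases hi7 : (hi : ℝ) / 16384 < ρ i
        · have h8 := hH i hi5 hi7
          have h9 : (it.eit : ℝ) * pcU ≤ (ep : ℝ) * pcU :=
            mul_le_mul_of_nonneg_right hep hU.le
          linarith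
        · have hi8 := not_lt.mp hi7
          rcases h5 with h5 | h5
          · exfalso
            have h7 : (hi : ℝ) ≤ it.tau := by exact_mod_cast h5
            have h8 : (hi : ℝ) / 16384 ≤ (it.tau : ℝ) / 16384 := by gcongr
            linarith
          · exact pcRange_sound h h5 i hi6.le hi8
      have hgain := hnew j hj hτ'
      have hjn : j < n := hjk.trans_le hn
      have hbnext : ∑ i ∈ Ico (j + 1) n, μ i ≤
          (((b + (c.tan.getD it.ltan (0, 0)).2 * 16384 - (c.tan.getD it.ltan (0, 0)).1 * it.tau : ℕ)) : ℝ)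
            / (1000000 * 16384) := by
        have e1 := Finset.sum_eq_sum_Ico_succ_bot hjn μ
        rw [e1] at hb
        have h7 := h.tan it.ltan j
        set t := c.tan.getD it.ltan (0, 0) with ht
        have h8 : ((t.1 : ℕ) : ℝ) / 1000000 * ((it.tau : ℝ) / 16384) ≤ ((t.1 : ℕ) : ℝ) / 1000000 * ρ j := by
          gcongr
        have h9 : ((b : ℝ) + (t.2 : ℝ) * 16384 - (t.1 : ℝ) * it.tau) ≤
            ((b + t.2 * 16384 - t.1 * it.tau : ℕ) : ℝ) := by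
          rcases le_total (t.1 * it.tau) (b + t.2 * 16384) with hle | hle
          · rw [Nat.cast_sub hle]; push_cast; exact le_of_eq rfl
          · rw [Nat.sub_eq_zero_of_le hle]
            have : ((b + t.2 * 16384 : ℕ) : ℝ) ≤ ((t.1 * it.tau : ℕ) : ℝ) := by exact_mod_cast hle
            push_cast at this ⊢
            linarith
        have h10 : ∑ i ∈ Ico (j + 1) n, μ i ≤
            ((b : ℝ) + (t.2 : ℝ) * 16384 - (t.1 : ℝ) * it.tau) / (1000000 * 16384) := by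
          have e2 : ((b : ℝ) + (t.2 : ℝ) * 16384 - (t.1 : ℝ) * it.tau) / (1000000 * 16384) =
              (b : ℝ) / (1000000 * 16384) + (t.2 : ℝ) / 1000000 -
                (t.1 : ℝ) / 1000000 * ((it.tau : ℝ) / 16384) := by ring
          rw [e2]
          linarith
        refine h10.trans ?_
        gcongr
      have hlen2 : j + 1 + its.length ≤ max k 5 := by omega
      rcases ih (j + 1) _ _ _ h6 (by omega) hlen2 hbnext hnew with h7 | h7
      · exact Or.inl h7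
      · right
        rw [Finset.sum_eq_sum_Ico_succ_bot hjn]
        have e : (pcSumE (it :: its) : ℝ) = (it.eit : ℝ) + (pcSumE its : ℝ) := by
          simp [pcSumE]
        rw [e, add_mul]
        exact add_le_add hgain h7

/-- Soundness of an entry. -/
lemma PcProf.ent_sound (h : PcProf c k ρ μ) (htab : c.validTab = true) {ent : PcEnt}
    (hent : PcEnt.valid c ent = true ∨ ent = pcEnt0)
    (hcbar : ∀ i, 5 ≤ i → ρ i ≤ (ent.cbar : ℝ) / 16384)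
    (ha1 : (ent.a1 : ℝ) / 16384 ≤ ρ 1) (ha2 : (ent.a2 : ℝ) / 16384 ≤ ρ 2) {n : ℕ} (hn : k ≤ n)
    (hb : ∑ i ∈ Ico 5 n, μ i ≤ (ent.bbar : ℝ) / (1000000 * 16384)) :
    (∃ j', 3 ≤ j' ∧ j' < k ∧ PcCrit k ρ j') ∨
      (ent.e : ℝ) * pcU ≤ ∑ i ∈ Ico 5 n, (μ i - (ent.lam : ℝ) / 100 * ρ i ^ 2) := by
  rcases hent with hv | hent
  · simp only [PcEnt.valid, Bool.and_eq_true, Nat.ble_eq] at hv
    obtain ⟨⟨⟨h1, h2⟩, h3⟩, h4⟩ := hv
    have htail : ∀ i, 5 ≤ i → 0 ≤ μ i - (ent.lam : ℝ) / 100 * ρ i ^ 2 := by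
      intro i hi
      have h5 := pcRange_sound h h1 i (by simpa using h.nonneg i) (hcbar i hi)
      simpa using h5
    have hlen : 5 + ent.items.length ≤ max k 5 := by
      refine h4.trans ?_
      have := h.K0le
      omega
    have hvac : ∀ i, 5 ≤ i → (ent.cbar : ℝ) / 16384 < ρ i →
        ((1000000000000000000000000000000 : ℕ) : ℝ) * pcU ≤ μ i - (ent.lam : ℝ) / 100 * ρ i ^ 2 := by
      intro i hi hi2
      exact absurd (hcbar i hi) (not_le.mpr hi2)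
    rcases h.items_sound htab hn hcbar htail ha1 ha2 _ _ _ _ _ h2 le_rfl hlen hb hvac with h5 | h5
    · exact Or.inl h5
    · right
      refine le_trans ?_ h5
      apply mul_le_mul_of_nonneg_right _ pcU_pos.le
      exact_mod_cast h3
  · subst hent
    right
    simp only [pcEnt0, Nat.cast_zero, zero_mul, zero_div, sub_zero]
    apply Finset.sum_nonneg
    intro i _
    exact h.munn i

lemma PcProf.ent_mem {c : PcClass} (hval : c.valid = true) (e : ℕ) :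
    PcEnt.valid c (c.get e) = true ∨ c.get e = pcEnt0 := by
  unfold PcClass.get
  unfold PcClass.valid at hval
  simp only [Bool.and_eq_true] at hval
  replace hval := hval.2
  set E := c.ents.getD (e / 256) [] with hE
  set F := E.getD (e / 16 % 16) [] with hF
  rcases PcProf.getD_mem_or F (e % 16) pcEnt0 with h3 | h3
  · left
    have hFm : F ∈ E := by
      rcases PcProf.getD_mem_or E (e / 16 % 16) [] with h2 | h2
      · exact h2
      · rw [← hF] at h2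
        rw [h2] at h3
        simp at h3
    have hEm : E ∈ c.ents := by
      rcases PcProf.getD_mem_or c.ents (e / 256) [] with h1 | h1
      · exact h1
      · rw [← hE] at h1
        rw [h1] at hFm
        simp at hFm
    have h4 := List.all_eq_true.mp hval E hEm
    have h5 := List.all_eq_true.mp h4 F hFm
    exact List.all_eq_true.mp h5 _ h3
  · exact Or.inr h3

/-- Soundness of a budget leaf. -/
lemma PcProf.bud_sound (h : PcProf c k ρ μ) (hval : c.valid = true)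
    {lam l0 l1 l2 l3 l4 e a0 c0 a1 c1 a2 c2 a3 c3 a4 c4 : ℕ}
    (hb : pcBud c lam l0 l1 l2 l3 l4 e a0 c0 a1 c1 a2 c2 a3 c3 a4 c4 = true)
    (ha0 : (a0 : ℝ) / 16384 ≤ ρ 0) (hc0 : ρ 0 ≤ (c0 : ℝ) / 16384)
    (ha1 : (a1 : ℝ) / 16384 ≤ ρ 1) (hc1 : ρ 1 ≤ (c1 : ℝ) / 16384)
    (ha2 : (a2 : ℝ) / 16384 ≤ ρ 2) (hc2 : ρ 2 ≤ (c2 : ℝ) / 16384)
    (ha3 : (a3 : ℝ) / 16384 ≤ ρ 3) (hc3 : ρ 3 ≤ (c3 : ℝ) / 16384)
    (ha4 : (a4 : ℝ) / 16384 ≤ ρ 4) (hc4 : ρ 4 ≤ (c4 : ℝ) / 16384) :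
    ∃ j', 3 ≤ j' ∧ j' < k ∧ PcCrit k ρ j' := by
  unfold pcBud at hb
  dsimp only at hb
  simp only [Bool.and_eq_true, Bool.or_eq_true, Nat.beq_eq, Nat.ble_eq, Nat.blt_eq] at hb
  obtain ⟨⟨⟨⟨⟨h1, h2⟩, h3⟩, h4⟩, h5⟩, h6⟩ := hb
  set t0 := c.tan.getD l0 (0, 0) with ht0
  set t1 := c.tan.getD l1 (0, 0) with ht1
  set t2 := c.tan.getD l2 (0, 0) with ht2
  set t3 := c.tan.getD l3 (0, 0) with ht3
  set t4 := c.tan.getD l4 (0, 0) with ht4
  set ent := c.get e with hent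
  set v0 := pcV t0 lam a0 c0 with hv0
  set v1 := pcV t1 lam a1 c1 with hv1
  set v2 := pcV t2 lam a2 c2 with hv2
  set v3 := pcV t3 lam a3 c3 with hv3
  set v4 := pcV t4 lam a4 c4 with hv4
  -- the real inequalities for the first five
  have hn : k ≤ k + 5 := by omega
  have hsplit : ∀ f : ℕ → ℝ, ∑ i ∈ range (k + 5), f i =
      f 0 + f 1 + f 2 + f 3 + f 4 + ∑ i ∈ Ico 5 (k + 5), f i := by
    intro f
    have e1 : ∑ i ∈ range 5, f i + ∑ i ∈ Ico 5 (k + 5), f i = ∑ i ∈ range (k + 5), f i := by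
      rw [range_eq_Ico, range_eq_Ico]
      exact Finset.sum_Ico_consecutive f (by omega) (by omega)
    rw [← e1]
    simp only [Finset.sum_range_succ, Finset.sum_range_zero, zero_add]
  have hmu := h.musum_of_le hn
  have hrho := h.sum_of_le hn
  rw [hsplit] at hmu hrho
  have hbudget : ∑ i ∈ Ico 5 (k + 5), μ i ≤ (ent.bbar : ℝ) / (1000000 * 16384) := by
    have h7 := h.tan l0 0
    have h8 := h.tan l1 1
    have h9 := h.tan l2 2
    have h10 := h.tan l3 3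
    have h11 := h.tan l4 4
    rw [← ht0] at h7
    rw [← ht1] at h8
    rw [← ht2] at h9
    rw [← ht3] at h10
    rw [← ht4] at h11
    have m0 : ((t0.1 : ℕ) : ℝ) / 1000000 * ((a0 : ℝ) / 16384) ≤ ((t0.1 : ℕ) : ℝ) / 1000000 * ρ 0 := by gcongr
    have m1 : ((t1.1 : ℕ) : ℝ) / 1000000 * ((a1 : ℝ) / 16384) ≤ ((t1.1 : ℕ) : ℝ) / 1000000 * ρ 1 := by gcongr
    have m2 : ((t2.1 : ℕ) : ℝ) / 1000000 * ((a2 : ℝ) / 16384) ≤ ((t2.1 : ℕ) : ℝ) / 1000000 * ρ 2 := by gcongr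
    have m3 : ((t3.1 : ℕ) : ℝ) / 1000000 * ((a3 : ℝ) / 16384) ≤ ((t3.1 : ℕ) : ℝ) / 1000000 * ρ 3 := by gcongr
    have m4 : ((t4.1 : ℕ) : ℝ) / 1000000 * ((a4 : ℝ) / 16384) ≤ ((t4.1 : ℕ) : ℝ) / 1000000 * ρ 4 := by gcongr
    have h12 : ((1000000 : ℝ) * 16384 + ((t0.2 : ℝ) + t1.2 + t2.2 + t3.2 + t4.2) * 16384) ≤
        (t0.1 : ℝ) * a0 + t1.1 * a1 + t2.1 * a2 + t3.1 * a3 + t4.1 * a4 + ent.bbar := by
      exact_mod_cast h5
    have e1 : (ent.bbar : ℝ) / (1000000 * 16384) = 1 + ((t0.2 : ℝ) + t1.2 + t2.2 + t3.2 + t4.2) / 1000000 -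
        ((t0.1 : ℝ) / 1000000 * ((a0 : ℝ) / 16384) + (t1.1 : ℝ) / 1000000 * ((a1 : ℝ) / 16384) +
          (t2.1 : ℝ) / 1000000 * ((a2 : ℝ) / 16384) + (t3.1 : ℝ) / 1000000 * ((a3 : ℝ) / 16384) +
          (t4.1 : ℝ) / 1000000 * ((a4 : ℝ) / 16384)) +
        (((t0.1 : ℝ) * a0 + t1.1 * a1 + t2.1 * a2 + t3.1 * a3 + t4.1 * a4 + ent.bbar) -
          ((1000000 : ℝ) * 16384 + ((t0.2 : ℝ) + t1.2 + t2.2 + t3.2 + t4.2) * 16384)) / (1000000 * 16384) := by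
      ring
    have h13 : 0 ≤ (((t0.1 : ℝ) * a0 + t1.1 * a1 + t2.1 * a2 + t3.1 * a3 + t4.1 * a4 + ent.bbar) -
          ((1000000 : ℝ) * 16384 + ((t0.2 : ℝ) + t1.2 + t2.2 + t3.2 + t4.2) * 16384)) / (1000000 * 16384) := by
      apply div_nonneg _ (by norm_num)
      linarith
    rw [e1]
    have e2 : ((t0.2 : ℝ) + t1.2 + t2.2 + t3.2 + t4.2) / 1000000 =
      (t0.2 : ℝ) / 1000000 + (t1.2 : ℝ) / 1000000 + (t2.2 : ℝ) / 1000000 + (t3.2 : ℝ) / 1000000 +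
        (t4.2 : ℝ) / 1000000 := by ring
    rw [e2]
    linarith
  have hcb : ∀ i, 5 ≤ i → ρ i ≤ (ent.cbar : ℝ) / 16384 := by
    intro i hi
    rcases h2 with h2 | h2
    · refine (h.anti' (by omega : 4 ≤ i)).trans (hc4.trans ?_)
      have : (c4 : ℝ) ≤ ent.cbar := by exact_mod_cast h2
      gcongr
    · -- the mass bound
      have hi5 : ρ i ^ 2 ≤ ∑ l ∈ Ico 5 (k + 5), ρ l ^ 2 := by
        by_cases hik : i < k + 5
        · exact Finset.single_le_sum (f := fun l => ρ l ^ 2) (fun l _ => sq_nonneg _)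
            (Finset.mem_Ico.mpr ⟨hi, hik⟩)
        · have hi0 : ρ i = 0 := (h.supp i (by omega)).1
          rw [hi0]
          have : (0 : ℝ) ≤ ∑ l ∈ Ico 5 (k + 5), ρ l ^ 2 :=
            Finset.sum_nonneg (fun l _ => sq_nonneg _)
          simpa using this
      have sq_le : ∀ {a : ℕ} {x : ℝ}, (a : ℝ) / 16384 ≤ x → (a : ℝ) * a / 268435456 ≤ x ^ 2 := by
        intro a x hx
        have h3 : ((a : ℝ) / 16384) ^ 2 ≤ x ^ 2 := by gcongr
        refine le_trans (le_of_eq ?_) h3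
        ring
      have hs0 := sq_le ha0
      have hs1 := sq_le ha1
      have hs2 := sq_le ha2
      have hs3 := sq_le ha3
      have hs4 := sq_le ha4
      have h3 : ((268435456 - (a0 * a0 + a1 * a1 + a2 * a2 + a3 * a3 + a4 * a4) : ℕ) : ℝ) ≤
          (ent.cbar : ℝ) * ent.cbar := by exact_mod_cast h2
      have h4 : (268435456 : ℝ) - ((a0 : ℝ) * a0 + a1 * a1 + a2 * a2 + a3 * a3 + a4 * a4) ≤
          ((268435456 - (a0 * a0 + a1 * a1 + a2 * a2 + a3 * a3 + a4 * a4) : ℕ) : ℝ) := by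
        rcases le_total (a0 * a0 + a1 * a1 + a2 * a2 + a3 * a3 + a4 * a4) 268435456 with hle | hle
        · rw [Nat.cast_sub hle]; push_cast; exact le_of_eq rfl
        · rw [Nat.sub_eq_zero_of_le hle]
          have : (268435456 : ℝ) ≤ (a0 : ℝ) * a0 + a1 * a1 + a2 * a2 + a3 * a3 + a4 * a4 := by
            exact_mod_cast hle
          push_cast
          linarith
      have h5 : ρ i ^ 2 ≤ ((ent.cbar : ℝ) / 16384) ^ 2 := by
        have e1 : ((ent.cbar : ℝ) / 16384) ^ 2 = (ent.cbar : ℝ) * ent.cbar / 268435456 := by ring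
        rw [e1]
        have e2 : (268435456 : ℝ) - ((a0 : ℝ) * a0 + a1 * a1 + a2 * a2 + a3 * a3 + a4 * a4) ≤
            (ent.cbar : ℝ) * ent.cbar := h4.trans h3
        have e3 : 1 - ((a0 : ℝ) * a0 / 268435456 + (a1 : ℝ) * a1 / 268435456 + (a2 : ℝ) * a2 / 268435456 +
            (a3 : ℝ) * a3 / 268435456 + (a4 : ℝ) * a4 / 268435456) ≤
            (ent.cbar : ℝ) * ent.cbar / 268435456 := by
          rw [le_div_iff₀ (by norm_num)]
          have : (1 - ((a0 : ℝ) * a0 / 268435456 + (a1 : ℝ) * a1 / 268435456 + (a2 : ℝ) * a2 / 268435456 +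
            (a3 : ℝ) * a3 / 268435456 + (a4 : ℝ) * a4 / 268435456)) * 268435456 =
            (268435456 : ℝ) - ((a0 : ℝ) * a0 + a1 * a1 + a2 * a2 + a3 * a3 + a4 * a4) := by ring
          rw [this]
          exact e2
        linarith
      have h6 := h.nonneg i
      have h7 : (0 : ℝ) ≤ (ent.cbar : ℝ) / 16384 := by positivity
      exact (pow_le_pow_iff_left₀ h6 h7 two_ne_zero).1 h5
  have ha1' : (ent.a1 : ℝ) / 16384 ≤ ρ 1 := by
    refine le_trans ?_ ha1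
    have : (ent.a1 : ℝ) ≤ a1 := by exact_mod_cast h3
    gcongr
  have ha2' : (ent.a2 : ℝ) / 16384 ≤ ρ 2 := by
    refine le_trans ?_ ha2
    have : (ent.a2 : ℝ) ≤ a2 := by exact_mod_cast h4
    gcongr
  have htab : c.validTab = true := by
    unfold PcClass.valid at hval
    simp only [Bool.and_eq_true] at hval
    exact hval.1
  rcases h.ent_sound htab (PcProf.ent_mem hval e) hcb ha1' ha2' hn hbudget with h7 | h7
  · exact h7
  · exfalso
    rw [h1] at h7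
    have w0 := pcV_sound (t := t0) (lam := lam) ha0 hc0
    have w1 := pcV_sound (t := t1) (lam := lam) ha1 hc1
    have w2 := pcV_sound (t := t2) (lam := lam) ha2 hc2
    have w3 := pcV_sound (t := t3) (lam := lam) ha3 hc3
    have w4 := pcV_sound (t := t4) (lam := lam) ha4 hc4
    have q0 := h.tan l0 0
    have q1 := h.tan l1 1
    have q2 := h.tan l2 2
    have q3 := h.tan l3 3
    have q4 := h.tan l4 4
    rw [← ht0] at q0
    rw [← ht1] at q1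
    rw [← ht2] at q2
    rw [← ht3] at q3
    rw [← ht4] at q4
    rw [← hv0] at w0
    rw [← hv1] at w1
    rw [← hv2] at w2
    rw [← hv3] at w3
    rw [← hv4] at w4
    have hsum : ∑ i ∈ Ico 5 (k + 5), (μ i - (lam : ℝ) / 100 * ρ i ^ 2) =
        ∑ i ∈ Ico 5 (k + 5), μ i - (lam : ℝ) / 100 * ∑ i ∈ Ico 5 (k + 5), ρ i ^ 2 := by
      rw [Finset.sum_sub_distrib, Finset.mul_sum]
    rw [hsum] at h7
    have h8 : ((100 : ℝ) * 1000000 * 268435456 + v0.2 + v1.2 + v2.2 + v3.2 + v4.2) <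
        ((lam : ℝ) * 1000000 * 268435456 + v0.1 + v1.1 + v2.1 + v3.1 + v4.1 + ent.e) := by
      exact_mod_cast h6
    have h9 := mul_lt_mul_of_pos_right h8 pcU_pos
    have e1 : (100 : ℝ) * 1000000 * 268435456 * pcU = 1 := by unfold pcU; norm_num
    have e2 : (lam : ℝ) * 1000000 * 268435456 * pcU = (lam : ℝ) / 100 := by unfold pcU; ring
    have h10 : 1 + ((v0.2 : ℝ) + v1.2 + v2.2 + v3.2 + v4.2) * pcU <
        (lam : ℝ) / 100 + ((v0.1 : ℝ) + v1.1 + v2.1 + v3.1 + v4.1) * pcU + (ent.e : ℝ) * pcU := by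
      have e3 : ((100 : ℝ) * 1000000 * 268435456 + v0.2 + v1.2 + v2.2 + v3.2 + v4.2) * pcU =
        (100 : ℝ) * 1000000 * 268435456 * pcU + ((v0.2 : ℝ) + v1.2 + v2.2 + v3.2 + v4.2) * pcU := by ring
      have e4 : ((lam : ℝ) * 1000000 * 268435456 + v0.1 + v1.1 + v2.1 + v3.1 + v4.1 + ent.e) * pcU =
        (lam : ℝ) * 1000000 * 268435456 * pcU + ((v0.1 : ℝ) + v1.1 + v2.1 + v3.1 + v4.1) * pcU + (ent.e : ℝ) * pcU := by ring
      rw [e3, e4, e1, e2] at h9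
      exact h9
    have e5 : 0 ≤ (lam : ℝ) / 100 := by positivity
    have hrho' : (lam : ℝ) / 100 * ρ 0 ^ 2 + (lam : ℝ) / 100 * ρ 1 ^ 2 + (lam : ℝ) / 100 * ρ 2 ^ 2 +
        (lam : ℝ) / 100 * ρ 3 ^ 2 + (lam : ℝ) / 100 * ρ 4 ^ 2 +
        (lam : ℝ) / 100 * ∑ i ∈ Ico 5 (k + 5), ρ i ^ 2 = (lam : ℝ) / 100 := by
      have : (lam : ℝ) / 100 * (ρ 0 ^ 2 + ρ 1 ^ 2 + ρ 2 ^ 2 + ρ 3 ^ 2 + ρ 4 ^ 2 + ∑ i ∈ Ico 5 (k + 5), ρ i ^ 2) =
        (lam : ℝ) / 100 := by rw [hrho, mul_one]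
      calc _ = (lam : ℝ) / 100 * (ρ 0 ^ 2 + ρ 1 ^ 2 + ρ 2 ^ 2 + ρ 3 ^ 2 + ρ 4 ^ 2 + ∑ i ∈ Ico 5 (k + 5), ρ i ^ 2) := by
            ring
        _ = _ := this
    have h11 : ((v0.1 : ℝ) - v0.2) * pcU + ((v1.1 : ℝ) - v1.2) * pcU + ((v2.1 : ℝ) - v2.2) * pcU +
        ((v3.1 : ℝ) - v3.2) * pcU + ((v4.1 : ℝ) - v4.2) * pcU =
        ((v0.1 : ℝ) + v1.1 + v2.1 + v3.1 + v4.1) * pcU - ((v0.2 : ℝ) + v1.2 + v2.2 + v3.2 + v4.2) * pcU := by
      ring
    linarith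

/-- Soundness of a deletion leaf. -/
lemma PcProf.del_sound (h : PcProf c k ρ μ) {j p q r a0 a1 a2 c3 a3 c4 : ℕ}
    (hb : pcDel c j p q r a0 a1 a2 c3 a3 c4 = true)
    (ha0 : (a0 : ℝ) / 16384 ≤ ρ 0) (ha1 : (a1 : ℝ) / 16384 ≤ ρ 1)
    (ha2 : (a2 : ℝ) / 16384 ≤ ρ 2) (ha3 : (a3 : ℝ) / 16384 ≤ ρ 3) (hc3 : ρ 3 ≤ (c3 : ℝ) / 16384)
    (hc4 : ρ 4 ≤ (c4 : ℝ) / 16384) :
    ∃ j', 3 ≤ j' ∧ j' < k ∧ PcCrit k ρ j' := by
  unfold pcDel at hb
  simp only [Bool.and_eq_true, Nat.blt_eq] at hb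
  obtain ⟨h1, h2⟩ := hb
  have hjk : j < k := h1.trans_le h.K0le
  have hsplit : ∀ {j : ℕ}, j ≤ k → pcM k ρ j = 1 - ∑ i ∈ range j, ρ i ^ 2 := by
    intro j hj
    have e1 : ∑ i ∈ range j, ρ i ^ 2 + ∑ i ∈ Ico j k, ρ i ^ 2 = ∑ i ∈ range k, ρ i ^ 2 := by
      rw [range_eq_Ico, range_eq_Ico]
      exact Finset.sum_Ico_consecutive _ (by omega) hj
    rw [h.sum] at e1
    unfold pcM
    linarith
  have sq_le : ∀ {a : ℕ} {x : ℝ}, (a : ℝ) / 16384 ≤ x → ((a * a : ℕ) : ℝ) / 268435456 ≤ x ^ 2 := by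
    intro a x hx
    have h3 : ((a : ℝ) / 16384) ^ 2 ≤ x ^ 2 := by gcongr
    refine le_trans (le_of_eq ?_) h3
    push_cast
    ring
  have cast_sub_ge : ∀ A B : ℕ, (A : ℝ) - B ≤ ((A - B : ℕ) : ℝ) := by
    intro A B
    rcases le_total B A with hle | hle
    · rw [Nat.cast_sub hle]
    · rw [Nat.sub_eq_zero_of_le hle]
      have : (A : ℝ) ≤ B := by exact_mod_cast hle
      push_cast
      linarith
  have hs0 := sq_le ha0
  have hs1 := sq_le ha1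
  have hs2 := sq_le ha2
  have hs3 := sq_le ha3
  split_ifs at h2 with h3
  · simp only [Bool.and_eq_true, Nat.ble_eq] at h2 h3
    obtain ⟨h4, h5⟩ := h2
    have hj3 : j = 3 := le_antisymm h3 h4
    subst hj3
    refine ⟨3, le_rfl, hjk, ?_⟩
    refine h.crit_of_check (by norm_num) hjk h5 hc3 ?_ ha1 ha2
    rw [hsplit hjk.le]
    simp only [Finset.sum_range_succ, Finset.sum_range_zero, zero_add]
    have h6 := cast_sub_ge 268435456 (a0 * a0 + a1 * a1 + a2 * a2)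
    have h7 : (1 : ℝ) - (((a0 * a0 : ℕ) : ℝ) / 268435456 + ((a1 * a1 : ℕ) : ℝ) / 268435456 +
        ((a2 * a2 : ℕ) : ℝ) / 268435456) ≤
        ((268435456 - (a0 * a0 + a1 * a1 + a2 * a2) : ℕ) : ℝ) / 268435456 := by
      rw [le_div_iff₀ (by norm_num)]
      push_cast at h6 ⊢
      linarith
    linarith
  · simp only [Bool.and_eq_true, Nat.ble_eq] at h2 h3
    obtain ⟨h4, h5⟩ := h2
    have hj3 : j = 4 := by omega
    subst hj3
    refine ⟨4, by norm_num, hjk, ?_⟩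
    refine h.crit_of_check (by norm_num) hjk h5 hc4 ?_ ha1 ha2
    rw [hsplit hjk.le]
    simp only [Finset.sum_range_succ, Finset.sum_range_zero, zero_add]
    have h6 := cast_sub_ge 268435456 (a0 * a0 + a1 * a1 + a2 * a2 + a3 * a3)
    have h7 : (1 : ℝ) - (((a0 * a0 : ℕ) : ℝ) / 268435456 + ((a1 * a1 : ℕ) : ℝ) / 268435456 +
        ((a2 * a2 : ℕ) : ℝ) / 268435456 + ((a3 * a3 : ℕ) : ℝ) / 268435456) ≤
        ((268435456 - (a0 * a0 + a1 * a1 + a2 * a2 + a3 * a3) : ℕ) : ℝ) / 268435456 := by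
      rw [le_div_iff₀ (by norm_num)]
      push_cast at h6 ⊢
      linarith
    linarith

/-- Soundness of the infeasibility leaf. -/
lemma PcProf.inf_false (h : PcProf c k ρ μ) {a0 c0 a1 c1 a2 c2 a3 c3 a4 : ℕ}
    (hb : (Nat.blt c0 a1 || Nat.blt c1 a2 || Nat.blt c2 a3 || Nat.blt c3 a4 ||
      Nat.blt 268435456 (a0 * a0 + a1 * a1 + a2 * a2 + a3 * a3 + a4 * a4)) = true)
    (ha0 : (a0 : ℝ) / 16384 ≤ ρ 0) (hc0 : ρ 0 ≤ (c0 : ℝ) / 16384)
    (ha1 : (a1 : ℝ) / 16384 ≤ ρ 1) (hc1 : ρ 1 ≤ (c1 : ℝ) / 16384)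
    (ha2 : (a2 : ℝ) / 16384 ≤ ρ 2) (hc2 : ρ 2 ≤ (c2 : ℝ) / 16384)
    (ha3 : (a3 : ℝ) / 16384 ≤ ρ 3) (hc3 : ρ 3 ≤ (c3 : ℝ) / 16384)
    (ha4 : (a4 : ℝ) / 16384 ≤ ρ 4) : False := by
  simp only [Bool.or_eq_true, Nat.blt_eq] at hb
  have cmp : ∀ {x y : ℕ} {u v : ℝ}, x < y → u ≤ (x : ℝ) / 16384 → (y : ℝ) / 16384 ≤ v → u < v := by
    intro x y u v hxy h1 h2
    have : (x : ℝ) < y := by exact_mod_cast hxy
    have h3 : (x : ℝ) / 16384 < (y : ℝ) / 16384 := by gcongr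
    linarith
  rcases hb with ((((hb | hb) | hb) | hb) | hb)
  · have := cmp hb hc0 ha1
    have := h.anti 0
    simp only [zero_add] at this
    linarith
  · have := cmp hb hc1 ha2
    have := h.anti 1
    norm_num at this
    linarith
  · have := cmp hb hc2 ha3
    have := h.anti 2
    norm_num at this
    linarith
  · have := cmp hb hc3 ha4
    have := h.anti 3
    norm_num at this
    linarith
  · have hrho := h.sum_of_le (n := k + 5) (by omega)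
    have e1 : ∑ i ∈ range 5, ρ i ^ 2 + ∑ i ∈ Ico 5 (k + 5), ρ i ^ 2 = ∑ i ∈ range (k + 5), ρ i ^ 2 := by
      rw [range_eq_Ico, range_eq_Ico]
      exact Finset.sum_Ico_consecutive _ (by omega) (by omega)
    have h2 : 0 ≤ ∑ i ∈ Ico 5 (k + 5), ρ i ^ 2 := Finset.sum_nonneg (fun i _ => sq_nonneg _)
    rw [hrho] at e1
    simp only [Finset.sum_range_succ, Finset.sum_range_zero, zero_add] at e1
    have sq_le : ∀ {a : ℕ} {x : ℝ}, (a : ℝ) / 16384 ≤ x → (a : ℝ) * a / 268435456 ≤ x ^ 2 := by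
      intro a x hx
      have h3 : ((a : ℝ) / 16384) ^ 2 ≤ x ^ 2 := by gcongr
      refine le_trans (le_of_eq ?_) h3
      ring
    have hs0 := sq_le ha0
    have hs1 := sq_le ha1
    have hs2 := sq_le ha2
    have hs3 := sq_le ha3
    have hs4 := sq_le ha4
    have h3 : (268435456 : ℝ) < (a0 : ℝ) * a0 + a1 * a1 + a2 * a2 + a3 * a3 + a4 * a4 := by
      exact_mod_cast hb
    have h4 : (1 : ℝ) < ((a0 : ℝ) * a0 + a1 * a1 + a2 * a2 + a3 * a3 + a4 * a4) / 268435456 := by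
      rw [lt_div_iff₀ (by norm_num)]
      linarith
    have e2 : ((a0 : ℝ) * a0 + a1 * a1 + a2 * a2 + a3 * a3 + a4 * a4) / 268435456 =
        (a0 : ℝ) * a0 / 268435456 + (a1 : ℝ) * a1 / 268435456 + (a2 : ℝ) * a2 / 268435456 +
          (a3 : ℝ) * a3 / 268435456 + (a4 : ℝ) * a4 / 268435456 := by ring
    rw [e2] at h4
    linarith

/-- Main soundness of the checker. -/
theorem check_sound (h : PcProf c k ρ μ) (hval : c.valid = true) :
    ∀ (t : PcT) (a0 c0 a1 c1 a2 c2 a3 c3 a4 c4 : ℕ), t.check c a0 c0 a1 c1 a2 c2 a3 c3 a4 c4 = true →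
    (a0 : ℝ) / 16384 ≤ ρ 0 → ρ 0 ≤ (c0 : ℝ) / 16384 →
    (a1 : ℝ) / 16384 ≤ ρ 1 → ρ 1 ≤ (c1 : ℝ) / 16384 →
    (a2 : ℝ) / 16384 ≤ ρ 2 → ρ 2 ≤ (c2 : ℝ) / 16384 →
    (a3 : ℝ) / 16384 ≤ ρ 3 → ρ 3 ≤ (c3 : ℝ) / 16384 →
    (a4 : ℝ) / 16384 ≤ ρ 4 → ρ 4 ≤ (c4 : ℝ) / 16384 →
    ∃ j', 3 ≤ j' ∧ j' < k ∧ PcCrit k ρ j' := by
  intro t
  induction t with
  | n0 l r ihl ihr =>
    intro a0 c0 a1 c1 a2 c2 a3 c3 a4 c4 hch ha0 hc0 ha1 hc1 ha2 hc2 ha3 hc3 ha4 hc4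
    simp only [PcT.check, Bool.and_eq_true] at hch
    by_cases hm : ρ 0 ≤ (((a0 + c0) / 2 : ℕ) : ℝ) / 16384
    · exact ihl _ _ _ _ _ _ _ _ _ _ hch.1 ha0 hm ha1 hc1 ha2 hc2 ha3 hc3 ha4 hc4
    · exact ihr _ _ _ _ _ _ _ _ _ _ hch.2 (not_le.mp hm).le hc0 ha1 hc1 ha2 hc2 ha3 hc3 ha4 hc4
  | n1 l r ihl ihr =>
    intro a0 c0 a1 c1 a2 c2 a3 c3 a4 c4 hch ha0 hc0 ha1 hc1 ha2 hc2 ha3 hc3 ha4 hc4
    simp only [PcT.check, Bool.and_eq_true] at hch
    by_cases hm : ρ 1 ≤ (((a1 + c1) / 2 : ℕ) : ℝ) / 16384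
    · exact ihl _ _ _ _ _ _ _ _ _ _ hch.1 ha0 hc0 ha1 hm ha2 hc2 ha3 hc3 ha4 hc4
    · exact ihr _ _ _ _ _ _ _ _ _ _ hch.2 ha0 hc0 (not_le.mp hm).le hc1 ha2 hc2 ha3 hc3 ha4 hc4
  | n2 l r ihl ihr =>
    intro a0 c0 a1 c1 a2 c2 a3 c3 a4 c4 hch ha0 hc0 ha1 hc1 ha2 hc2 ha3 hc3 ha4 hc4
    simp only [PcT.check, Bool.and_eq_true] at hch
    by_cases hm : ρ 2 ≤ (((a2 + c2) / 2 : ℕ) : ℝ) / 16384
    · exact ihl _ _ _ _ _ _ _ _ _ _ hch.1 ha0 hc0 ha1 hc1 ha2 hm ha3 hc3 ha4 hc4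
    · exact ihr _ _ _ _ _ _ _ _ _ _ hch.2 ha0 hc0 ha1 hc1 (not_le.mp hm).le hc2 ha3 hc3 ha4 hc4
  | n3 l r ihl ihr =>
    intro a0 c0 a1 c1 a2 c2 a3 c3 a4 c4 hch ha0 hc0 ha1 hc1 ha2 hc2 ha3 hc3 ha4 hc4
    simp only [PcT.check, Bool.and_eq_true] at hch
    by_cases hm : ρ 3 ≤ (((a3 + c3) / 2 : ℕ) : ℝ) / 16384
    · exact ihl _ _ _ _ _ _ _ _ _ _ hch.1 ha0 hc0 ha1 hc1 ha2 hc2 ha3 hm ha4 hc4
    · exact ihr _ _ _ _ _ _ _ _ _ _ hch.2 ha0 hc0 ha1 hc1 ha2 hc2 (not_le.mp hm).le hc3 ha4 hc4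
  | n4 l r ihl ihr =>
    intro a0 c0 a1 c1 a2 c2 a3 c3 a4 c4 hch ha0 hc0 ha1 hc1 ha2 hc2 ha3 hc3 ha4 hc4
    simp only [PcT.check, Bool.and_eq_true] at hch
    by_cases hm : ρ 4 ≤ (((a4 + c4) / 2 : ℕ) : ℝ) / 16384
    · exact ihl _ _ _ _ _ _ _ _ _ _ hch.1 ha0 hc0 ha1 hc1 ha2 hc2 ha3 hc3 ha4 hm
    · exact ihr _ _ _ _ _ _ _ _ _ _ hch.2 ha0 hc0 ha1 hc1 ha2 hc2 ha3 hc3 (not_le.mp hm).le hc4
  | inf =>
    intro a0 c0 a1 c1 a2 c2 a3 c3 a4 c4 hch ha0 hc0 ha1 hc1 ha2 hc2 ha3 hc3 ha4 hc4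
    simp only [PcT.check] at hch
    exact (h.inf_false hch ha0 hc0 ha1 hc1 ha2 hc2 ha3 hc3 ha4).elim
  | del j p q r =>
    intro a0 c0 a1 c1 a2 c2 a3 c3 a4 c4 hch ha0 hc0 ha1 hc1 ha2 hc2 ha3 hc3 ha4 hc4
    simp only [PcT.check] at hch
    exact h.del_sound hch ha0 ha1 ha2 ha3 hc3 hc4
  | bud lam l0 l1 l2 l3 l4 e =>
    intro a0 c0 a1 c1 a2 c2 a3 c3 a4 c4 hch ha0 hc0 ha1 hc1 ha2 hc2 ha3 hc3 ha4 hc4
    simp only [PcT.check] at hch
    exact h.bud_sound hval hch ha0 hc0 ha1 hc1 ha2 hc2 ha3 hc3 ha4 hc4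

end Prof

end Vale.Agent.Lib.P226
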