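import Mathlib
import Vale.Agent.Lib.P226.G10Tan
import Vale.Agent.Lib.P226.G11Three
import Vale.Agent.Lib.P226.GSound2

/-!
Module M12 of the propeller proof: the profile of a sorted maximizer.
-/

open MeasureTheory ProbabilityTheory Real Set Filter Topology
open scoped ENNReal NNReal RealInnerProductSpace

namespace Vale.Agent.Lib.P226

noncomputable section

variable {E : Type*} [NormedAddCommGroup E] [InnerProductSpace ℝ E] [FiniteDimensional ℝ E]
  [MeasurableSpace E] [BorelSpace E]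

/-- Norms, extended by zero. -/
def rhoOf {k : ℕ} (S : Fin k → E) (i : ℕ) : ℝ := if h : i < k then ‖S ⟨i, h⟩‖ else 0

/-- Cell measures, extended by zero. -/
def muOf {k : ℕ} (S : Fin k → E) (i : ℕ) : ℝ :=
  if h : i < k then (stdGaussian E).real (vorCell S ⟨i, h⟩) else 0

omit [FiniteDimensional ℝ E] [MeasurableSpace E] [BorelSpace E] in
/-- Voronoi cells are cones. -/
lemma vorCell_cone {k : ℕ} (S : Fin k → E) (i : Fin k) (c : ℝ) (x : E) (hc : 0 < c) :
    c • x ∈ vorCell S i ↔ x ∈ vorCell S i := by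
  simp only [vorCell, Set.mem_ofPred_eq, inner_smul_right]
  constructor
  · rintro ⟨h1, h2⟩
    exact ⟨fun j => le_of_mul_le_mul_left (h1 j) hc, fun j hj => lt_of_mul_lt_mul_left (h2 j hj) hc.le⟩
  · rintro ⟨h1, h2⟩
    exact ⟨fun j => mul_le_mul_of_nonneg_left (h1 j) hc.le,
      fun j hj => mul_lt_mul_of_pos_left (h2 j hj) hc⟩

/-- The moment of a cell: for `S i ≠ 0`, with `u = ‖S i‖⁻¹ • S i`:
`∫ ⟨u,x⟩ over the cell = VV S * ‖S i‖` (`opt_inner_cell`). -/
lemma moment_cell {k : ℕ} [NeZero k] {S : Fin k → E} (hS : Opt S) (hV : 0 < VV S) (i : Fin k)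
    (h0 : S i ≠ 0) :
    ∫ x in vorCell S i, ⟪‖S i‖⁻¹ • S i, x⟫ ∂(stdGaussian E) = VV S * ‖S i‖ := by
  rw [opt_inner_cell hS hV i, inner_smul_left, real_inner_self_eq_norm_sq]
  have h : ‖S i‖ ≠ 0 := norm_ne_zero_iff.mpr h0
  simp only [map_inv₀, conj_trivial]
  field_simp

lemma three_half_phi0 : (3 / 2) * phi0 = (3 / 4) * √(2 / π) := by
  have h1 : 0 < phi0 := phi0_pos
  have h2 : 0 ≤ √(2 / π) := Real.sqrt_nonneg _
  have h3 : √(2 / π) ^ 2 = 2 / π := Real.sq_sqrt (by positivity)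
  have h4 := phi0_sq
  have hπ : 0 < π := Real.pi_pos
  have h5 : √(2 / π) = 2 * phi0 := by
    have h6 : √(2 / π) ^ 2 = (2 * phi0) ^ 2 := by
      rw [h3, mul_pow, h4]
      field_simp
    exact (pow_left_inj₀ h2 (by positivity) two_ne_zero).1 h6
  rw [h5]
  ring

/-- Since `∫_A ⟨u,x⟩ ≤ E ⟨u,x⟩_+ = φ0` and `V > (3/2) φ0`, all norms are below `2/3`. -/
lemma norm_le_of_opt {k : ℕ} [NeZero k] {S : Fin k → E} (hS : Opt S)
    (hV : (3 / 4) * √(2 / π) < VV S) (i : Fin k) : ‖S i‖ ≤ 11264 / 16384 := by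
  have hφ := phi0_pos
  have hV' : (3 / 2) * phi0 < VV S := by rw [three_half_phi0]; exact hV
  have hVpos : 0 < VV S := by linarith
  by_cases h0 : S i = 0
  · rw [h0, norm_zero]; norm_num
  have hρ : 0 < ‖S i‖ := norm_pos_iff.mpr h0
  have h1 : ∫ x in vorCell S i, ⟪S i, x⟫ ∂(stdGaussian E) = VV S * ‖S i‖ ^ 2 := by
    rw [opt_inner_cell hS hVpos i, real_inner_self_eq_norm_sq]
  have h2 : ∫ x in vorCell S i, ⟪S i, x⟫ ∂(stdGaussian E) ≤ ‖S i‖ * phi0 := by
    calc ∫ x in vorCell S i, ⟪S i, x⟫ ∂(stdGaussian E)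
        ≤ ∫ x in vorCell S i, max (⟪S i, x⟫ - 0) 0 ∂(stdGaussian E) := by
          apply setIntegral_mono (integrable_inner_gauss _).integrableOn
            (integrable_max_inner _ _).integrableOn
          intro x
          simp
      _ ≤ ∫ x, max (⟪S i, x⟫ - 0) 0 ∂(stdGaussian E) := by
          apply setIntegral_le_integral (integrable_max_inner _ _)
          filter_upwards with x using le_max_right _ _
      _ = ‖S i‖ * phi0 := integral_max_inner_zero _
  rw [h1] at h2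
  have h3 : VV S * ‖S i‖ ≤ phi0 := by
    have : ‖S i‖ * (VV S * ‖S i‖) ≤ ‖S i‖ * phi0 := by nlinarith
    exact le_of_mul_le_mul_left this hρ
  have h4 : (3 / 2) * phi0 * ‖S i‖ ≤ phi0 := by
    refine le_trans ?_ h3
    gcongr
  have h5 : (3 / 2) * ‖S i‖ ≤ 1 := by
    have : phi0 * ((3 / 2) * ‖S i‖) ≤ phi0 * 1 := by linarith
    exact le_of_mul_le_mul_left this hφ
  linarith

/-- The data a class must provide in dimension `N`. -/
structure ClassOK (c : PcClass) (N : ℕ) : Prop where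
  tan : ∀ l, TanProp N (((c.tan.getD l (0, 0)).1 : ℝ) / 1000000)
    (((c.tan.getD l (0, 0)).2 : ℝ) / 1000000)
  zero : ZeroProp N ((c.x0 : ℝ) / 16384) ((c.lam0 : ℝ) / 100)
  pcm : ∀ p ∈ c.pcs, (p.2.1, p.2.2) ∈ c.tan

/-- The profile of a sorted maximizer with nonzero vectors, using `moment_cell`, `vorCell_cone`,
`isPart_vorCell`, and `(3/2) φ0 = (3/4) √(2/π) < V` (see `phi0`, `phi0_sq`).
For `i ≥ k` use `rhoOf = 0`, `muOf = 0` and `κ ≥ 0`. -/
theorem prof_of_opt {k N : ℕ} [NeZero k] (c : PcClass) {S : Fin k → EN N} (hS : Opt S)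
    (hV : (3 / 4) * √(2 / π) < VV S) (hanti : ∀ i j : Fin k, i ≤ j → ‖S j‖ ≤ ‖S i‖)
    (hpos : ∀ i, S i ≠ 0) (hK : c.K0 ≤ k) (hc : ClassOK c N) :
    PcProf c k (rhoOf S) (muOf S) := by
  have hφ := phi0_pos
  have hV' : (3 / 2) * phi0 < VV S := by rw [three_half_phi0]; exact hV
  have hVpos : 0 < VV S := by linarith
  have hρ0 : ∀ i, 0 ≤ rhoOf S i := by
    intro i
    unfold rhoOf
    split_ifs
    · exact norm_nonneg _
    · exact le_rfl
  have hμ0 : ∀ i, 0 ≤ muOf S i := by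
    intro i
    unfold muOf
    split_ifs
    · exact measureReal_nonneg
    · exact le_rfl
  have hsupp : ∀ i, k ≤ i → rhoOf S i = 0 ∧ muOf S i = 0 := by
    intro i hi
    have : ¬ i < k := not_lt.mpr hi
    simp [rhoOf, muOf, this]
  -- the data of one cell
  have hcell : ∀ i : Fin k, (3 / 2) * phi0 * ‖S i‖ ≤
      ∫ x in vorCell S i, ⟪‖S i‖⁻¹ • S i, x⟫ ∂(stdGaussian (EN N)) := by
    intro i
    rw [moment_cell hS hVpos i (hpos i)]
    have := norm_nonneg (S i)
    gcongr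
  have hunit : ∀ i : Fin k, ‖‖S i‖⁻¹ • S i‖ = 1 := by
    intro i
    have h : ‖S i‖ ≠ 0 := norm_ne_zero_iff.mpr (hpos i)
    rw [norm_smul, norm_inv, norm_norm]
    field_simp
  have hrho : ∀ i (h : i < k), rhoOf S i = ‖S ⟨i, h⟩‖ := by
    intro i h
    simp [rhoOf, h]
  have hmu : ∀ i (h : i < k), muOf S i = (stdGaussian (EN N)).real (vorCell S ⟨i, h⟩) := by
    intro i h
    simp [muOf, h]
  refine ⟨?_, hρ0, hsupp, ?_, ?_, hμ0, ?_, ?_, ?_, hK, hc.pcm⟩
  · -- antitone
    intro i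
    by_cases h : i + 1 < k
    · rw [hrho _ h, hrho _ (by omega)]
      apply hanti
      simp [Fin.le_def]
    · rw [(hsupp _ (not_lt.mp h)).1]
      exact hρ0 i
  · -- positive
    intro i h
    rw [hrho i h]
    exact norm_pos_iff.mpr (hpos _)
  · -- sum of squares
    rw [← Fin.sum_univ_eq_sum_range (fun i => rhoOf S i ^ 2) k, ← opt_sum_sq_eq hS hVpos]
    apply Finset.sum_congr rfl
    intro i _
    rw [hrho i i.2]
  · -- sum of measures
    rw [← Fin.sum_univ_eq_sum_range (fun i => muOf S i) k]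
    have hP := isPart_vorCell S
    have h1 : ∑ i : Fin k, muOf S i = ∑ i : Fin k, (stdGaussian (EN N)).real (vorCell S i) := by
      apply Finset.sum_congr rfl
      intro i _
      rw [hmu i i.2]
    rw [h1, ← measureReal_iUnion_fintype hP.disj hP.meas (μ := stdGaussian (EN N)), hP.cover]
    simp
  · -- tangent lines
    intro l i
    by_cases h : i < k
    · rw [hrho i h, hmu i h]
      exact hc.tan l _ _ _ ((isPart_vorCell S).meas _) (fun c x hc => vorCell_cone S _ c x hc) (hunit _)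
        (norm_nonneg _) (hcell _)
    · obtain ⟨h1, h2⟩ := hsupp i (not_lt.mp h)
      rw [h1, h2]
      have : (0 : ℝ) ≤ (((c.tan.getD l (0, 0)).2 : ℕ) : ℝ) / 1000000 := by positivity
      linarith
  · -- quadratic rule
    intro i hi
    by_cases h : i < k
    · rw [hrho i h] at hi ⊢
      rw [hmu i h]
      exact hc.zero _ _ _ ((isPart_vorCell S).meas _) (fun c x hc => vorCell_cone S _ c x hc) (hunit _)
        (norm_nonneg _) hi (hcell _)
    · obtain ⟨h1, h2⟩ := hsupp i (not_lt.mp h)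
      rw [h1, h2]
      simp

end

end Vale.Agent.Lib.P226
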