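import Mathlib
import Vale.Agent.Lib.P226.Embed

open MeasureTheory ProbabilityTheory Real Set Filter Topology
open scoped ENNReal NNReal RealInnerProductSpace

namespace Vale.Agent.Lib.P226

set_option linter.unusedSectionVars false

noncomputable section

variable {E : Type*} [NormedAddCommGroup E] [InnerProductSpace ℝ E] [FiniteDimensional ℝ E]
  [MeasurableSpace E] [BorelSpace E]

/-- Area of the right triangle `t < a`, `t < b`, `a + b < K`. -/
lemma triangle_area (t K : ℝ) (h : 2 * t ≤ K) :
    (volume : Measure (ℝ × ℝ)) {p : ℝ × ℝ | t < p.1 ∧ t < p.2 ∧ p.1 + p.2 < K} =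
      ENNReal.ofReal ((K - 2 * t) ^ 2 / 2) := by
  have e : {p : ℝ × ℝ | t < p.1 ∧ t < p.2 ∧ p.1 + p.2 < K} =
      regionBetween (fun _ => t) (fun a => K - a) (Ioo t (K - t)) := by
    ext p
    simp only [regionBetween, Set.mem_ofPred_eq, mem_Ioo]
    constructor
    · rintro ⟨h1, h2, h3⟩
      exact ⟨⟨h1, by linarith⟩, h2, by linarith⟩
    · rintro ⟨⟨h1, _⟩, h2, h3⟩
      exact ⟨h1, h2, by linarith⟩
  rw [e, Measure.volume_eq_prod]
  have h1 : IntegrableOn (fun _ : ℝ => t) (Ioo t (K - t)) volume := by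
    exact integrableOn_const (by simp) (by simp)
  have h2 : IntegrableOn (fun a : ℝ => K - a) (Ioo t (K - t)) volume := by
    apply Continuous.integrableOn_Icc (a := t) (b := K - t) (by fun_prop) |>.mono_set
    exact Ioo_subset_Icc_self
  rw [volume_regionBetween_eq_integral h1 h2 measurableSet_Ioo (fun x hx => by
    have h5 := hx.2
    show t ≤ K - x
    linarith)]
  congr 1
  have h3 : t ≤ K - t := by linarith
  rw [← integral_Ioc_eq_integral_Ioo, ← intervalIntegral.integral_of_le h3]
  have h4 : ∀ x ∈ Set.uIcc t (K - t),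
      HasDerivAt (fun x : ℝ => (K - t) * x - x ^ 2 / 2) ((K - t) - x) x := by
    intro x _
    refine (((hasDerivAt_id' x).const_mul (K - t)).sub
      ((hasDerivAt_pow 2 x).div_const 2)).congr_deriv ?_
    norm_num
  have h7 : (∫ x in t..(K - t), ((fun a : ℝ => K - a) - (fun _ : ℝ => t) : ℝ → ℝ) x) =
      ∫ x in t..(K - t), ((K - t) - x) := by
    apply intervalIntegral.integral_congr
    intro x _
    show K - x - t = (K - t) - x
    ring
  rw [h7, intervalIntegral.integral_eq_sub_of_hasDerivAt h4
    (Continuous.intervalIntegrable (by fun_prop) _ _)]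
  ring

/-- The slice integral of the layer cake. -/
lemma pyramid_slices (L n : ℝ) (hn : 0 < n) (hL : 0 < L) :
    ∫⁻ t in Ioc 0 (L / (n + 2)), ENNReal.ofReal ((L - (n + 2) * t) ^ 2 / 2) =
      ENNReal.ofReal (L ^ 3 / (6 * (n + 2))) := by
  have hn2 : 0 < n + 2 := by linarith
  have hT : 0 ≤ L / (n + 2) := by positivity
  have hcont : Continuous fun t : ℝ => (L - (n + 2) * t) ^ 2 / 2 := by fun_prop
  have hint : Integrable (fun t : ℝ => (L - (n + 2) * t) ^ 2 / 2)
      (volume.restrict (Ioc 0 (L / (n + 2)))) :=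
    (hcont.integrableOn_Icc (a := 0) (b := L / (n + 2))).mono_set Ioc_subset_Icc_self
  rw [← ofReal_integral_eq_lintegral_ofReal hint
    (Eventually.of_forall (fun t => by
      simp only [Pi.zero_apply]
      positivity))]
  congr 1
  rw [← intervalIntegral.integral_of_le hT]
  have h4 : ∀ x ∈ Set.uIcc 0 (L / (n + 2)),
      HasDerivAt (fun x : ℝ => -(L - (n + 2) * x) ^ 3 / (6 * (n + 2)))
        ((L - (n + 2) * x) ^ 2 / 2) x := by
    intro x _
    have h5 : HasDerivAt (fun x : ℝ => L - (n + 2) * x) (-(n + 2)) x := by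
      have := ((hasDerivAt_id x).const_mul (n + 2)).const_sub L
      simpa using this
    refine (((h5.pow 3).neg).div_const (6 * (n + 2))).congr_deriv ?_
    norm_num
    field_simp
    ring
  rw [intervalIntegral.integral_eq_sub_of_hasDerivAt h4
    (Continuous.intervalIntegrable hcont _ _)]
  have e : (n + 2) * (L / (n + 2)) = L := by field_simp
  rw [e]
  field_simp
  ring

/-- Volume of the pyramid over the right triangle a,b>0, a+b<L with apex height L/(n+2).
Layer cake: the set where the integrand exceeds t is the right triangle a>t, b>t, a+b<L-n t with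
legs L-(n+2)t, of area (L-(n+2)t)^2/2; integrate over t in (0,L/(n+2)). -/
theorem pyramid_lintegral (L n : ℝ) (hn : 0 < n) :
    ∫⁻ p : ℝ × ℝ, ENNReal.ofReal (max 0 (min p.1 (min p.2 ((L - p.1 - p.2) / n)))) ≤
      ENNReal.ofReal ((max 0 L) ^ 3 / (6 * (n + 2))) := by
  have hn2 : 0 < n + 2 := by linarith
  have hmeas : Measurable fun p : ℝ × ℝ => max 0 (min p.1 (min p.2 ((L - p.1 - p.2) / n))) := by
    have : Continuous fun p : ℝ × ℝ => max 0 (min p.1 (min p.2 ((L - p.1 - p.2) / n))) := by
      fun_prop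
    exact this.measurable
  rw [lintegral_eq_lintegral_meas_lt
    (f := fun p : ℝ × ℝ => max 0 (min p.1 (min p.2 ((L - p.1 - p.2) / n))))
    (volume : Measure (ℝ × ℝ))
    (Eventually.of_forall (fun p => le_max_left _ _)) hmeas.aemeasurable]
  have hset : ∀ t : ℝ, 0 < t →
      {p : ℝ × ℝ | t < max 0 (min p.1 (min p.2 ((L - p.1 - p.2) / n)))} =
        {p : ℝ × ℝ | t < p.1 ∧ t < p.2 ∧ p.1 + p.2 < L - n * t} := by
    intro t ht
    ext p
    simp only [Set.mem_ofPred_eq, lt_max_iff, lt_min_iff]
    have key : t < (L - p.1 - p.2) / n ↔ p.1 + p.2 < L - n * t := by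
      rw [lt_div_iff₀ hn]
      constructor <;> intro h <;> nlinarith
    rw [key]
    constructor
    · rintro (h | h)
      · exact absurd h (not_lt.mpr ht.le)
      · exact h
    · intro h
      exact Or.inr h
  by_cases hL : 0 < L
  · rw [max_eq_right hL.le, ← pyramid_slices L n hn hL]
    have hle : ∫⁻ t in Ioi (0 : ℝ), (volume : Measure (ℝ × ℝ))
        {p : ℝ × ℝ | t < max 0 (min p.1 (min p.2 ((L - p.1 - p.2) / n)))} ≤
        ∫⁻ t in Ioi (0 : ℝ), (Ioc 0 (L / (n + 2))).indicator
          (fun t => ENNReal.ofReal ((L - (n + 2) * t) ^ 2 / 2)) t := by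
      apply setLIntegral_mono' measurableSet_Ioi
      intro t ht
      have ht' : 0 < t := ht
      rw [hset t ht']
      by_cases h : t ≤ L / (n + 2)
      · have h1 : (n + 2) * t ≤ L := by
          rwa [le_div_iff₀ hn2, mul_comm] at h
        have hm : t ∈ Ioc 0 (L / (n + 2)) := ⟨ht', h⟩
        rw [Set.indicator_of_mem hm, triangle_area t (L - n * t) (by nlinarith)]
        apply le_of_eq
        congr 2
        ring
      · have h1 : L < (n + 2) * t := by
          have := not_le.mp h
          rwa [div_lt_iff₀ hn2, mul_comm] at this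
        have hempty : {p : ℝ × ℝ | t < p.1 ∧ t < p.2 ∧ p.1 + p.2 < L - n * t} = ∅ := by
          ext p
          simp only [Set.mem_ofPred_eq, Set.mem_empty_iff_false, iff_false]
          rintro ⟨h2, h3, h4⟩
          nlinarith
        rw [hempty]
        simp
    refine hle.trans ?_
    rw [setLIntegral_indicator measurableSet_Ioc]
    apply lintegral_mono_set
    exact fun t ht => ht.1
  · have hL' : L ≤ 0 := not_lt.mp hL
    have h0 : ∫⁻ t in Ioi (0 : ℝ), (volume : Measure (ℝ × ℝ))
        {p : ℝ × ℝ | t < max 0 (min p.1 (min p.2 ((L - p.1 - p.2) / n)))} = 0 := by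
      apply setLIntegral_eq_zero measurableSet_Ioi
      intro t ht
      have ht' : 0 < t := ht
      show (volume : Measure (ℝ × ℝ))
        {p : ℝ × ℝ | t < max 0 (min p.1 (min p.2 ((L - p.1 - p.2) / n)))} = 0
      rw [hset t ht']
      have hempty : {p : ℝ × ℝ | t < p.1 ∧ t < p.2 ∧ p.1 + p.2 < L - n * t} = ∅ := by
        ext p
        simp only [Set.mem_ofPred_eq, Set.mem_empty_iff_false, iff_false]
        rintro ⟨h2, h3, h4⟩
        nlinarith
      rw [hempty]
      simp
    rw [h0]
    exact zero_le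

end

end Vale.Agent.Lib.P226
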