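import Mathlib
import Vale.Agent.Lib.P226.Embed
import Vale.Agent.Lib.P226.G2Pyramid

open MeasureTheory ProbabilityTheory Real Set Filter Topology
open scoped ENNReal NNReal RealInnerProductSpace

namespace Vale.Agent.Lib.P226

set_option linter.unusedSectionVars false

noncomputable section

/-- The standard normal density is at most `phi0`. -/
lemma lintegral_NN_le {g : ℝ → ℝ≥0∞} (hg : Measurable g) :
    ∫⁻ s, g s ∂NN ≤ ENNReal.ofReal phi0 * ∫⁻ s, g s := by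
  have hNN : NN = volume.withDensity (gaussianPDF 0 1) :=
    gaussianReal_of_var_ne_zero 0 one_ne_zero
  rw [hNN, lintegral_withDensity_eq_lintegral_mul _ (measurable_gaussianPDF 0 1) hg,
    ← lintegral_const_mul _ hg]
  apply lintegral_mono
  intro s
  simp only [Pi.mul_apply]
  gcongr
  unfold gaussianPDF
  exact ENNReal.ofReal_le_ofReal (phi_le_phi0 s)

/-- Affine substitution on the line. -/
lemma lintegral_affine {g : ℝ → ℝ≥0∞} (hg : Measurable g) (e c : ℝ) (hc : 0 < c) :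
    ∫⁻ s, g (e - c * s) = ENNReal.ofReal (1 / c) * ∫⁻ s, g s := by
  have hm : Measurable fun t : ℝ => g (e - t) := hg.comp (measurable_const.sub measurable_id)
  have h1 : ∫⁻ s, g (e - c * s) = ∫⁻ t, g (e - t) ∂(Measure.map (fun x => c * x) volume) := by
    rw [lintegral_map hm (by fun_prop)]
  rw [h1, Real.map_volume_mul_left hc.ne', lintegral_smul_measure,
    lintegral_sub_left_eq_self g e (μ := volume), abs_of_pos (inv_pos.mpr hc), one_div]
  rfl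

/-- Change of variables for a triangular linear map of the plane. -/
lemma lintegral_shear {G : ℝ × ℝ → ℝ≥0∞} (hG : Measurable G) (α γ' a b c : ℝ) (ha : 0 < a)
    (hc : 0 < c) :
    ∫⁻ s₁, ∫⁻ s₂, G (α - a * s₁, γ' - b * s₁ - c * s₂) =
      ENNReal.ofReal (1 / c) * (ENNReal.ofReal (1 / a) * ∫⁻ p, G p) := by
  have h1 : ∀ s₁ : ℝ, ∫⁻ s₂, G (α - a * s₁, γ' - b * s₁ - c * s₂) =
      ENNReal.ofReal (1 / c) * ∫⁻ t, G (α - a * s₁, t) := by
    intro s₁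
    exact lintegral_affine (hG.comp measurable_prodMk_left) (γ' - b * s₁) c hc
  simp_rw [h1]
  have hΨ : Measurable fun u : ℝ => ∫⁻ t, G (u, t) := hG.lintegral_prod_right'
  have hc1 : Measurable fun s₁ : ℝ => ∫⁻ t, G (α - a * s₁, t) :=
    hΨ.comp (measurable_const.sub (measurable_const.mul measurable_id))
  have h2 : ∫⁻ s₁ : ℝ, ∫⁻ t, G (α - a * s₁, t) =
      ENNReal.ofReal (1 / a) * ∫⁻ u, ∫⁻ t, G (u, t) := lintegral_affine hΨ α a ha
  have h3 : ∫⁻ p, G p = ∫⁻ u, ∫⁻ t, G (u, t) := by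
    rw [Measure.volume_eq_prod, lintegral_prod _ hG.aemeasurable]
  rw [lintegral_const_mul _ hc1, h2, h3]

variable {E : Type*} [NormedAddCommGroup E] [InnerProductSpace ℝ E] [FiniteDimensional ℝ E]
  [MeasurableSpace E] [BorelSpace E]

/-- Resampling one coordinate, for nonnegative functions. -/
lemma lintegral_eq_QQ (u : E) (hu : ‖u‖ = 1) {F : E → ℝ≥0∞} (hF : Measurable F) :
    ∫⁻ y, F y ∂(stdGaussian E) = ∫⁻ x, ∫⁻ s, F (QQ u (s, x)) ∂NN ∂(stdGaussian E) := by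
  conv_lhs => rw [← map_QQ u hu]
  rw [lintegral_map hF (measurable_QQ u)]
  exact lintegral_prod_symm _ (hF.comp (measurable_QQ u)).aemeasurable

omit [FiniteDimensional ℝ E] [MeasurableSpace E] [BorelSpace E] in
lemma inner_QQ_two {w₁ w₂ : E} (h12 : ⟪w₁, w₂⟫ = 0) (t : E) (s₁ s₂ : ℝ) (x : E) :
    ⟪t, QQ w₁ (s₁, QQ w₂ (s₂, x))⟫ = s₁ * ⟪t, w₁⟫ + s₂ * ⟪t, w₂⟫ +
      ⟪t - ⟪t, w₁⟫ • w₁ - ⟪t, w₂⟫ • w₂, x⟫ := by
  rw [inner_QQ, inner_QQ]
  have h : ⟪t - ⟪t, w₁⟫ • w₁, w₂⟫ = ⟪t, w₂⟫ := by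
    rw [inner_sub_left, inner_smul_left, h12]
    simp
  rw [h]
  ring

omit [FiniteDimensional ℝ E] [MeasurableSpace E] [BorelSpace E] in
/-- Pointwise estimate by the pyramid function. -/
lemma max_sub_Vf_le {j r : ℕ} [NeZero j] [NeZero r] (hj : 3 ≤ j) (A : Fin j → E) (C : Fin r → E)
    (hsum : ∑ i, A i + ∑ l, C l = 0) {p q : Fin j} (hpq : p ≠ q) (v W : ℝ) (x : E)
    (hW : W = ⟪∑ l, C l, x⟫) :
    max 0 (v - Vf A x) ≤ max 0 (min (v - ⟪A p, x⟫) (min (v - ⟪A q, x⟫)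
      (((j : ℝ) * v + W - (v - ⟪A p, x⟫) - (v - ⟪A q, x⟫)) / ((j : ℝ) - 2)))) := by
  apply max_le_max le_rfl
  have hp := inner_le_Vf A p x
  have hq := inner_le_Vf A q x
  have hj' : (3 : ℝ) ≤ j := by exact_mod_cast hj
  have hn : (0 : ℝ) < (j : ℝ) - 2 := by linarith
  have hs : ∑ i, ⟪A i, x⟫ + W = 0 := by
    rw [hW, ← sum_inner, ← inner_add_left, hsum, inner_zero_left]
  -- the sum over the remaining indices
  have hrest : ∑ i ∈ (Finset.univ.erase p).erase q, ⟪A i, x⟫ ≤ ((j : ℝ) - 2) * Vf A x := by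
    have hcard : (((Finset.univ : Finset (Fin j)).erase p).erase q).card = j - 2 := by
      rw [Finset.card_erase_of_mem (by simp [hpq.symm]), Finset.card_erase_of_mem (by simp)]
      simp
      omega
    calc ∑ i ∈ (Finset.univ.erase p).erase q, ⟪A i, x⟫
        ≤ ∑ _i ∈ (Finset.univ.erase p).erase q, Vf A x :=
          Finset.sum_le_sum (fun i _ => inner_le_Vf A i x)
      _ = ((j : ℝ) - 2) * Vf A x := by
          rw [Finset.sum_const, hcard, nsmul_eq_mul, Nat.cast_sub (by omega)]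
          simp
  have hsplit : ∑ i, ⟪A i, x⟫ = ⟪A p, x⟫ + (⟪A q, x⟫ +
      ∑ i ∈ (Finset.univ.erase p).erase q, ⟪A i, x⟫) := by
    rw [Finset.add_sum_erase (Finset.univ.erase p) (fun i => ⟪A i, x⟫) (by simp [hpq.symm]),
      Finset.add_sum_erase Finset.univ (fun i => ⟪A i, x⟫) (Finset.mem_univ p)]
  refine le_min (by linarith) (le_min (by linarith) ?_)
  rw [le_div_iff₀ hn]
  nlinarith

/-- Integrability of the cubic majorant. -/
lemma integrable_max_cube {r : ℕ} [NeZero r] (C : Fin r → E) (κ : ℝ) :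
    Integrable (fun x : E => (max 0 (κ * Vf C x + ⟪∑ l, C l, x⟫)) ^ 3) (stdGaussian E) := by
  have hmem : MemLp (id : E → E) ((3 : ℕ) : ℝ≥0∞) (stdGaussian E) :=
    IsGaussian.memLp_id _ _ (by simp)
  have hn : Integrable (fun x : E => ‖(id x : E)‖ ^ 3) (stdGaussian E) :=
    hmem.integrable_norm_pow (by norm_num)
  set K : ℝ := |κ| * (∑ i, ‖C i‖) + ‖∑ l, C l‖ with hK
  have hK0 : 0 ≤ K := by positivity
  have hmeas : Measurable fun x : E => (max 0 (κ * Vf C x + ⟪∑ l, C l, x⟫)) ^ 3 := by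
    have h1 : Measurable fun x : E => ⟪∑ l, C l, x⟫ :=
      (continuous_const.inner continuous_id).measurable
    exact (measurable_const.max (((measurable_Vf C).const_mul κ).add h1)).pow_const 3
  refine Integrable.mono' (hn.const_mul (K ^ 3)) hmeas.aestronglyMeasurable
    (Eventually.of_forall fun x => ?_)
  have h0 : 0 ≤ max 0 (κ * Vf C x + ⟪∑ l, C l, x⟫) := le_max_left _ _
  have h1 : max 0 (κ * Vf C x + ⟪∑ l, C l, x⟫) ≤ K * ‖x‖ := by
    apply max_le (by positivity)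
    have h2 : κ * Vf C x ≤ |κ| * ((∑ i, ‖C i‖) * ‖x‖) := by
      calc κ * Vf C x ≤ |κ * Vf C x| := le_abs_self _
        _ = |κ| * |Vf C x| := abs_mul _ _
        _ ≤ _ := by gcongr; exact abs_Vf_le C x
    have h3 : ⟪∑ l, C l, x⟫ ≤ ‖∑ l, C l‖ * ‖x‖ := real_inner_le_norm _ _
    rw [hK]
    nlinarith
  rw [Real.norm_of_nonneg (pow_nonneg h0 3)]
  calc (max 0 (κ * Vf C x + ⟪∑ l, C l, x⟫)) ^ 3 ≤ (K * ‖x‖) ^ 3 := pow_le_pow_left₀ h0 h1 3
    _ = K ^ 3 * ‖(id x : E)‖ ^ 3 := by simp [mul_pow]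

/-- Triangle bound. Write M_A = Vf A, M_C = Vf C, W = inner (Sum C) x, v = beta M_C, n = j-2.
Pointwise M_A >= X_p, X_q and M_A >= (-W-X_p-X_q)/n because Sum_A X_i = -W; so
max 0 (v-M_A) <= max 0 (min a' (min b' ((L-a'-b')/n))) with a'=v-X_p, b'=v-X_q, L = j v + W.
Resample with QQ along w1 and w2 (integral_eq_QQ twice): v and W do not move,
X_p = s1 a + d1, X_q = s1 b + s2 c + d2. Bound the two normal densities by phi0^2 = 1/(2 pi), change
variables (s1,s2) -> (a',b') (Jacobian a c), apply pyramid_lintegral with n=j-2.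
Result: (1/(2 pi)) (1/(a c)) (max 0 L)^3/(6 j). Integrate over the remaining variable. -/
theorem triangle_bound {j r : ℕ} [NeZero j] [NeZero r] (hj : 3 ≤ j) (A : Fin j → E) (C : Fin r → E)
    (hsum : ∑ i, A i + ∑ l, C l = 0) {p q : Fin j} (hpq : p ≠ q) {w₁ w₂ : E} (hw₁ : ‖w₁‖ = 1)
    (hw₂ : ‖w₂‖ = 1) (h12 : ⟪w₁, w₂⟫ = 0) (hC₁ : ∀ l, ⟪C l, w₁⟫ = 0) (hC₂ : ∀ l, ⟪C l, w₂⟫ = 0)
    {a b c : ℝ} (ha : 0 < a) (hc : 0 < c) (hp₁ : ⟪A p, w₁⟫ = a) (hp₂ : ⟪A p, w₂⟫ = 0)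
    (hq₁ : ⟪A q, w₁⟫ = b) (hq₂ : ⟪A q, w₂⟫ = c) {β : ℝ} (hβ : 0 ≤ β) :
    ∫ x, max 0 (β * Vf C x - Vf A x) ∂(stdGaussian E) ≤
      (1 / (12 * π * j * (a * c))) *
        ∫ x, (max 0 (j * β * Vf C x + ⟪∑ l, C l, x⟫)) ^ 3 ∂(stdGaussian E) := by
  have hj' : (3 : ℝ) ≤ j := by exact_mod_cast hj
  have hn : (0 : ℝ) < (j : ℝ) - 2 := by linarith
  set n : ℝ := (j : ℝ) - 2 with hn_def
  -- the functions involved
  set F : E → ℝ≥0∞ := fun y => ENNReal.ofReal (max 0 (β * Vf C y - Vf A y)) with hF_def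
  have hFm : Measurable F := by
    refine ENNReal.measurable_ofReal.comp (measurable_const.max ?_)
    exact ((measurable_Vf C).const_mul β).sub (measurable_Vf A)
  set L : E → ℝ := fun x => (j : ℝ) * β * Vf C x + ⟪∑ l, C l, x⟫ with hL_def
  set Gx : ℝ → ℝ × ℝ → ℝ≥0∞ := fun ℓ p =>
    ENNReal.ofReal (max 0 (min p.1 (min p.2 ((ℓ - p.1 - p.2) / n)))) with hGx_def
  have hGm : ∀ ℓ, Measurable (Gx ℓ) := by
    intro ℓ
    refine ENNReal.measurable_ofReal.comp (Continuous.measurable ?_)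
    exact continuous_const.max (continuous_fst.min (continuous_snd.min
      (((continuous_const.sub continuous_fst).sub continuous_snd).div_const _)))
  -- invariance of the parts that do not see w1, w2
  have hCinv : ∀ l s₁ s₂ x, ⟪C l, QQ w₁ (s₁, QQ w₂ (s₂, x))⟫ = ⟪C l, x⟫ := by
    intro l s₁ s₂ x
    rw [inner_QQ_two h12, hC₁, hC₂]
    simp
  have hVinv : ∀ s₁ s₂ x, Vf C (QQ w₁ (s₁, QQ w₂ (s₂, x))) = Vf C x := by
    intro s₁ s₂ x
    unfold Vf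
    simp_rw [hCinv]
  have hWinv : ∀ s₁ s₂ x, ⟪∑ l, C l, QQ w₁ (s₁, QQ w₂ (s₂, x))⟫ = ⟪∑ l, C l, x⟫ := by
    intro s₁ s₂ x
    rw [sum_inner, sum_inner]
    simp_rw [hCinv]
  set dp : E → ℝ := fun x => ⟪A p - ⟪A p, w₁⟫ • w₁ - ⟪A p, w₂⟫ • w₂, x⟫ with hdp
  set dq : E → ℝ := fun x => ⟪A q - ⟪A q, w₁⟫ • w₁ - ⟪A q, w₂⟫ • w₂, x⟫ with hdq
  -- pointwise majorant
  have hpt : ∀ x s₁ s₂, F (QQ w₁ (s₁, QQ w₂ (s₂, x))) ≤
      Gx (L x) ((β * Vf C x - dp x) - a * s₁, (β * Vf C x - dq x) - b * s₁ - c * s₂) := by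
    intro x s₁ s₂
    apply ENNReal.ofReal_le_ofReal
    have h := max_sub_Vf_le hj A C hsum hpq (β * Vf C x) ⟪∑ l, C l, x⟫
      (QQ w₁ (s₁, QQ w₂ (s₂, x))) (hWinv s₁ s₂ x).symm
    rw [hVinv]
    refine h.trans (le_of_eq ?_)
    have e1 : ⟪A p, QQ w₁ (s₁, QQ w₂ (s₂, x))⟫ = s₁ * a + dp x := by
      rw [inner_QQ_two h12, hp₂, hp₁]
      simp only [hdp, hp₁, hp₂]
      ring
    have e2 : ⟪A q, QQ w₁ (s₁, QQ w₂ (s₂, x))⟫ = s₁ * b + s₂ * c + dq x := by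
      rw [inner_QQ_two h12, hq₁, hq₂]
      simp only [hdq, hq₁, hq₂]
    rw [e1, e2]
    simp only [hL_def, hn_def]
    congr 2
    · ring
    · congr 1
      · ring
      · congr 1
        ring
  -- the inner double integral for fixed x
  have hinner : ∀ x, ∫⁻ s₂, ∫⁻ s₁, F (QQ w₁ (s₁, QQ w₂ (s₂, x))) ∂NN ∂NN ≤
      ENNReal.ofReal phi0 * (ENNReal.ofReal phi0 * (ENNReal.ofReal (1 / c) *
        (ENNReal.ofReal (1 / a) * ENNReal.ofReal ((max 0 (L x)) ^ 3 / (6 * (n + 2)))))) := by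
    intro x
    set K : ℝ → ℝ → ℝ≥0∞ := fun s₁ s₂ =>
      Gx (L x) ((β * Vf C x - dp x) - a * s₁, (β * Vf C x - dq x) - b * s₁ - c * s₂) with hK
    have hKm : Measurable (Function.uncurry K) := by
      refine (hGm (L x)).comp ?_
      have h1 : Measurable fun z : ℝ × ℝ => (β * Vf C x - dp x) - a * z.1 :=
        measurable_const.sub (measurable_const.mul measurable_fst)
      have h2 : Measurable fun z : ℝ × ℝ => (β * Vf C x - dq x) - b * z.1 - c * z.2 :=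
        (measurable_const.sub (measurable_const.mul measurable_fst)).sub
          (measurable_const.mul measurable_snd)
      exact h1.prodMk h2
    have hKs : Measurable fun z : ℝ × ℝ => K z.2 z.1 := hKm.comp measurable_swap
    have h1 : ∫⁻ s₂, ∫⁻ s₁, F (QQ w₁ (s₁, QQ w₂ (s₂, x))) ∂NN ∂NN ≤
        ∫⁻ s₂, ∫⁻ s₁, K s₁ s₂ ∂NN ∂NN :=
      lintegral_mono fun s₂ => lintegral_mono fun s₁ => hpt x s₁ s₂
    have h2 : ∫⁻ s₂, ∫⁻ s₁, K s₁ s₂ ∂NN ∂NN ≤
        ENNReal.ofReal phi0 * ∫⁻ s₂, ∫⁻ s₁, K s₁ s₂ ∂NN :=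
      lintegral_NN_le (hKm.lintegral_prod_left')
    have h3 : ∫⁻ s₂, ∫⁻ s₁, K s₁ s₂ ∂NN ≤
        ENNReal.ofReal phi0 * ∫⁻ s₂, ∫⁻ s₁, K s₁ s₂ := by
      rw [← lintegral_const_mul _ (hKs.lintegral_prod_right')]
      refine lintegral_mono fun s₂ => ?_
      exact lintegral_NN_le (hKs.comp measurable_prodMk_left)
    have h4 : ∫⁻ s₂, ∫⁻ s₁, K s₁ s₂ = ∫⁻ s₁, ∫⁻ s₂, K s₁ s₂ :=
      (lintegral_lintegral_swap hKm.aemeasurable).symm
    have h5 : ∫⁻ s₁, ∫⁻ s₂, K s₁ s₂ = ENNReal.ofReal (1 / c) *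
        (ENNReal.ofReal (1 / a) * ∫⁻ p, Gx (L x) p) :=
      lintegral_shear (hGm (L x)) _ _ a b c ha hc
    have h6 : ∫⁻ p, Gx (L x) p ≤ ENNReal.ofReal ((max 0 (L x)) ^ 3 / (6 * (n + 2))) :=
      pyramid_lintegral (L x) n hn
    calc ∫⁻ s₂, ∫⁻ s₁, F (QQ w₁ (s₁, QQ w₂ (s₂, x))) ∂NN ∂NN
        ≤ ENNReal.ofReal phi0 * (ENNReal.ofReal phi0 * ∫⁻ s₂, ∫⁻ s₁, K s₁ s₂) :=
          h1.trans (h2.trans (by gcongr))
      _ = ENNReal.ofReal phi0 * (ENNReal.ofReal phi0 * (ENNReal.ofReal (1 / c) *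
            (ENNReal.ofReal (1 / a) * ∫⁻ p, Gx (L x) p))) := by rw [h4, h5]
      _ ≤ _ := by gcongr
  -- collect the constant
  set κ : ℝ := 1 / (12 * π * j * (a * c)) with hκ
  have hκ0 : 0 ≤ κ := by positivity
  have hphi : phi0 * phi0 = 1 / (2 * π) := by
    unfold phi0
    rw [← mul_inv, Real.mul_self_sqrt (by positivity), one_div]
  have hconst : ∀ ℓ : ℝ, ENNReal.ofReal phi0 * (ENNReal.ofReal phi0 * (ENNReal.ofReal (1 / c) *
      (ENNReal.ofReal (1 / a) * ENNReal.ofReal ((max 0 ℓ) ^ 3 / (6 * (n + 2)))))) =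
      ENNReal.ofReal (κ * (max 0 ℓ) ^ 3) := by
    intro ℓ
    have h0 := phi0_pos
    have hm0 : 0 ≤ (max 0 ℓ) ^ 3 := pow_nonneg (le_max_left _ _) 3
    have hnj : n + 2 = j := by rw [hn_def]; ring
    rw [← ENNReal.ofReal_mul (by positivity), ← ENNReal.ofReal_mul (by positivity),
      ← ENNReal.ofReal_mul (by positivity), ← ENNReal.ofReal_mul h0.le]
    congr 1
    rw [hκ, hnj]
    have hjpos : (0 : ℝ) < j := by linarith
    calc phi0 * (phi0 * (1 / c * (1 / a * ((max 0 ℓ) ^ 3 / (6 * (j : ℝ))))))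
        = (phi0 * phi0) * (1 / c * (1 / a * ((max 0 ℓ) ^ 3 / (6 * (j : ℝ))))) := by ring
      _ = _ := by
          rw [hphi]
          field_simp
          ring
  -- the two resamplings
  have hH : Measurable fun y : E => ∫⁻ s₁, F (QQ w₁ (s₁, y)) ∂NN :=
    (hFm.comp (measurable_QQ w₁)).lintegral_prod_left'
  have hmain : ∫⁻ y, F y ∂(stdGaussian E) ≤
      ∫⁻ x, ENNReal.ofReal (κ * (max 0 (L x)) ^ 3) ∂(stdGaussian E) := by
    rw [lintegral_eq_QQ w₁ hw₁ hFm, lintegral_eq_QQ w₂ hw₂ hH]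
    refine lintegral_mono fun x => ?_
    exact (hinner x).trans (le_of_eq (hconst (L x)))
  -- back to Bochner integrals
  have hint : Integrable (fun x : E => (max 0 (L x)) ^ 3) (stdGaussian E) :=
    integrable_max_cube C ((j : ℝ) * β)
  have hnn1 : ∀ x, 0 ≤ max 0 (β * Vf C x - Vf A x) := fun x => le_max_left _ _
  have hnn2 : ∀ x, 0 ≤ κ * (max 0 (L x)) ^ 3 :=
    fun x => mul_nonneg hκ0 (pow_nonneg (le_max_left _ _) 3)
  rw [← integral_const_mul]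
  have hmF : Measurable fun x : E => max 0 (β * Vf C x - Vf A x) :=
    measurable_const.max (((measurable_Vf C).const_mul β).sub (measurable_Vf A))
  rw [integral_eq_lintegral_of_nonneg_ae (Eventually.of_forall hnn1) hmF.aestronglyMeasurable,
    integral_eq_lintegral_of_nonneg_ae (Eventually.of_forall hnn2)
      (hint.const_mul κ).aestronglyMeasurable]
  refine ENNReal.toReal_mono ?_ hmain
  exact (hint.const_mul κ).lintegral_lt_top.ne

end

end Vale.Agent.Lib.P226
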