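import Mathlib
import Vale.Agent.Lib.P226.Embed

open MeasureTheory ProbabilityTheory Real Set Filter Topology
open scoped ENNReal NNReal RealInnerProductSpace

namespace Vale.Agent.Lib.P226

set_option linter.unusedSectionVars false

noncomputable section

variable {E : Type*} [NormedAddCommGroup E] [InnerProductSpace ℝ E] [FiniteDimensional ℝ E]
  [MeasurableSpace E] [BorelSpace E]

lemma integrable_norm_cube : Integrable (fun x : E => ‖x‖ ^ 3) (stdGaussian E) := by
  have h := IsGaussian.memLp_id (stdGaussian E) ((3 : ℕ) : ℝ≥0∞) (by simp)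
  have h2 := h.integrable_norm_pow (by norm_num)
  simpa using h2

/-- Cubes of functions of linear growth are integrable. -/
lemma integrable_cube_of_bound {f : E → ℝ} (hf : Measurable f) {K : ℝ}
    (h : ∀ x, |f x| ≤ K * ‖x‖) : Integrable (fun x => f x ^ 3) (stdGaussian E) := by
  refine ((integrable_norm_cube (E := E)).const_mul (K ^ 3)).mono'
    (hf.pow_const 3).aestronglyMeasurable ?_
  filter_upwards with x
  rw [Real.norm_eq_abs, abs_pow, ← mul_pow]
  exact pow_le_pow_left₀ (abs_nonneg _) (h x) 3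

lemma abs_max_zero_le (g : ℝ) : |max 0 g| ≤ |g| := by
  rcases le_total 0 g with h | h
  · rw [max_eq_right h]
  · rw [max_eq_left h, abs_zero]
    exact abs_nonneg g

lemma tendsto_sq_mul_phi_atTop : Tendsto (fun x => x ^ 2 * phi x) atTop (𝓝 0) := by
  have h := (tendsto_pow_mul_exp_neg_atTop_nhds_zero 2)
  have hsq : Tendsto (fun x : ℝ => phi0 * rexp (1 / 2) * (x ^ 2 * rexp (-x))) atTop (𝓝 0) := by
    simpa using h.const_mul (phi0 * rexp (1 / 2))
  refine tendsto_of_tendsto_of_tendsto_of_le_of_le' tendsto_const_nhds hsq ?_ ?_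
  · filter_upwards with x
    exact mul_nonneg (sq_nonneg x) (phi_pos x).le
  · filter_upwards with x
    rw [phi_eq]
    have h1 : rexp (-x ^ 2 / 2) ≤ rexp (1 / 2) * rexp (-x) := by
      rw [← exp_add]
      apply exp_le_exp.mpr
      nlinarith [sq_nonneg (x - 1)]
    have h0 := phi0_pos
    calc x ^ 2 * (phi0 * rexp (-x ^ 2 / 2)) ≤ x ^ 2 * (phi0 * (rexp (1 / 2) * rexp (-x))) := by
          gcongr
      _ = _ := by ring

lemma integrable_abs_cube_NN : Integrable (fun s : ℝ => |s| ^ 3) NN := by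
  have h := memLp_id_gaussianReal (μ := 0) (v := 1) 3
  have h2 := h.integrable_norm_pow (by norm_num)
  simpa using h2

lemma integrable_cube_NN : Integrable (fun s : ℝ => s ^ 3) NN := by
  refine integrable_abs_cube_NN.mono' (measurable_id.pow_const 3).aestronglyMeasurable ?_
  filter_upwards with s
  rw [Real.norm_eq_abs, abs_pow]

/-- The third moment of the positive part of the standard Gaussian. -/
lemma integral_cube_NN : ∫ s, (max 0 s) ^ 3 ∂NN = √(2 / π) := by
  have h1 : ∀ s : ℝ, (max 0 s) ^ 3 = (Ioi (0 : ℝ)).indicator (fun s => s ^ 3) s := by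
    intro s
    by_cases hs : s ∈ Ioi (0 : ℝ)
    · rw [indicator_of_mem hs, max_eq_right (le_of_lt hs)]
    · rw [indicator_of_notMem hs]
      have : s ≤ 0 := not_lt.mp hs
      rw [max_eq_left this]
      norm_num
  simp_rw [h1]
  rw [integral_indicator measurableSet_Ioi, setIntegral_NN _ measurableSet_Ioi]
  have hderiv : ∀ x ∈ Ici (0 : ℝ), HasDerivAt (fun s => -((s ^ 2 + 2) * phi s))
      (phi x * x ^ 3) x := by
    intro x _
    have h2 : HasDerivAt (fun s : ℝ => s ^ 2 + 2) (2 * x) x := by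
      have := ((hasDerivAt_id x).pow 2).add_const 2
      simpa using this
    have h3 := (h2.mul (hasDerivAt_phi x)).neg
    refine h3.congr_deriv ?_
    ring
  have hint : IntegrableOn (fun x => phi x * x ^ 3) (Ioi 0) :=
    (integrable_phi_mul integrable_cube_NN).integrableOn
  have hlim : Tendsto (fun s => -((s ^ 2 + 2) * phi s)) atTop (𝓝 0) := by
    have h4 := (tendsto_sq_mul_phi_atTop.add (tendsto_phi_atTop.const_mul 2)).neg
    simp only [mul_zero, add_zero, neg_zero] at h4
    refine h4.congr fun s => ?_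
    ring
  rw [integral_Ioi_of_hasDerivAt_of_tendsto' hderiv hint hlim]
  simp only [ne_eq, OfNat.ofNat_ne_zero, not_false_eq_true, zero_pow, zero_add, phi_zero]
  unfold phi0
  have hpi := Real.pi_pos
  have h4 : (√(2 / π)) = 2 * (√(2 * π))⁻¹ := by
    rw [eq_comm, ← div_eq_mul_inv, div_eq_iff (by positivity)]
    rw [← Real.sqrt_mul (by positivity)]
    have : 2 / π * (2 * π) = 2 ^ 2 := by
      field_simp
    rw [this, Real.sqrt_sq (by norm_num)]
  rw [h4]
  ring

/-- The third moment of the positive part of a linear form. -/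
lemma integral_pos_cube (t : E) :
    ∫ x, (max 0 ⟪t, x⟫) ^ 3 ∂(stdGaussian E) = ‖t‖ ^ 3 * √(2 / π) := by
  have h := integral_inner_comp t (f := fun s => (max 0 s) ^ 3) (by fun_prop)
  rw [h]
  have h1 : ∀ s : ℝ, (max 0 (‖t‖ * s)) ^ 3 = ‖t‖ ^ 3 * (max 0 s) ^ 3 := by
    intro s
    rw [← mul_pow]
    congr 1
    rw [mul_max_of_nonneg _ _ (norm_nonneg t), mul_zero]
  simp_rw [h1]
  rw [integral_const_mul, integral_cube_NN]

lemma measurable_inner_const (t : E) : Measurable fun x : E => ⟪t, x⟫ :=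
  (continuous_const.inner continuous_id).measurable

lemma integrable_pos_cube (t : E) :
    Integrable (fun x => (max 0 ⟪t, x⟫) ^ 3) (stdGaussian E) := by
  refine integrable_cube_of_bound (K := ‖t‖)
    (measurable_const.max (measurable_inner_const t)) fun x => ?_
  exact (abs_max_zero_le _).trans (abs_real_inner_le_norm t x)

variable {r : ℕ} [NeZero r]

lemma abs_pos_Vf_le (C : Fin r → E) (x : E) : |max 0 (Vf C x)| ≤ (∑ i, ‖C i‖) * ‖x‖ :=
  (abs_max_zero_le _).trans (abs_Vf_le C x)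

lemma integrable_pos_Vf_cube (C : Fin r → E) :
    Integrable (fun x => (max 0 (Vf C x)) ^ 3) (stdGaussian E) :=
  integrable_cube_of_bound (measurable_const.max (measurable_Vf C)) (abs_pos_Vf_le C)

/-- The third moment of the positive part of the maximum. -/
lemma integral_pos_Vf_cube_le (C : Fin r → E) :
    ∫ x, (max 0 (Vf C x)) ^ 3 ∂(stdGaussian E) ≤ (∑ l, ‖C l‖ ^ 3) * √(2 / π) := by
  have h1 : (∑ l, ‖C l‖ ^ 3) * √(2 / π) =
      ∫ x, ∑ l, (max 0 ⟪C l, x⟫) ^ 3 ∂(stdGaussian E) := by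
    rw [integral_finsetSum _ fun l _ => integrable_pos_cube (C l), Finset.sum_mul]
    exact Finset.sum_congr rfl fun l _ => (integral_pos_cube (C l)).symm
  rw [h1]
  refine integral_mono (integrable_pos_Vf_cube C)
    (integrable_finsetSum _ fun l _ => integrable_pos_cube (C l)) fun x => ?_
  obtain ⟨l, hl⟩ := exists_Vf_eq C x
  simp only
  rw [hl]
  exact Finset.single_le_sum (f := fun l => (max 0 ⟪C l, x⟫) ^ 3)
    (fun l _ => pow_nonneg (le_max_left _ _) 3) (Finset.mem_univ l)

/-- The convexity inequality. -/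
lemma cube_add_le {u v p q : ℝ} (hu : 0 ≤ u) (hv : 0 ≤ v) (hp : 0 < p) (hq : 0 < q)
    (hpq : p + q = 1) : (u + v) ^ 3 ≤ u ^ 3 / p ^ 2 + v ^ 3 / q ^ 2 := by
  have h := (convexOn_pow (𝕜 := ℝ) 3).2 (x := u / p) (y := v / q)
    (div_nonneg hu hp.le) (div_nonneg hv hq.le) hp.le hq.le hpq
  simp only [smul_eq_mul] at h
  have e1 : p * (u / p) + q * (v / q) = u + v := by
    field_simp
  rw [e1] at h
  have e2 : p * (u / p) ^ 3 + q * (v / q) ^ 3 = u ^ 3 / p ^ 2 + v ^ 3 / q ^ 2 := by
    field_simp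
  rwa [e2] at h

/-- Integrability of the integrand of the moment bound. -/
theorem moment_integrable (C : Fin r → E) (a : ℝ) :
    Integrable (fun x => (max 0 (a * Vf C x + ⟪∑ l, C l, x⟫)) ^ 3) (stdGaussian E) := by
  refine integrable_cube_of_bound (K := |a| * (∑ i, ‖C i‖) + ‖∑ l, C l‖)
    (measurable_const.max (((measurable_Vf C).const_mul a).add (measurable_inner_const _)))
    fun x => ?_
  refine (abs_max_zero_le _).trans ((abs_add_le _ _).trans ?_)
  rw [abs_mul, add_mul, mul_assoc]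
  exact add_le_add (mul_le_mul_of_nonneg_left (abs_Vf_le C x) (abs_nonneg a))
    (abs_real_inner_le_norm _ x)

/-- Third moment. max 0 (a M + W) <= a max 0 M + max 0 W, (max 0 M)^3 <= Sum (max 0 X_l)^3,
E (max 0 (inner t x))^3 = norm t ^3 * sqrt(2/pi) (integral_inner_comp; antiderivative -(s^2+2)e^(-s^2/2)),
and the pointwise (u+v)^3 <= u^3/p^2 + v^3/q^2 for p+q=1 with p, q proportional to the two L3 norms
(or Minkowski). Also prove integrability of the integrand (used elsewhere), as a separate lemma. -/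
theorem moment_bound {r : ℕ} [NeZero r] (C : Fin r → E) {a y : ℝ} (ha : 0 ≤ a) (hy : 0 ≤ y)
    (hy3 : y ^ 3 = ∑ l, ‖C l‖ ^ 3) :
    ∫ x, (max 0 (a * Vf C x + ⟪∑ l, C l, x⟫)) ^ 3 ∂(stdGaussian E) ≤
      √(2 / π) * (‖∑ l, C l‖ + a * y) ^ 3 := by
  set c := √(2 / π) with hc
  have hc0 : 0 ≤ c := Real.sqrt_nonneg _
  set t := ‖∑ l, C l‖ with ht
  have ht0 : 0 ≤ t := norm_nonneg _
  set P : E → ℝ := fun x => max 0 (Vf C x) with hP
  set Q : E → ℝ := fun x => max 0 ⟪∑ l, C l, x⟫ with hQ
  have hP0 : ∀ x, 0 ≤ P x := fun x => le_max_left _ _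
  have hQ0 : ∀ x, 0 ≤ Q x := fun x => le_max_left _ _
  have hIP : Integrable (fun x => P x ^ 3) (stdGaussian E) := integrable_pos_Vf_cube C
  have hIQ : Integrable (fun x => Q x ^ 3) (stdGaussian E) := integrable_pos_cube _
  have hEP : ∫ x, P x ^ 3 ∂(stdGaussian E) ≤ y ^ 3 * c := by
    rw [hy3]
    exact integral_pos_Vf_cube_le C
  have hEQ : ∫ x, Q x ^ 3 ∂(stdGaussian E) = t ^ 3 * c := integral_pos_cube _
  -- pointwise bound by the sum
  have hpt : ∀ x, (max 0 (a * Vf C x + ⟪∑ l, C l, x⟫)) ^ 3 ≤ (a * P x + Q x) ^ 3 := by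
    intro x
    refine pow_le_pow_left₀ (le_max_left _ _) ?_ 3
    refine max_le (add_nonneg (mul_nonneg ha (hP0 x)) (hQ0 x)) ?_
    exact add_le_add (mul_le_mul_of_nonneg_left (le_max_right _ _) ha) (le_max_right _ _)
  have hI := moment_integrable C a
  by_cases hs : a * y = 0
  · -- the first term vanishes
    have hzero : ∀ x, a * P x = 0 := by
      intro x
      rcases mul_eq_zero.mp hs with h | h
      · rw [h, zero_mul]
      · have h1 : ∑ l, ‖C l‖ ^ 3 = 0 := by
          rw [← hy3, h]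
          norm_num
        have h2 := (Finset.sum_eq_zero_iff_of_nonneg (fun l _ => by positivity)).mp h1
        obtain ⟨l, hl⟩ := exists_Vf_eq C x
        have h3 : C l = 0 := by
          have := h2 l (Finset.mem_univ l)
          simpa using this
        simp only [hP]
        rw [hl, h3]
        simp
    have h1 : ∫ x, (max 0 (a * Vf C x + ⟪∑ l, C l, x⟫)) ^ 3 ∂(stdGaussian E) ≤
        ∫ x, Q x ^ 3 ∂(stdGaussian E) := by
      refine integral_mono hI hIQ fun x => ?_
      have := hpt x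
      rwa [hzero x, zero_add] at this
    rw [hEQ] at h1
    rw [hs, add_zero]
    linarith
  by_cases ht1 : t = 0
  · -- the second term vanishes
    have hzero : ∀ x, Q x = 0 := by
      intro x
      have h1 : ∑ l, C l = 0 := norm_eq_zero.mp ht1
      simp [hQ, h1]
    have h1 : ∫ x, (max 0 (a * Vf C x + ⟪∑ l, C l, x⟫)) ^ 3 ∂(stdGaussian E) ≤
        ∫ x, a ^ 3 * P x ^ 3 ∂(stdGaussian E) := by
      refine integral_mono hI (hIP.const_mul _) fun x => ?_
      have := hpt x
      rw [hzero x, add_zero, mul_pow] at this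
      exact this
    rw [integral_const_mul] at h1
    have h2 : a ^ 3 * ∫ x, P x ^ 3 ∂(stdGaussian E) ≤ a ^ 3 * (y ^ 3 * c) :=
      mul_le_mul_of_nonneg_left hEP (by positivity)
    rw [ht1, zero_add, mul_pow]
    linarith
  -- both terms are positive
  have hs0 : 0 < a * y := lt_of_le_of_ne (mul_nonneg ha hy) (Ne.symm hs)
  have ht2 : 0 < t := lt_of_le_of_ne ht0 (Ne.symm ht1)
  set s := a * y with hsdef
  set p := s / (s + t) with hp
  set q := t / (s + t) with hq
  have hsum : 0 < s + t := by linarith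
  have hp0 : 0 < p := div_pos hs0 hsum
  have hq0 : 0 < q := div_pos ht2 hsum
  have hpq : p + q = 1 := by
    rw [hp, hq]
    field_simp
  have h1 : ∫ x, (max 0 (a * Vf C x + ⟪∑ l, C l, x⟫)) ^ 3 ∂(stdGaussian E) ≤
      ∫ x, (a ^ 3 / p ^ 2 * P x ^ 3 + Q x ^ 3 / q ^ 2) ∂(stdGaussian E) := by
    refine integral_mono hI ((hIP.const_mul _).add (hIQ.div_const _)) fun x => ?_
    refine (hpt x).trans ?_
    have h2 := cube_add_le (mul_nonneg ha (hP0 x)) (hQ0 x) hp0 hq0 hpq
    refine h2.trans (le_of_eq ?_)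
    rw [mul_pow]
    ring
  rw [integral_add (hIP.const_mul _) (hIQ.div_const _), integral_const_mul, integral_div, hEQ] at h1
  have h3 : a ^ 3 / p ^ 2 * ∫ x, P x ^ 3 ∂(stdGaussian E) ≤ a ^ 3 / p ^ 2 * (y ^ 3 * c) :=
    mul_le_mul_of_nonneg_left hEP (by positivity)
  have h4 : a ^ 3 / p ^ 2 * (y ^ 3 * c) + t ^ 3 * c / q ^ 2 = c * (t + s) ^ 3 := by
    have e : a ^ 3 * y ^ 3 = s ^ 3 := by
      rw [hsdef, mul_pow]
    have e2 : a ^ 3 / p ^ 2 * (y ^ 3 * c) = (a ^ 3 * y ^ 3) / p ^ 2 * c := by ring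
    rw [e2, e, hp, hq]
    field_simp
    ring
  linarith

end

end Vale.Agent.Lib.P226
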