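import Mathlib
import Vale.Agent.Lib.P226.Embed

open MeasureTheory ProbabilityTheory Real Set Filter Topology
open scoped ENNReal NNReal RealInnerProductSpace

namespace Vale.Agent.Lib.P226

set_option linter.unusedSectionVars false

noncomputable section

variable {E : Type*} [NormedAddCommGroup E] [InnerProductSpace ℝ E] [FiniteDimensional ℝ E]
  [MeasurableSpace E] [BorelSpace E]

omit [FiniteDimensional ℝ E] [MeasurableSpace E] [BorelSpace E] in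
/-- A vector of the span with the inner products of `x` is a nonpositive combination. -/
lemma proj_neg_comb {r : ℕ} (C : Fin r → E) (hCC : ∀ l l', l ≠ l' → ⟪C l, C l'⟫ ≤ 0)
    (x y : E) (hy : y ∈ Submodule.span ℝ (Set.range C))
    (hxy : ∀ z ∈ Submodule.span ℝ (Set.range C), ⟪y, z⟫ = ⟪x, z⟫)
    (hx : ∀ l, ⟪x, C l⟫ ≤ 0) : ∃ β : Fin r → ℝ, (∀ l, 0 ≤ β l) ∧ y = -∑ l, β l • C l := by
  obtain ⟨α, hα⟩ := (Submodule.mem_span_range_iff_exists_fun ℝ).1 hy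
  set u := ∑ l, max (α l) 0 • C l with hu
  set w := ∑ l, max (-α l) 0 • C l with hw
  have hyuw : y = u - w := by
    rw [← hα, hu, hw, ← Finset.sum_sub_distrib]
    apply Finset.sum_congr rfl
    intro l _
    rw [← sub_smul]
    congr 1
    rcases le_total (α l) 0 with h | h
    · rw [max_eq_right h, max_eq_left (by linarith)]
      ring
    · rw [max_eq_left h, max_eq_right (by linarith)]
      ring
  have huL : u ∈ Submodule.span ℝ (Set.range C) :=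
    Submodule.sum_mem _ (fun l _ => Submodule.smul_mem _ _ (Submodule.subset_span ⟨l, rfl⟩))
  have h1 : ⟪y, u⟫ ≤ 0 := by
    rw [hxy u huL, hu, inner_sum]
    apply Finset.sum_nonpos
    intro l _
    rw [inner_smul_right]
    exact mul_nonpos_of_nonneg_of_nonpos (le_max_right _ _) (hx l)
  have h2 : ⟪u, w⟫ ≤ 0 := by
    rw [hu, hw, sum_inner]
    apply Finset.sum_nonpos
    intro l _
    rw [inner_sum]
    apply Finset.sum_nonpos
    intro l' _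
    rw [inner_smul_left, inner_smul_right]
    simp only [conj_trivial]
    by_cases hll : l = l'
    · subst hll
      have : max (α l) 0 * max (-α l) 0 = 0 := by
        rcases le_total (α l) 0 with h | h
        · rw [max_eq_right h]
          ring
        · rw [max_eq_right (by linarith : -α l ≤ 0)]
          ring
      rw [← mul_assoc, this]
      simp
    · have h3 := hCC l l' hll
      have h4 : 0 ≤ max (α l) 0 * max (-α l') 0 :=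
        mul_nonneg (le_max_right _ _) (le_max_right _ _)
      rw [← mul_assoc]
      exact mul_nonpos_of_nonneg_of_nonpos h4 h3
  have h3 : ‖u‖ ^ 2 = ⟪y, u⟫ + ⟪u, w⟫ := by
    rw [hyuw, inner_sub_left, real_inner_self_eq_norm_sq, real_inner_comm u w]
    ring
  have h4 : ‖u‖ ^ 2 ≤ 0 := by rw [h3]; linarith
  have h5 : u = 0 := by
    have : ‖u‖ = 0 := by nlinarith [norm_nonneg u, sq_nonneg ‖u‖]
    exact norm_eq_zero.mp this
  refine ⟨fun l => max (-α l) 0, fun l => le_max_right _ _, ?_⟩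
  rw [hyuw, h5, zero_sub]

omit [FiniteDimensional ℝ E] [MeasurableSpace E] [BorelSpace E] in
/-- Gram-Schmidt for two vectors making a not too obtuse angle. -/
lemma gram_pair (u v : E) (hu : u ≠ 0) (hv : v ≠ 0)
    (h1 : -(1 / 2) * (‖u‖ * ‖v‖) ≤ ⟪u, v⟫) (h2 : ⟪u, v⟫ ≤ 0) :
    ∃ (w₁ w₂ : E) (a b c : ℝ), ‖w₁‖ = 1 ∧ ‖w₂‖ = 1 ∧ ⟪w₁, w₂⟫ = 0 ∧ 0 < a ∧ 0 < c ∧
      u = a • w₁ ∧ v = b • w₁ + c • w₂ ∧ 3 * (‖u‖ ^ 2 * ‖v‖ ^ 2) ≤ 4 * (a * c) ^ 2 := by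
  have hu' : 0 < ‖u‖ := norm_pos_iff.mpr hu
  have hv' : 0 < ‖v‖ := norm_pos_iff.mpr hv
  set a := ‖u‖ with ha
  set w₁ := a⁻¹ • u with hw₁
  have hw₁n : ‖w₁‖ = 1 := by
    rw [hw₁, norm_smul, norm_inv, Real.norm_eq_abs, abs_of_pos hu', ← ha]
    field_simp
  have hua : u = a • w₁ := by rw [hw₁, smul_smul, mul_inv_cancel₀ hu'.ne', one_smul]
  set b := ⟪w₁, v⟫ with hb
  have hab : ⟪u, v⟫ = a * b := by
    conv_lhs => rw [hua]
    rw [inner_smul_left]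
    simp [hb]
  set r := v - b • w₁ with hr
  have hw11 : ⟪w₁, w₁⟫ = 1 := by rw [real_inner_self_eq_norm_sq, hw₁n]; norm_num
  have hr2 : ‖r‖ ^ 2 = ‖v‖ ^ 2 - b ^ 2 := by
    rw [hr, norm_sub_sq_real, inner_smul_right, norm_smul, mul_pow, hw₁n, real_inner_comm w₁ v,
      ← hb]
    simp
    ring
  have hb2 : 4 * b ^ 2 ≤ ‖v‖ ^ 2 := by
    have h3 : (a * b) ^ 2 ≤ (1 / 2 * (a * ‖v‖)) ^ 2 := by
      rw [← hab]
      apply sq_le_sq'
      · nlinarith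
      · have : 0 ≤ 1 / 2 * (a * ‖v‖) := by positivity
        linarith
    have h4 : a ^ 2 * (‖v‖ ^ 2 - 4 * b ^ 2) ≥ 0 := by nlinarith
    have h5 : 0 < a ^ 2 := by positivity
    by_contra hcon
    have hcon' := not_le.mp hcon
    nlinarith
  have hrpos : 0 < ‖r‖ := by
    have h3 : 0 < ‖r‖ ^ 2 := by
      rw [hr2]
      nlinarith [sq_pos_of_pos hv']
    by_contra hcon
    have h4 : ‖r‖ = 0 := le_antisymm (not_lt.mp hcon) (norm_nonneg _)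
    rw [h4] at h3
    norm_num at h3
  set c := ‖r‖ with hc
  refine ⟨w₁, c⁻¹ • r, a, b, c, hw₁n, ?_, ?_, hu', hrpos, hua, ?_, ?_⟩
  · rw [norm_smul, norm_inv, Real.norm_eq_abs, abs_of_pos hrpos, ← hc]
    field_simp
  · rw [inner_smul_right, hr, inner_sub_right, inner_smul_right, hw11, ← hb]
    ring
  · have h6 : c • (c⁻¹ • r) = r := by rw [smul_smul, mul_inv_cancel₀ hrpos.ne', one_smul]
    rw [h6, hr]
    abel
  · rw [mul_pow, hc, hr2]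
    have h5 : 0 ≤ a ^ 2 := by positivity
    nlinarith

omit [FiniteDimensional ℝ E] [MeasurableSpace E] [BorelSpace E] in
/-- The plane attached to a pair of projected vectors. -/
lemma plane_core {j r : ℕ} (A : Fin j → E) (C : Fin r → E) (L : Submodule ℝ E)
    (hCL : ∀ l, C l ∈ L) (P : Fin j → E) (hPmem : ∀ i, P i ∈ L)
    (hvL : ∀ i z, z ∈ L → ⟪A i - P i, z⟫ = 0) {p q : Fin j}
    (hang : -(1 / 2) * (‖A p - P p‖ * ‖A q - P q‖) ≤ ⟪A p - P p, A q - P q⟫)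
    (hobt : ⟪A p - P p, A q - P q⟫ ≤ 0) (hp0 : A p - P p ≠ 0) (hq0 : A q - P q ≠ 0) :
    ∃ (w₁ w₂ : E) (a b c : ℝ), ‖w₁‖ = 1 ∧ ‖w₂‖ = 1 ∧ ⟪w₁, w₂⟫ = 0 ∧
      (∀ l, ⟪C l, w₁⟫ = 0) ∧ (∀ l, ⟪C l, w₂⟫ = 0) ∧ 0 < a ∧ 0 < c ∧
      ⟪A p, w₁⟫ = a ∧ ⟪A p, w₂⟫ = 0 ∧ ⟪A q, w₁⟫ = b ∧ ⟪A q, w₂⟫ = c ∧
      3 * (‖A p - P p‖ ^ 2 * ‖A q - P q‖ ^ 2) ≤ 4 * (a * c) ^ 2 := by
  obtain ⟨w₁, w₂, a, b, c, hw₁, hw₂, h12', ha, hc, e1, e2, hbound⟩ :=
    gram_pair (A p - P p) (A q - P q) hp0 hq0 hang hobt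
  have hw₁L : ∀ z, z ∈ L → ⟪w₁, z⟫ = 0 := by
    intro z hz
    have h1 := hvL p z hz
    rw [e1, inner_smul_left] at h1
    simp only [conj_trivial] at h1
    exact (mul_eq_zero.mp h1).resolve_left ha.ne'
  have hw₂L : ∀ z, z ∈ L → ⟪w₂, z⟫ = 0 := by
    intro z hz
    have h1 := hvL q z hz
    rw [e2, inner_add_left, inner_smul_left, inner_smul_left, hw₁L z hz] at h1
    simp only [conj_trivial, mul_zero, zero_add] at h1
    exact (mul_eq_zero.mp h1).resolve_left hc.ne'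
  have hAv : ∀ i, A i = (A i - P i) + P i := fun i => by simp
  have hw11 : ⟪w₁, w₁⟫ = 1 := by rw [real_inner_self_eq_norm_sq, hw₁]; norm_num
  have hw22 : ⟪w₂, w₂⟫ = 1 := by rw [real_inner_self_eq_norm_sq, hw₂]; norm_num
  have h21 : ⟪w₂, w₁⟫ = 0 := by rw [real_inner_comm]; exact h12'
  have hPw₁ : ∀ i, ⟪P i, w₁⟫ = 0 := fun i => by
    rw [real_inner_comm]
    exact hw₁L _ (hPmem _)
  have hPw₂ : ∀ i, ⟪P i, w₂⟫ = 0 := fun i => by
    rw [real_inner_comm]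
    exact hw₂L _ (hPmem _)
  refine ⟨w₁, w₂, a, b, c, hw₁, hw₂, h12', ?_, ?_, ha, hc, ?_, ?_, ?_, ?_, hbound⟩
  · intro l
    rw [real_inner_comm]
    exact hw₁L _ (hCL l)
  · intro l
    rw [real_inner_comm]
    exact hw₂L _ (hCL l)
  · rw [hAv p, inner_add_left, hPw₁, e1, inner_smul_left, hw11]
    simp
  · rw [hAv p, inner_add_left, hPw₂, e1, inner_smul_left, h12']
    simp
  · rw [hAv q, inner_add_left, hPw₁, e2, inner_add_left, inner_smul_left, inner_smul_left,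
      hw11, h21]
    simp
  · rw [hAv q, inner_add_left, hPw₂, e2, inner_add_left, inner_smul_left, inner_smul_left,
      h12', hw22]
    simp

/-- The numerical step of the plane lemma. -/
lemma plane_num {X Y ap aq S U V : ℝ} (hap : 0 ≤ ap) (haq : 0 ≤ aq) (hS : ap + aq ≤ S)
    (hYX : Y ≤ X) (hY3 : V ≤ Y) (hX2 : U ≤ X) (hU : 0 ≤ U) (hSV : S < V) :
    U * (V - S) ≤ (X - ap) * (Y - aq) := by
  have hX0 : 0 ≤ X := hU.trans hX2
  have h4 : X * (Y - S) ≤ (X - ap) * (Y - aq) := by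
    have h1 : 0 ≤ X - Y := by linarith
    have h2 : 0 ≤ S - aq - ap := by linarith
    nlinarith [mul_nonneg hap h1, mul_nonneg hap haq, mul_nonneg hX0 h2]
  have h5 : U * (V - S) ≤ X * (Y - S) :=
    mul_le_mul hX2 (by linarith) (by linarith) hX0
  linarith

/-- The plane. L = span of the C l, P = orthogonal projection on L, v_i = A i - P (A i).
(1) P (A i) is a nonpositive combination of the C l: write P(A i) = u - w with u, w nonnegative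
combinations on disjoint index sets; inner u (P (A i)) = inner u (A i) <= 0 and inner u w <= 0, so
norm u ^2 <= 0. (2) Hence inner (P A i) (P A i') = inner (P A i) (A i') >= 0, so v_i are pairwise obtuse
and Sum_i norm (P A i)^2 <= norm (Sum_i P A i)^2 = norm (Sum C)^2 (Sum_i P A i = -Sum C).
(3) norm v_i^2 = norm (A i)^2 - norm (P A i)^2; three_vectors on v_{i1}, v_{i2}, v_{i3} gives a pair p,q with
inner v_p v_q >= -(1/2) norm v_p norm v_q. (4) w1 = v_p/norm v_p, w2 = normalised v_q minus its w1 component;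
a = norm v_p, b = inner v_q w1, c = norm of that component, a c = wedge, (a c)^2 >= (3/4) norm v_p^2 norm v_q^2,
and (rho_p^2-a_p)(rho_q^2-a_q) >= rho_p^2 (rho_q^2 - s^2) when rho_p >= rho_q, a_p+a_q <= s^2 < rho_q^2. -/
theorem exists_plane {j r : ℕ} (A : Fin j → E) (C : Fin r → E)
    (hsum : ∑ i, A i + ∑ l, C l = 0)
    (hAA : ∀ i i', i ≠ i' → ⟪A i, A i'⟫ ≤ 0) (hAC : ∀ i l, ⟪A i, C l⟫ ≤ 0)
    (hCC : ∀ l l', l ≠ l' → ⟪C l, C l'⟫ ≤ 0)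
    {i₁ i₂ i₃ : Fin j} (h12 : i₁ ≠ i₂) (h13 : i₁ ≠ i₃) (h23 : i₂ ≠ i₃)
    (hn12 : ‖A i₂‖ ≤ ‖A i₁‖) (hn23 : ‖A i₃‖ ≤ ‖A i₂‖)
    (hs : ‖∑ l, C l‖ ^ 2 < ‖A i₃‖ ^ 2) :
    ∃ (p q : Fin j) (w₁ w₂ : E) (a b c : ℝ), p ≠ q ∧ ‖w₁‖ = 1 ∧ ‖w₂‖ = 1 ∧ ⟪w₁, w₂⟫ = 0 ∧
      (∀ l, ⟪C l, w₁⟫ = 0) ∧ (∀ l, ⟪C l, w₂⟫ = 0) ∧ 0 < a ∧ 0 < c ∧
      ⟪A p, w₁⟫ = a ∧ ⟪A p, w₂⟫ = 0 ∧ ⟪A q, w₁⟫ = b ∧ ⟪A q, w₂⟫ = c ∧
      3 * (‖A i₂‖ ^ 2 * (‖A i₃‖ ^ 2 - ‖∑ l, C l‖ ^ 2)) ≤ 4 * (a * c) ^ 2 := by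
  classical
  set L := Submodule.span ℝ (Set.range C) with hL
  have hCL : ∀ l, C l ∈ L := fun l => Submodule.subset_span ⟨l, rfl⟩
  let P : E → E := fun x => L.starProjection x
  have hPmem : ∀ x, P x ∈ L := fun x => Submodule.starProjection_apply_mem L x
  have hPorth : ∀ x z, z ∈ L → ⟪x - P x, z⟫ = 0 :=
    fun x z hz => Submodule.starProjection_inner_eq_zero x z hz
  have hPin : ∀ x z, z ∈ L → ⟪P x, z⟫ = ⟪x, z⟫ := by
    intro x z hz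
    have := hPorth x z hz
    rw [inner_sub_left] at this
    linarith
  have hneg : ∀ i, ∃ β : Fin r → ℝ, (∀ l, 0 ≤ β l) ∧ P (A i) = -∑ l, β l • C l :=
    fun i => proj_neg_comb C hCC (A i) (P (A i)) (hPmem _) (hPin _) (fun l => hAC i l)
  have hPP : ∀ i i', 0 ≤ ⟪P (A i), P (A i')⟫ := by
    intro i i'
    rw [hPin (A i) _ (hPmem _)]
    obtain ⟨β, hβ, e⟩ := hneg i'
    rw [e, inner_neg_right, inner_sum, neg_nonneg]
    apply Finset.sum_nonpos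
    intro l _
    rw [inner_smul_right]
    exact mul_nonpos_of_nonneg_of_nonpos (hβ l) (hAC i l)
  set v : Fin j → E := fun i => A i - P (A i) with hv
  have hvL : ∀ i z, z ∈ L → ⟪v i, z⟫ = 0 := fun i z hz => hPorth (A i) z hz
  have hvv : ∀ i i', i ≠ i' → ⟪v i, v i'⟫ ≤ 0 := by
    intro i i' hii
    have h1 : ⟪v i, v i'⟫ = ⟪A i, A i'⟫ - ⟪P (A i), P (A i')⟫ := by
      have h2 : ⟪v i, P (A i')⟫ = 0 := hvL i _ (hPmem _)
      have h3 : ⟪P (A i), v i'⟫ = 0 := by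
        rw [real_inner_comm]
        exact hvL i' _ (hPmem _)
      have h4 : ⟪v i, v i'⟫ = ⟪v i, A i'⟫ := by
        simp only [hv] at h2 ⊢
        rw [inner_sub_right (A i - P (A i)) (A i') (P (A i')), h2, sub_zero]
      rw [h4]
      simp only [hv] at h3 ⊢
      rw [inner_sub_left]
      have h5 : ⟪P (A i), A i'⟫ = ⟪P (A i), P (A i')⟫ := by
        rw [inner_sub_right] at h3
        linarith
      rw [h5]
    rw [h1]
    linarith [hAA i i' hii, hPP i i']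
  have hvn : ∀ i, ‖v i‖ ^ 2 = ‖A i‖ ^ 2 - ‖P (A i)‖ ^ 2 := by
    intro i
    have h2 : ⟪A i, P (A i)⟫ = ‖P (A i)‖ ^ 2 := by
      rw [← hPin (A i) _ (hPmem _), real_inner_self_eq_norm_sq]
    simp only [hv]
    rw [norm_sub_sq_real, h2]
    ring
  have hsP : ∑ i, P (A i) = -∑ l, C l := by
    have h1 : ∑ i, P (A i) = L.starProjection (∑ i, A i) := by
      simp only [P, map_sum]
    have h2 : ∑ i, A i = -∑ l, C l := eq_neg_of_add_eq_zero_left hsum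
    have h3 : L.starProjection (∑ l, C l) = ∑ l, C l :=
      Submodule.starProjection_eq_self_iff.mpr (Submodule.sum_mem _ (fun l _ => hCL l))
    rw [h1, h2, map_neg, h3]
  have hsq : ∑ i, ‖P (A i)‖ ^ 2 ≤ ‖∑ l, C l‖ ^ 2 := by
    have h1 : ‖∑ l, C l‖ ^ 2 = ∑ i, ∑ i', ⟪P (A i), P (A i')⟫ := by
      rw [← norm_neg, ← hsP, ← real_inner_self_eq_norm_sq, sum_inner]
      apply Finset.sum_congr rfl
      intro i _
      rw [inner_sum]
    rw [h1]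
    apply Finset.sum_le_sum
    intro i _
    rw [← real_inner_self_eq_norm_sq]
    exact Finset.single_le_sum (f := fun i' => ⟪P (A i), P (A i')⟫) (fun i' _ => hPP i i')
      (Finset.mem_univ i)
  have hpair : ∀ p q, p ≠ q → ‖P (A p)‖ ^ 2 + ‖P (A q)‖ ^ 2 ≤ ‖∑ l, C l‖ ^ 2 := by
    intro p q hpq
    have h1 : ∑ i ∈ ({p, q} : Finset (Fin j)), ‖P (A i)‖ ^ 2 ≤ ∑ i, ‖P (A i)‖ ^ 2 :=
      Finset.sum_le_sum_of_subset_of_nonneg (Finset.subset_univ _) (fun _ _ _ => sq_nonneg _)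
    rw [Finset.sum_pair hpq] at h1
    exact h1.trans hsq
  have hsingle : ∀ p, ‖P (A p)‖ ^ 2 ≤ ‖∑ l, C l‖ ^ 2 := by
    intro p
    exact (Finset.single_le_sum (f := fun i => ‖P (A i)‖ ^ 2) (fun _ _ => sq_nonneg _)
      (Finset.mem_univ p)).trans hsq
  have hvne : ∀ i, ‖A i₃‖ ≤ ‖A i‖ → v i ≠ 0 := by
    intro i hi hvi
    have h1 := hvn i
    rw [hvi, norm_zero] at h1
    have h2 := hsingle i
    have h3 : ‖A i₃‖ ^ 2 ≤ ‖A i‖ ^ 2 := by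
      apply pow_le_pow_left₀ (norm_nonneg _) hi
    nlinarith [sq_nonneg (0 : ℝ)]
  have key : ∀ p q, p ≠ q → ‖A i₂‖ ≤ ‖A p‖ → ‖A i₃‖ ≤ ‖A q‖ → ‖A q‖ ≤ ‖A p‖ →
      -(1 / 2) * (‖v p‖ * ‖v q‖) ≤ ⟪v p, v q⟫ →
      ∃ (p q : Fin j) (w₁ w₂ : E) (a b c : ℝ), p ≠ q ∧ ‖w₁‖ = 1 ∧ ‖w₂‖ = 1 ∧ ⟪w₁, w₂⟫ = 0 ∧
        (∀ l, ⟪C l, w₁⟫ = 0) ∧ (∀ l, ⟪C l, w₂⟫ = 0) ∧ 0 < a ∧ 0 < c ∧
        ⟪A p, w₁⟫ = a ∧ ⟪A p, w₂⟫ = 0 ∧ ⟪A q, w₁⟫ = b ∧ ⟪A q, w₂⟫ = c ∧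
        3 * (‖A i₂‖ ^ 2 * (‖A i₃‖ ^ 2 - ‖∑ l, C l‖ ^ 2)) ≤ 4 * (a * c) ^ 2 := by
    intro p q hpq hp hq hqp hang
    have hp3 : ‖A i₃‖ ≤ ‖A p‖ := hn23.trans hp
    obtain ⟨w₁, w₂, a, b, c, hw₁, hw₂, h12', hw1C, hw2C, ha, hc, e1, e2, e3, e4, hbound⟩ :=
      plane_core A C L hCL (fun i => P (A i)) (fun i => hPmem _) hvL hang (hvv p q hpq)
        (hvne p hp3) (hvne q hq)
    refine ⟨p, q, w₁, w₂, a, b, c, hpq, hw₁, hw₂, h12', hw1C, hw2C, ha, hc, e1, e2, e3, e4, ?_⟩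
    have h6 := plane_num (sq_nonneg ‖P (A p)‖) (sq_nonneg ‖P (A q)‖) (hpair p q hpq)
      (pow_le_pow_left₀ (norm_nonneg _) hqp 2) (pow_le_pow_left₀ (norm_nonneg _) hq 2)
      (pow_le_pow_left₀ (norm_nonneg _) hp 2) (sq_nonneg ‖A i₂‖) hs
    have h7 := hvn p
    have h8 := hvn q
    simp only [hv] at h7 h8
    rw [h7, h8] at hbound
    linarith
  rcases three_vectors (v i₁) (v i₂) (v i₃) (hvne _ (hn23.trans hn12)) (hvne _ hn23)
    (hvne _ le_rfl) with h | h | h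
  · exact key i₁ i₂ h12 hn12 hn23 hn12 h
  · exact key i₁ i₃ h13 hn12 le_rfl (hn23.trans hn12) h
  · exact key i₂ i₃ h23 le_rfl le_rfl hn23 h

end

end Vale.Agent.Lib.P226
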