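import Mathlib
import Vale.Agent.Lib.P226.Embed

open MeasureTheory ProbabilityTheory Real Set Filter Topology
open scoped ENNReal NNReal RealInnerProductSpace

namespace Vale.Agent.Lib.P226

set_option linter.unusedSectionVars false

noncomputable section

variable {E : Type*} [NormedAddCommGroup E] [InnerProductSpace ℝ E] [FiniteDimensional ℝ E]
  [MeasurableSpace E] [BorelSpace E]

omit [FiniteDimensional ℝ E] [MeasurableSpace E] [BorelSpace E] in
/-- Pointwise split of the maximum over two blocks. -/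
lemma Vf_block {j r : ℕ} [NeZero j] [NeZero r] (T : Fin (j + r) → E) (x : E) :
    Vf T x = Vf (fun i : Fin j => T (Fin.castAdd r i)) x +
      max 0 (Vf (fun l : Fin r => T (Fin.natAdd j l)) x -
        Vf (fun i : Fin j => T (Fin.castAdd r i)) x) := by
  set MB := Vf (fun i : Fin j => T (Fin.castAdd r i)) x with hMB
  set MS := Vf (fun l : Fin r => T (Fin.natAdd j l)) x with hMS
  have hmax : MB + max 0 (MS - MB) = max MB MS := by
    rcases le_total MS MB with h | h
    · rw [max_eq_left (by linarith), max_eq_left h]; ring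
    · rw [max_eq_right (by linarith), max_eq_right h]; ring
  rw [hmax]
  apply le_antisymm
  · apply Vf_le
    intro i
    induction i using Fin.addCases with
    | left i => exact (inner_le_Vf (fun i : Fin j => T (Fin.castAdd r i)) i x).trans (le_max_left _ _)
    | right l => exact (inner_le_Vf (fun l : Fin r => T (Fin.natAdd j l)) l x).trans (le_max_right _ _)
  · apply max_le
    · exact Vf_le (fun i => inner_le_Vf T _ x)
    · exact Vf_le (fun l => inner_le_Vf T _ x)

/-- The mean of a linear form vanishes. -/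
lemma integral_inner_gauss (t : E) : ∫ x, ⟪t, x⟫ ∂(stdGaussian E) = 0 := by
  rw [integral_inner (integrable_id_gauss (E := E))]
  have : ∫ x : E, x ∂(stdGaussian E) = 0 := integral_id_stdGaussian
  rw [this, inner_zero_right]

omit [FiniteDimensional ℝ E] [MeasurableSpace E] [BorelSpace E] in
lemma Vf_add_const {ι : Type*} [Fintype ι] [Nonempty ι] (T : ι → E) (c x : E) :
    Vf (fun l => T l + c) x = Vf T x + ⟪c, x⟫ := by
  apply le_antisymm
  · apply Vf_le
    intro l
    rw [inner_add_left]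
    linarith [inner_le_Vf T l x]
  · obtain ⟨l, hl⟩ := exists_Vf_eq T x
    rw [hl]
    have := inner_le_Vf (fun l => T l + c) l x
    simp only [inner_add_left] at this
    linarith

lemma VV_add_const {ι : Type*} [Fintype ι] [Nonempty ι] (T : ι → E) (c : E) :
    VV (fun l => T l + c) = VV T := by
  unfold VV
  simp_rw [Vf_add_const T c]
  rw [integral_add (integrable_Vf T) (integrable_inner_gauss c), integral_inner_gauss, add_zero]

/-- The gain of the second block, with a quarter of the cell mass split off. -/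
lemma block_gain_le {j r : ℕ} [NeZero j] [NeZero r] (T : Fin (j + r) → E) (hT : Opt T)
    (hV : 0 < VV T) :
    ∫ x, max 0 (Vf (fun l : Fin r => T (Fin.natAdd j l)) x -
        Vf (fun i : Fin j => T (Fin.castAdd r i)) x) ∂(stdGaussian E) ≤
      (1 / 4) * (VV T * ∑ l : Fin r, ‖T (Fin.natAdd j l)‖ ^ 2) +
      ∫ x, max 0 ((3 / 4) * Vf (fun l : Fin r => T (Fin.natAdd j l)) x -
        Vf (fun i : Fin j => T (Fin.castAdd r i)) x) ∂(stdGaussian E) := by
  set B : Fin j → E := fun i => T (Fin.castAdd r i) with hB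
  set S : Fin r → E := fun l => T (Fin.natAdd j l) with hS
  set μ := stdGaussian E with hμ
  set g : E → ℝ := fun x => max 0 (Vf S x - Vf B x) with hg
  set h : E → ℝ := fun x => max 0 ((3 / 4) * Vf S x - Vf B x) with hh
  have hgi : Integrable g μ := (integrable_zero _ _ _).sup ((integrable_Vf S).sub (integrable_Vf B))
  have hhi : Integrable h μ :=
    (integrable_zero _ _ _).sup (((integrable_Vf S).const_mul (3 / 4)).sub (integrable_Vf B))
  have hdi : Integrable (fun x => g x - h x) μ := hgi.sub hhi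
  have hP := isPart_vorCell T
  have h1 : ∫ x, (g x - h x) ∂μ = ∑ i, ∫ x in vorCell T i, (g x - h x) ∂μ :=
    (integral_part hP hdi).symm
  rw [Fin.sum_univ_add] at h1
  have h2 : ∀ i : Fin j, ∫ x in vorCell T (Fin.castAdd r i), (g x - h x) ∂μ ≤ 0 := by
    intro i
    apply setIntegral_nonpos (hP.meas _)
    intro x hx
    have hSB : Vf S x ≤ Vf B x := by
      apply Vf_le
      intro l
      exact (hx.1 (Fin.natAdd j l)).trans (inner_le_Vf B i x)
    have hg0 : g x = 0 := max_eq_left (by linarith)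
    have hh0 : 0 ≤ h x := le_max_left _ _
    linarith
  have h3 : ∀ l : Fin r, ∫ x in vorCell T (Fin.natAdd j l), (g x - h x) ∂μ ≤
      (1 / 4) * (VV T * ‖T (Fin.natAdd j l)‖ ^ 2) := by
    intro l
    have h4 : ∫ x in vorCell T (Fin.natAdd j l), (1 / 4 : ℝ) * ⟪T (Fin.natAdd j l), x⟫ ∂μ =
        (1 / 4) * (VV T * ‖T (Fin.natAdd j l)‖ ^ 2) := by
      rw [integral_const_mul, opt_inner_cell hT hV, real_inner_self_eq_norm_sq]
    rw [← h4]
    apply setIntegral_mono_on hdi.integrableOn
      (((integrable_inner_gauss _).const_mul _).integrableOn) (hP.meas _)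
    intro x hx
    have hMS : Vf S x = ⟪T (Fin.natAdd j l), x⟫ := by
      apply le_antisymm
      · apply Vf_le
        intro l'
        exact hx.1 _
      · exact inner_le_Vf S l x
    have hMB : Vf B x ≤ ⟪T (Fin.natAdd j l), x⟫ := by
      apply Vf_le
      intro i
      exact hx.1 _
    have hnn := opt_nonneg_cell hT hV hx
    have hg1 : g x = Vf S x - Vf B x := max_eq_right (by linarith)
    have hh1 : (3 / 4) * Vf S x - Vf B x ≤ h x := le_max_right _ _
    rw [hMS] at hh1 hg1
    linarith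
  have h5 : ∫ x, (g x - h x) ∂μ ≤ (1 / 4) * (VV T * ∑ l : Fin r, ‖S l‖ ^ 2) := by
    rw [h1, Finset.mul_sum, Finset.mul_sum]
    have h6 : ∑ i : Fin j, ∫ x in vorCell T (Fin.castAdd r i), (g x - h x) ∂μ ≤ 0 :=
      Finset.sum_nonpos (fun i _ => h2 i)
    have h7 : ∑ l : Fin r, ∫ x in vorCell T (Fin.natAdd j l), (g x - h x) ∂μ ≤
        ∑ l : Fin r, (1 / 4) * (VV T * ‖S l‖ ^ 2) :=
      Finset.sum_le_sum (fun l _ => h3 l)
    linarith
  rw [integral_sub hgi hhi] at h5
  linarith

/-- Group deletion at a maximizer. B = first j vectors, S = last r vectors, M_B, M_S their maxima,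
e = Sum_S T, m = Sum_S rho^2, s = norm e, a = m + s^2/j, V = VV T.
Pointwise Vf T = max M_B M_S = M_B + max 0 (M_S - M_B), and max 0 (M_S-M_B) is M_S-M_B on
A_S = union of vorCell T (natAdd j l) and 0 off A_S. On vorCell T (natAdd j l), M_S = inner (T _) x, so by
opt_inner_cell (t = T _) the integral of M_S over A_S is V m. Hence with kappa = 1/4:
delta := E max 0 (M_S-M_B) <= (1/4) V m + E max 0 ((3/4) M_S - M_B) <= (V/2) a by hcrit.
New family T'_p = (T_p + e/j)/sqrt(1-a) : Sum_p norm(T_p+e/j)^2 = 1-a (use Sum T = 0, Sum rho^2 = 1),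
VV (T_p+e/j) = VV (T_p) = V - delta as E inner e x = 0. a<1 gives VV T' >= V (1-a/2)/sqrt(1-a) >= V.
a = 1: all T_p + e/j vanish, so V - delta = 0 and delta <= V/2 contradict V>0. (Model: descent_step.) -/
theorem deletion_step {j r : ℕ} [NeZero j] [NeZero r] (T : Fin (j + r) → E) (hT : Opt T)
    (hV : 0 < VV T)
    (hcrit : ∫ x, max 0 ((3 / 4) * Vf (fun l : Fin r => T (Fin.natAdd j l)) x -
        Vf (fun i : Fin j => T (Fin.castAdd r i)) x) ∂(stdGaussian E) ≤
      (VV T / 2) * ((∑ l : Fin r, ‖T (Fin.natAdd j l)‖ ^ 2) / 2 +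
        ‖∑ l : Fin r, T (Fin.natAdd j l)‖ ^ 2 / j)) :
    ∃ T' : Fin j → E, T' ∈ (SS j : Set (Fin j → E)) ∧ VV T ≤ VV T' := by
  have hgain := block_gain_le T hT hV
  set B : Fin j → E := fun i => T (Fin.castAdd r i) with hB
  set S : Fin r → E := fun l => T (Fin.natAdd j l) with hS
  set μ := stdGaussian E with hμ
  set V := VV T with hVdef
  set e := ∑ l, S l with he
  set m := ∑ l, ‖S l‖ ^ 2 with hm
  have hj0 : (0 : ℝ) < j := by
    have : 0 < j := NeZero.pos j
    exact_mod_cast this
  have hsum0 : ∑ i, B i + e = 0 := by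
    have := opt_sum_zero hT hV
    rwa [Fin.sum_univ_add] at this
  have hsq1 : ∑ i, ‖B i‖ ^ 2 + m = 1 := by
    have := opt_sum_sq_eq hT hV
    rwa [Fin.sum_univ_add] at this
  set δ := ∫ x, max 0 (Vf S x - Vf B x) ∂μ with hδ
  have hVB : V = VV B + δ := by
    have hi : Integrable (fun x => max 0 (Vf S x - Vf B x)) μ :=
      (integrable_zero _ _ _).sup ((integrable_Vf S).sub (integrable_Vf B))
    rw [hVdef, hδ]
    unfold VV
    rw [← integral_add (integrable_Vf B) hi]
    congr 1
    ext x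
    exact Vf_block T x
  set a := m + ‖e‖ ^ 2 / j with ha
  have hδle : δ ≤ (V / 2) * a := by
    have e1 : (V / 2) * a = (1 / 4) * (V * m) + (V / 2) * (m / 2 + ‖e‖ ^ 2 / j) := by
      rw [ha]; ring
    rw [e1]
    linarith
  set c : ℝ := (j : ℝ)⁻¹ with hc
  set W : Fin j → E := fun p => B p + c • e with hW
  have hVW : VV W = VV B := VV_add_const B (c • e)
  have hnormW : ∑ p, ‖W p‖ ^ 2 = 1 - a := by
    have h1 : ∀ p, ‖W p‖ ^ 2 = ‖B p‖ ^ 2 + 2 * c * ⟪B p, e⟫ + c ^ 2 * ‖e‖ ^ 2 := by
      intro p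
      rw [hW]
      simp only
      rw [norm_add_sq_real, inner_smul_right, norm_smul, mul_pow, Real.norm_eq_abs, sq_abs]
      ring
    simp_rw [h1]
    rw [Finset.sum_add_distrib, Finset.sum_add_distrib, ← Finset.mul_sum, ← sum_inner]
    have h2 : ∑ i, B i = -e := eq_neg_of_add_eq_zero_left hsum0
    rw [h2, inner_neg_left, real_inner_self_eq_norm_sq]
    simp only [Finset.sum_const, Finset.card_univ, Fintype.card_fin, nsmul_eq_mul]
    have h3 : (j : ℝ) * c = 1 := by rw [hc]; field_simp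
    have h4 : (j : ℝ) * (c ^ 2 * ‖e‖ ^ 2) = c * ‖e‖ ^ 2 := by
      calc (j : ℝ) * (c ^ 2 * ‖e‖ ^ 2) = ((j : ℝ) * c) * (c * ‖e‖ ^ 2) := by ring
        _ = c * ‖e‖ ^ 2 := by rw [h3, one_mul]
    have h5 : ∑ x, ‖B x‖ ^ 2 = 1 - m := by linarith
    rw [h4, ha, hc, h5]
    field_simp
    ring
  have ha1 : a ≤ 1 := by
    have : 0 ≤ ∑ p, ‖W p‖ ^ 2 := Finset.sum_nonneg (fun _ _ => sq_nonneg _)
    linarith
  rcases ha1.eq_or_lt with ha1' | ha1'
  · -- all the new vectors vanish
    exfalso
    have h0 : ∑ p, ‖W p‖ ^ 2 = 0 := by rw [hnormW, ha1']; ring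
    have hW0 : ∀ p, W p = 0 := by
      intro p
      have := (Finset.sum_eq_zero_iff_of_nonneg (fun p _ => sq_nonneg (‖W p‖))).1 h0 p
        (Finset.mem_univ p)
      have h2 : ‖W p‖ = 0 := by simpa using this
      exact norm_eq_zero.mp h2
    have hVW0 : VV W = 0 := by
      unfold VV
      have : ∀ x, Vf W x = 0 := by
        intro x
        obtain ⟨p, hp⟩ := exists_Vf_eq W x
        rw [hp, hW0 p, inner_zero_left]
      simp_rw [this]
      simp
    rw [ha1'] at hδle
    rw [hVW] at hVW0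
    rw [hVW0] at hVB
    linarith
  · have h1a : 0 < 1 - a := by linarith
    set ρ := √(1 - a) with hρ
    have hρpos : 0 < ρ := Real.sqrt_pos.mpr h1a
    have hρsq : ρ ^ 2 = 1 - a := Real.sq_sqrt h1a.le
    refine ⟨fun p => ρ⁻¹ • W p, ?_, ?_⟩
    · rw [mem_SS]
      have : ∑ p, ‖ρ⁻¹ • W p‖ ^ 2 = (ρ⁻¹) ^ 2 * ∑ p, ‖W p‖ ^ 2 := by
        rw [Finset.mul_sum]
        apply Finset.sum_congr rfl
        intro p _
        rw [norm_smul, mul_pow, norm_inv, Real.norm_eq_abs, abs_of_pos hρpos]
      rw [this, hnormW, ← hρsq]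
      apply le_of_eq
      field_simp
    · rw [VV_smul W (inv_pos.mpr hρpos), hVW]
      have h3 : V * (1 - a / 2) ≤ VV B := by
        have e1 : V * (1 - a / 2) = V - (V / 2) * a := by ring
        rw [e1]
        linarith
      have h4 : ρ ≤ 1 - a / 2 := by
        have h5 : ρ ^ 2 ≤ (1 - a / 2) ^ 2 := by
          rw [hρsq]
          nlinarith [sq_nonneg a]
        exact (pow_le_pow_iff_left₀ hρpos.le (by linarith) two_ne_zero).1 h5
      rw [inv_mul_eq_div, le_div_iff₀ hρpos]
      calc V * ρ ≤ V * (1 - a / 2) := by gcongr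
        _ ≤ _ := h3

end

end Vale.Agent.Lib.P226
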