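import Mathlib
import Vale.Agent.Lib.P226.G3Triangle
import Vale.Agent.Lib.P226.G4Moment
import Vale.Agent.Lib.P226.G5Plane
import Vale.Agent.Lib.P226.G6Delete
import Vale.Agent.Lib.P226.GSound

/-!
Module M13 of the propeller proof: the numerical criterion implies deletion.
-/

open MeasureTheory ProbabilityTheory Real Set Filter Topology
open scoped ENNReal NNReal RealInnerProductSpace

namespace Vale.Agent.Lib.P226

noncomputable section

variable {E : Type*} [NormedAddCommGroup E] [InnerProductSpace ℝ E] [FiniteDimensional ℝ E]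
  [MeasurableSpace E] [BorelSpace E]

omit [FiniteDimensional ℝ E] [MeasurableSpace E] [BorelSpace E] in
/-- The square of the norm of a sum of a pairwise obtuse family is at most the sum of squares. -/
lemma norm_sum_sq_le_of_obtuse {ι : Type*} [Fintype ι] [DecidableEq ι] (C : ι → E)
    (hCC : ∀ l l', l ≠ l' → ⟪C l, C l'⟫ ≤ 0) :
    ‖∑ l, C l‖ ^ 2 ≤ ∑ l, ‖C l‖ ^ 2 := by
  rw [← real_inner_self_eq_norm_sq, sum_inner]
  apply Finset.sum_le_sum
  intro l _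
  rw [inner_sum, ← real_inner_self_eq_norm_sq]
  rw [← Finset.add_sum_erase _ _ (Finset.mem_univ l)]
  have : ∑ x ∈ Finset.univ.erase l, ⟪C l, C x⟫ ≤ 0 := by
    apply Finset.sum_nonpos
    intro x hx
    exact hCC l x (Finset.ne_of_mem_erase hx).symm
  linarith

/-- The criterion implies the deletion step. With `A = T ∘ castAdd`, `C = T ∘ natAdd`,
`e = ∑ C`, `s = ‖e‖`, `m = ∑ ‖C l‖²`, `y³ = ∑ ‖C l‖³`:
* `s² ≤ m` (obtuse family, `opt_obtuse`), `Γ > 0` forces `m < ‖A 2‖²`;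
* `exists_plane` with indices `0,1,2`: `4 (a c)² ≥ 3 ‖A 1‖² (‖A 2‖² - s²) ≥ 4 Γ²`, so `Γ ≤ a c`;
* `triangle_bound` with `β = 3/4` and `moment_bound` with `a = (3/4) j`:
  `E((3/4) M_C - M_A)_+ ≤ √(2/π) (s + (3/4) j y)³ / (12 π j a c)`;
* `hall` at `(s,y)`: this is `≤ √(2/π) (1413/100) (m/2 + s²/j) / (12 π)`;
* `1413/100 ≤ (9/2) π` and `V > (3/4) √(2/π)`: this is `≤ (V/2) (m/2 + s²/j)`.
Then `deletion_step`. -/
theorem crit_delete {j r : ℕ} [NeZero j] [NeZero r] (hj : 3 ≤ j) (T : Fin (j + r) → E) (hT : Opt T)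
    (hV : (3 / 4) * √(2 / π) < VV T)
    (h01 : ‖T ⟨1, by omega⟩‖ ≤ ‖T ⟨0, by omega⟩‖) (h12 : ‖T ⟨2, by omega⟩‖ ≤ ‖T ⟨1, by omega⟩‖)
    {Γ m : ℝ} (hΓ : 0 < Γ) (hm : m = ∑ l : Fin r, ‖T (Fin.natAdd j l)‖ ^ 2)
    (h4 : 4 * Γ ^ 2 ≤ 3 * (‖T ⟨1, by omega⟩‖ ^ 2 * (‖T ⟨2, by omega⟩‖ ^ 2 - m)))
    (hall : ∀ s y : ℝ, 0 ≤ s → s ^ 2 ≤ m → 0 ≤ y → y ^ 3 = ∑ l : Fin r, ‖T (Fin.natAdd j l)‖ ^ 3 →
      (s + 3 / 4 * j * y) ^ 3 ≤ 1413 / 100 * j * Γ * (m / 2 + s ^ 2 / j)) :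
    ∃ T' : Fin j → E, T' ∈ (SS j : Set (Fin j → E)) ∧ VV T ≤ VV T' := by
  classical
  have hc0 : 0 < √(2 / π) := Real.sqrt_pos.mpr (by positivity)
  have hVpos : 0 < VV T := lt_trans (by positivity) hV
  apply deletion_step T hT hVpos
  set A : Fin j → E := fun i => T (Fin.castAdd r i) with hA
  set C : Fin r → E := fun l => T (Fin.natAdd j l) with hC
  have hsum : ∑ i, A i + ∑ l, C l = 0 := by
    have := opt_sum_zero hT hVpos
    rwa [Fin.sum_univ_add] at this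
  have hcast : ∀ {i i' : Fin j}, i ≠ i' → Fin.castAdd r i ≠ Fin.castAdd r i' := by
    intro i i' h h'
    exact h (Fin.castAdd_injective _ _ h')
  have hnat : ∀ {l l' : Fin r}, l ≠ l' → Fin.natAdd j l ≠ Fin.natAdd j l' := by
    intro l l' h h'
    exact h (Fin.natAdd_injective _ _ h')
  have hAA : ∀ i i', i ≠ i' → ⟪A i, A i'⟫ ≤ 0 :=
    fun i i' h => opt_obtuse hT hVpos (hcast h)
  have hCC : ∀ l l', l ≠ l' → ⟪C l, C l'⟫ ≤ 0 :=
    fun l l' h => opt_obtuse hT hVpos (hnat h)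
  have hAC : ∀ i l, ⟪A i, C l⟫ ≤ 0 := by
    intro i l
    apply opt_obtuse hT hVpos
    intro h
    have h1 := congrArg Fin.val h
    simp only [Fin.val_castAdd, Fin.val_natAdd] at h1
    have := i.isLt
    omega
  set s := ‖∑ l, C l‖ with hs
  have hs0 : 0 ≤ s := norm_nonneg _
  have hsm : s ^ 2 ≤ m := by
    rw [hm]
    exact norm_sum_sq_le_of_obtuse C hCC
  have hj0 : (0 : ℝ) < j := by
    have : 0 < j := NeZero.pos j
    exact_mod_cast this
  set i₀ : Fin j := ⟨0, by omega⟩ with hi₀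
  set i₁ : Fin j := ⟨1, by omega⟩ with hi₁
  set i₂ : Fin j := ⟨2, by omega⟩ with hi₂
  have hA1 : A i₁ = T ⟨1, by omega⟩ := rfl
  have hA2 : A i₂ = T ⟨2, by omega⟩ := rfl
  have hA0 : A i₀ = T ⟨0, by omega⟩ := rfl
  have hpos : 0 < 3 * (‖A i₁‖ ^ 2 * (‖A i₂‖ ^ 2 - m)) := by
    rw [hA1, hA2]
    have : 0 < 4 * Γ ^ 2 := by positivity
    linarith
  have hfac : 0 < ‖A i₁‖ ^ 2 * (‖A i₂‖ ^ 2 - m) := by linarith
  have hA1sq : 0 ≤ ‖A i₁‖ ^ 2 := sq_nonneg _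
  have hmlt : m < ‖A i₂‖ ^ 2 := by
    by_contra hcon
    have h5 : ‖A i₂‖ ^ 2 - m ≤ 0 := by linarith
    have := mul_nonpos_of_nonneg_of_nonpos hA1sq h5
    linarith
  obtain ⟨p, q, w₁, w₂, a, b, c, hpq, hw₁, hw₂, h12', hC₁, hC₂, ha, hc, hp₁, hp₂, hq₁, hq₂, hac⟩ :=
    exists_plane A C hsum hAA hAC hCC (i₁ := i₀) (i₂ := i₁) (i₃ := i₂)
      (by simp [hi₀, hi₁, Fin.ext_iff]) (by simp [hi₀, hi₂, Fin.ext_iff])
      (by simp [hi₁, hi₂, Fin.ext_iff]) (by rw [hA0, hA1]; exact h01) (by rw [hA1, hA2]; exact h12)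
      (by linarith)
  have hacpos : 0 < a * c := mul_pos ha hc
  have hΓac : Γ ≤ a * c := by
    have h5 : 4 * Γ ^ 2 ≤ 4 * (a * c) ^ 2 := by
      have h6 : 3 * (‖A i₁‖ ^ 2 * (‖A i₂‖ ^ 2 - m)) ≤ 3 * (‖A i₁‖ ^ 2 * (‖A i₂‖ ^ 2 - s ^ 2)) := by
        have : ‖A i₁‖ ^ 2 * (‖A i₂‖ ^ 2 - m) ≤ ‖A i₁‖ ^ 2 * (‖A i₂‖ ^ 2 - s ^ 2) :=
          mul_le_mul_of_nonneg_left (by linarith) hA1sq
        linarith
      have h7 : 4 * Γ ^ 2 ≤ 3 * (‖A i₁‖ ^ 2 * (‖A i₂‖ ^ 2 - m)) := by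
        rw [hA1, hA2]; exact h4
      linarith
    have h6 : Γ ^ 2 ≤ (a * c) ^ 2 := by linarith
    exact (pow_le_pow_iff_left₀ hΓ.le hacpos.le two_ne_zero).1 h6
  have htri := triangle_bound (β := 3 / 4) hj A C hsum hpq hw₁ hw₂ h12' hC₁ hC₂ ha hc hp₁ hp₂ hq₁ hq₂
    (by norm_num)
  set Y : ℝ := (∑ l : Fin r, ‖C l‖ ^ 3) with hY
  have hY0 : 0 ≤ Y := Finset.sum_nonneg (fun _ _ => by positivity)
  set y : ℝ := Y ^ ((1 : ℝ) / 3) with hy
  have hy0 : 0 ≤ y := Real.rpow_nonneg hY0 _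
  have hy3 : y ^ 3 = Y := by
    rw [hy, ← Real.rpow_natCast, ← Real.rpow_mul hY0]
    norm_num
  have hmom := moment_bound C (a := (j : ℝ) * (3 / 4)) (y := y) (by positivity) hy0 hy3
  have hh := hall s y hs0 hsm hy0 hy3
  -- the target quantity
  set Q : ℝ := m / 2 + s ^ 2 / j with hQ
  have hm0 : 0 ≤ m := by
    rw [hm]; exact Finset.sum_nonneg (fun _ _ => by positivity)
  have hQ0 : 0 ≤ Q := by positivity
  have hpi : 1413 / 100 ≤ 9 / 2 * π := by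
    have := Real.pi_gt_d2
    linarith
  have hkey : ∫ x, (max 0 ((j : ℝ) * (3 / 4) * Vf C x + ⟪∑ l, C l, x⟫)) ^ 3 ∂(stdGaussian E) ≤
      √(2 / π) * (1413 / 100 * j * Γ * Q) := by
    refine hmom.trans ?_
    apply mul_le_mul_of_nonneg_left _ hc0.le
    have e : s + (j : ℝ) * (3 / 4) * y = s + 3 / 4 * j * y := by ring
    rw [e]
    exact hh
  have hcoef : 0 ≤ 1 / (12 * π * j * (a * c)) := by positivity
  have hm' : ∑ l, ‖C l‖ ^ 2 = m := hm.symm
  rw [hm']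
  calc ∫ x, max 0 ((3 / 4) * Vf C x - Vf A x) ∂(stdGaussian E)
      ≤ (1 / (12 * π * j * (a * c))) *
        ∫ x, (max 0 (j * (3 / 4) * Vf C x + ⟪∑ l, C l, x⟫)) ^ 3 ∂(stdGaussian E) := htri
    _ ≤ (1 / (12 * π * j * (a * c))) * (√(2 / π) * (1413 / 100 * j * Γ * Q)) :=
        mul_le_mul_of_nonneg_left hkey hcoef
    _ = √(2 / π) * ((1413 / 100) * (Γ / (a * c)) * Q) / (12 * π) := by
        field_simp
    _ ≤ √(2 / π) * ((9 / 2 * π) * 1 * Q) / (12 * π) := by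
        have h1 : Γ / (a * c) ≤ 1 := by
          rw [div_le_one hacpos]; exact hΓac
        have h2 : 0 ≤ Γ / (a * c) := by positivity
        have h3 : (1413 / 100) * (Γ / (a * c)) ≤ (9 / 2 * π) * 1 := by
          apply mul_le_mul hpi h1 h2 (by positivity)
        have h4 : (1413 / 100) * (Γ / (a * c)) * Q ≤ (9 / 2 * π) * 1 * Q :=
          mul_le_mul_of_nonneg_right h3 hQ0
        have h5 : √(2 / π) * ((1413 / 100) * (Γ / (a * c)) * Q) ≤
            √(2 / π) * ((9 / 2 * π) * 1 * Q) := mul_le_mul_of_nonneg_left h4 hc0.le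
        exact div_le_div_of_nonneg_right h5 (by positivity)
    _ = ((3 / 4) * √(2 / π) / 2) * Q := by
        field_simp
        ring
    _ ≤ (VV T / 2) * Q := by
        apply mul_le_mul_of_nonneg_right _ hQ0
        linarith

/-- A zero vector at the end can be deleted. Use `deletion_step` with `r = 1`: `Vf` of the block is
at least the mean, which is `0`, so the integrand vanishes. -/
theorem zero_delete {j : ℕ} [NeZero j] (T : Fin (j + 1) → E) (hT : Opt T) (hV : 0 < VV T)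
    (h0 : T (Fin.natAdd j 0) = 0) :
    ∃ T' : Fin j → E, T' ∈ (SS j : Set (Fin j → E)) ∧ VV T ≤ VV T' := by
  apply deletion_step T hT hV
  have hC : ∀ l : Fin 1, T (Fin.natAdd j l) = 0 := by
    intro l
    have : l = 0 := Subsingleton.elim _ _
    rw [this, h0]
  have hsum : ∑ i : Fin j, T (Fin.castAdd 1 i) = 0 := by
    have := opt_sum_zero hT hV
    rw [Fin.sum_univ_add] at this
    simpa [hC] using this
  have hVf0 : ∀ x, Vf (fun l : Fin 1 => T (Fin.natAdd j l)) x = 0 := by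
    intro x
    obtain ⟨l, hl⟩ := exists_Vf_eq (fun l : Fin 1 => T (Fin.natAdd j l)) x
    rw [hl]
    simp only [hC, inner_zero_left]
  have hVf1 : ∀ x, 0 ≤ Vf (fun i : Fin j => T (Fin.castAdd 1 i)) x := by
    intro x
    by_contra hcon
    have hlt : Vf (fun i : Fin j => T (Fin.castAdd 1 i)) x < 0 := not_le.mp hcon
    have h1 : ∑ i : Fin j, ⟪T (Fin.castAdd 1 i), x⟫ < 0 := by
      apply Finset.sum_neg
      · intro i _
        exact (inner_le_Vf (fun i : Fin j => T (Fin.castAdd 1 i)) i x).trans_lt hlt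
      · exact ⟨⟨0, NeZero.pos j⟩, Finset.mem_univ _⟩
    rw [← sum_inner, hsum, inner_zero_left] at h1
    exact lt_irrefl _ h1
  have h1 : ∀ x, max 0 ((3 / 4) * Vf (fun l : Fin 1 => T (Fin.natAdd j l)) x -
      Vf (fun i : Fin j => T (Fin.castAdd 1 i)) x) = 0 := by
    intro x
    rw [hVf0 x]
    apply max_eq_left
    have := hVf1 x
    linarith
  simp_rw [h1]
  simp only [integral_zero]
  have hj0 : (0 : ℝ) < j := by
    have : 0 < j := NeZero.pos j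
    exact_mod_cast this
  positivity

end

end Vale.Agent.Lib.P226
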