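import Mathlib
import Vale.Agent.Lib.P226.Embed

open MeasureTheory ProbabilityTheory Real Set Filter Topology
open scoped ENNReal NNReal RealInnerProductSpace

namespace Vale.Agent.Lib.P226

set_option linter.unusedSectionVars false

noncomputable section

variable {E : Type*} [NormedAddCommGroup E] [InnerProductSpace ℝ E] [FiniteDimensional ℝ E]
  [MeasurableSpace E] [BorelSpace E]

/-- The first absolute moment of the standard Gaussian. -/
lemma integral_abs_NN : ∫ s, |s| ∂NN = √(2 / π) := by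
  have h1 : ∀ s : ℝ, |s| = 2 * max (s - 0) 0 - s := by
    intro s
    rw [sub_zero]
    rcases le_total 0 s with h | h
    · rw [abs_of_nonneg h, max_eq_left h]
      ring
    · rw [abs_of_nonpos h, max_eq_right h]
      ring
  simp_rw [h1]
  rw [integral_sub ((integrable_max_sub 0).const_mul 2) integrable_id_NN, integral_const_mul]
  have h2 : ∫ s, max (s - 0) 0 ∂NN = phi0 := HH_zero
  have h3 : ∫ s, s ∂NN = 0 := integral_id_gaussianReal
  rw [h2, h3, sub_zero]
  unfold phi0
  have hpi := Real.pi_pos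
  have h4 : (√(2 / π)) = 2 * (√(2 * π))⁻¹ := by
    rw [eq_comm, ← div_eq_mul_inv, div_eq_iff (by positivity)]
    rw [← Real.sqrt_mul (by positivity)]
    have : 2 / π * (2 * π) = 2 ^ 2 := by
      field_simp
    rw [this, Real.sqrt_sq (by norm_num)]
  rw [h4]

/-- The absolute moment of a linear form. -/
lemma integral_abs_inner (t : E) : ∫ x, |⟪t, x⟫| ∂(stdGaussian E) = ‖t‖ * √(2 / π) := by
  have h := integral_inner_comp t (f := fun s => |s|) (by fun_prop)
  rw [h]
  simp_rw [abs_mul, abs_of_nonneg (norm_nonneg t)]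
  rw [integral_const_mul, integral_abs_NN]

lemma max3_add (a b c : ℝ) :
    max a (max b c) + max (-a) (max (-b) (-c)) = (|a - b| + |a - c| + |b - c|) / 2 := by
  simp only [max_def, abs_eq_max_neg]
  split_ifs <;> linarith

lemma Vf_three (T : Fin 3 → E) (x : E) :
    Vf T x = max ⟪T 0, x⟫ (max ⟪T 1, x⟫ ⟪T 2, x⟫) := by
  apply le_antisymm
  · apply Vf_le
    intro i
    fin_cases i
    · exact le_max_left _ _
    · exact (le_max_left _ _).trans (le_max_right _ _)
    · exact (le_max_right _ _).trans (le_max_right _ _)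
  · refine max_le (inner_le_Vf T 0 x) (max_le (inner_le_Vf T 1 x) (inner_le_Vf T 2 x))

/-- Exact value for three vectors: with a=X1, b=X2, c=X3 (X_i the linear form of T i),
max-min = (|a-b|+|a-c|+|b-c|)/2 and E max = -E min by the symmetry x -> -x, so
E max = (1/4) sqrt(2/pi) (D12+D13+D23), D_ij = norm (T i - T j);
Sum D <= sqrt 3 sqrt(Sum D^2), Sum D^2 = 3 Sum rho^2 - norm(Sum T)^2 <= 3. -/
theorem VV_three_le (T : Fin 3 → E) (hT : T ∈ (SS 3 : Set (Fin 3 → E))) :
    VV T ≤ (3 / 4) * √(2 / π) := by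
  have hneg : VV T = VV (fun i => -T i) :=
    VV_eq_of_gram T (fun i => -T i) (fun i j => by simp)
  -- the pointwise identity
  have hpt : ∀ x, Vf T x + Vf (fun i => -T i) x =
      (|⟪T 0 - T 1, x⟫| + |⟪T 0 - T 2, x⟫| + |⟪T 1 - T 2, x⟫|) / 2 := by
    intro x
    rw [Vf_three, Vf_three]
    simp only [inner_neg_left, inner_sub_left]
    exact max3_add _ _ _
  have hint : Integrable (Vf (fun i => -T i)) (stdGaussian E) := integrable_Vf _
  have hsum : VV T + VV (fun i => -T i) =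
      (‖T 0 - T 1‖ + ‖T 0 - T 2‖ + ‖T 1 - T 2‖) * √(2 / π) / 2 := by
    unfold VV
    rw [← integral_add (integrable_Vf T) hint]
    simp_rw [hpt]
    have hi : ∀ t : E, Integrable (fun x => |⟪t, x⟫|) (stdGaussian E) := fun t =>
      (integrable_inner_gauss t).abs
    have h12 : Integrable (fun x => |⟪T 0 - T 1, x⟫| + |⟪T 0 - T 2, x⟫|) (stdGaussian E) :=
      (hi _).add (hi _)
    rw [integral_div, integral_add h12 (hi _), integral_add (hi _) (hi _),
      integral_abs_inner, integral_abs_inner, integral_abs_inner]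
    ring
  -- the sum of the distances
  have hS : ‖T 0‖ ^ 2 + ‖T 1‖ ^ 2 + ‖T 2‖ ^ 2 ≤ 1 := by
    have := mem_SS.mp hT
    rwa [Fin.sum_univ_three] at this
  have hD : ‖T 0 - T 1‖ + ‖T 0 - T 2‖ + ‖T 1 - T 2‖ ≤ 3 := by
    have h1 := norm_sub_sq_real (T 0) (T 1)
    have h2 := norm_sub_sq_real (T 0) (T 2)
    have h3 := norm_sub_sq_real (T 1) (T 2)
    have h4 : 0 ≤ ‖T 0 + T 1 + T 2‖ ^ 2 := by positivity
    have h5 : ‖T 0 + T 1 + T 2‖ ^ 2 = ‖T 0‖ ^ 2 + ‖T 1‖ ^ 2 + ‖T 2‖ ^ 2 +
        2 * (⟪T 0, T 1⟫ + ⟪T 0, T 2⟫ + ⟪T 1, T 2⟫) := by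
      rw [norm_add_sq_real, norm_add_sq_real, inner_add_left]
      ring
    set d1 := ‖T 0 - T 1‖
    set d2 := ‖T 0 - T 2‖
    set d3 := ‖T 1 - T 2‖
    have h6 : d1 ^ 2 + d2 ^ 2 + d3 ^ 2 ≤ 3 := by nlinarith
    nlinarith [sq_nonneg (d1 - d2), sq_nonneg (d1 - d3), sq_nonneg (d2 - d3),
      norm_nonneg (T 0 - T 1), norm_nonneg (T 0 - T 2), norm_nonneg (T 1 - T 2)]
  have hpos : 0 ≤ √(2 / π) := Real.sqrt_nonneg _
  nlinarith

/-- Padding: families with at most three vectors. -/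
theorem VV_le_of_le_three {k : ℕ} [NeZero k] (hk : k ≤ 3) (T : Fin k → E)
    (hT : T ∈ (SS k : Set (Fin k → E))) : VV T ≤ (3 / 4) * √(2 / π) := by
  set T' : Fin 3 → E := fun i => if h : i.val < k then T ⟨i.val, h⟩ else 0 with hT'
  have hmem : T' ∈ (SS 3 : Set (Fin 3 → E)) := by
    rw [mem_SS]
    have h1 := mem_SS.mp hT
    set g : ℕ → ℝ := fun n => if h : n < k then ‖T ⟨n, h⟩‖ ^ 2 else 0 with hg
    have e1 : ∑ i : Fin 3, ‖T' i‖ ^ 2 = ∑ n ∈ Finset.range 3, g n := by
      rw [← Fin.sum_univ_eq_sum_range]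
      refine Finset.sum_congr rfl fun i _ => ?_
      simp only [hT', hg]
      split_ifs <;> simp
    have e2 : ∑ i : Fin k, ‖T i‖ ^ 2 = ∑ n ∈ Finset.range k, g n := by
      rw [← Fin.sum_univ_eq_sum_range]
      refine Finset.sum_congr rfl fun i _ => ?_
      simp only [hg]
      rw [dif_pos i.isLt]
    have e3 : ∑ n ∈ Finset.range k, g n = ∑ n ∈ Finset.range 3, g n := by
      refine Finset.sum_subset (Finset.range_subset_range.mpr hk) fun n _ hn => ?_
      simp only [hg]
      rw [dif_neg]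
      simpa using hn
    rw [e1, ← e3, ← e2]
    exact h1
  refine le_trans ?_ (VV_three_le T' hmem)
  unfold VV
  refine integral_mono (integrable_Vf T) (integrable_Vf T') fun x => ?_
  refine Vf_le fun i => ?_
  have h2 : T i = T' ⟨i.val, by omega⟩ := by
    simp [hT']
  rw [h2]
  exact inner_le_Vf T' _ x

end

end Vale.Agent.Lib.P226
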