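import Mathlib
import Vale.Agent.Lib.P226.Embed
import Vale.Agent.Lib.P226.G1K3
import Vale.Agent.Lib.P226.G12Prof
import Vale.Agent.Lib.P226.G13Crit

/-!
Module M14 of the propeller proof: the induction.
-/

open MeasureTheory ProbabilityTheory Real Set Filter Topology
open scoped ENNReal NNReal RealInnerProductSpace

namespace Vale.Agent.Lib.P226

set_option linter.unusedSectionVars false
set_option linter.style.haveILetI false

noncomputable section

/-- The statement for `k` vectors, in all spaces. -/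
def PP (k : ℕ) : Prop :=
  ∀ (hk : 0 < k) (E : Type) [NormedAddCommGroup E] [InnerProductSpace ℝ E] [FiniteDimensional ℝ E]
    [MeasurableSpace E] [BorelSpace E] (T : Fin k → E),
    haveI : NeZero k := ⟨hk.ne'⟩
    T ∈ (SS k : Set (Fin k → E)) → VV T ≤ (3 / 4) * √(2 / π)

section Perm

variable {E : Type} [NormedAddCommGroup E] [InnerProductSpace ℝ E] [FiniteDimensional ℝ E]
  [MeasurableSpace E] [BorelSpace E]

omit [FiniteDimensional ℝ E] [MeasurableSpace E] [BorelSpace E] in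
lemma Vf_comp_perm {k : ℕ} [NeZero k] (T : Fin k → E) (σ : Equiv.Perm (Fin k)) (x : E) :
    Vf (T ∘ σ) x = Vf T x := by
  unfold Vf
  exact σ.iSup_comp (g := fun i => ⟪T i, x⟫)

lemma VV_comp_perm {k : ℕ} [NeZero k] (T : Fin k → E) (σ : Equiv.Perm (Fin k)) :
    VV (T ∘ σ) = VV T := by
  unfold VV
  simp_rw [Vf_comp_perm]

omit [FiniteDimensional ℝ E] [MeasurableSpace E] [BorelSpace E] in
lemma comp_perm_mem_SS {k : ℕ} {T : Fin k → E} (hT : T ∈ (SS k : Set (Fin k → E)))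
    (σ : Equiv.Perm (Fin k)) : T ∘ σ ∈ (SS k : Set (Fin k → E)) := by
  rw [mem_SS] at hT ⊢
  have h := Equiv.sum_comp σ (fun i => ‖T i‖ ^ 2)
  simp only [Function.comp]
  rw [h]
  exact hT

lemma opt_comp_perm {k : ℕ} [NeZero k] {T : Fin k → E} (hT : Opt T) (σ : Equiv.Perm (Fin k)) :
    Opt (T ∘ σ) := by
  refine ⟨comp_perm_mem_SS hT.mem σ, fun T' hT' => ?_⟩
  rw [VV_comp_perm]
  exact hT.max T' hT'

omit [InnerProductSpace ℝ E] [FiniteDimensional ℝ E] [MeasurableSpace E] [BorelSpace E] in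
lemma exists_sorted {k : ℕ} (S : Fin k → E) :
    ∃ σ : Equiv.Perm (Fin k), ∀ i j : Fin k, i ≤ j → ‖(S ∘ σ) j‖ ≤ ‖(S ∘ σ) i‖ := by
  refine ⟨Tuple.sort (fun i => -‖S i‖), ?_⟩
  intro i j hij
  have h := Tuple.monotone_sort (fun i => -‖S i‖) hij
  simp only [Function.comp] at h ⊢
  linarith

omit [FiniteDimensional ℝ E] [MeasurableSpace E] [BorelSpace E] in
lemma rhoOf_lt {k : ℕ} (S : Fin k → E) {i : ℕ} (h : i < k) : rhoOf S i = ‖S ⟨i, h⟩‖ := by
  simp only [rhoOf, dif_pos h]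

omit [FiniteDimensional ℝ E] [MeasurableSpace E] [BorelSpace E] in
lemma sum_Ico_rhoOf {j r : ℕ} (S : Fin (j + r) → E) (p : ℕ) :
    ∑ i ∈ Finset.Ico j (j + r), rhoOf S i ^ p = ∑ l : Fin r, ‖S (Fin.natAdd j l)‖ ^ p := by
  rw [Finset.sum_Ico_eq_sum_range]
  simp only [Nat.add_sub_cancel_left]
  rw [Finset.sum_range]
  refine Finset.sum_congr rfl fun l _ => ?_
  have hl : j + l.val < j + r := by omega
  rw [rhoOf_lt S hl]
  rfl

/-- The criterion in the form of `PcCrit` gives the deletion. -/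
lemma delete_of_crit {j r : ℕ} [NeZero j] [NeZero r] (hj : 3 ≤ j) (S : Fin (j + r) → E)
    (hS : Opt S) (hV : (3 / 4) * √(2 / π) < VV S)
    (hanti : ∀ i l : Fin (j + r), i ≤ l → ‖S l‖ ≤ ‖S i‖)
    (hcrit : PcCrit (j + r) (rhoOf S) j) :
    ∃ T' : Fin j → E, T' ∈ (SS j : Set (Fin j → E)) ∧ VV S ≤ VV T' := by
  obtain ⟨Γ, hΓ, h4, hall⟩ := hcrit
  have hM : pcM (j + r) (rhoOf S) j = ∑ l : Fin r, ‖S (Fin.natAdd j l)‖ ^ 2 := sum_Ico_rhoOf S 2
  have hρ1 : rhoOf S 1 = ‖S ⟨1, by omega⟩‖ := rhoOf_lt S _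
  have hρ2 : rhoOf S 2 = ‖S ⟨2, by omega⟩‖ := rhoOf_lt S _
  refine crit_delete hj S hS hV (hanti _ _ (by simp)) (hanti _ _ (by simp))
    hΓ hM ?_ ?_
  · rw [← hρ1, ← hρ2]
    exact h4
  · intro s y hs hsm hy hyy
    apply hall s y hs hsm hy
    rw [hyy]
    exact (sum_Ico_rhoOf S 3).symm

end Perm

/-- It suffices to bound maximizers in `EN N`, `k ≤ N + 1`. -/
theorem PP_of_EN {k N : ℕ} (hN : k ≤ N + 1)
    (H : ∀ [NeZero k] (S : Fin k → EN N), Opt S → VV S ≤ (3 / 4) * √(2 / π)) : PP k := by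
  intro hk E _ _ _ _ _ T
  haveI : NeZero k := ⟨hk.ne'⟩
  intro hT
  obtain ⟨S₀, hS₀, hmax⟩ := exists_opt (E := E) k
  have h1 : VV T ≤ VV S₀ := hmax T hT
  by_cases hV : VV S₀ ≤ 0
  · exact h1.trans (hV.trans (by positivity))
  push Not at hV
  have hopt : Opt S₀ := ⟨hS₀, hmax⟩
  have hsum := opt_sum_zero hopt hV
  obtain ⟨n, rfl⟩ : ∃ n, k = n + 1 := ⟨k - 1, by omega⟩
  have hfin := finrank_span_of_sum_zero (n := n) S₀ hsum
  obtain ⟨S', hS'⟩ := exists_embedding (D := N) S₀ (hfin.trans (by omega))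
  have hS'mem : S' ∈ (SS (n + 1) : Set (Fin (n + 1) → EN N)) := by
    rw [mem_SS]
    have : ∀ i, ‖S' i‖ ^ 2 = ‖S₀ i‖ ^ 2 := by
      intro i
      rw [← real_inner_self_eq_norm_sq, ← real_inner_self_eq_norm_sq]
      exact (hS' i i).symm
    simp_rw [this]
    exact hS₀
  have h2 : VV S₀ = VV S' := VV_eq_of_gram S₀ S' hS'
  obtain ⟨S, hS, hSmax⟩ := exists_opt (E := EN N) (n + 1)
  have h3 := hSmax S' hS'mem
  have h4 := H S ⟨hS, hSmax⟩
  linarith

lemma contra_of_delete {j k N : ℕ} [NeZero j] (hjk : j < k) (IH : ∀ j, j < k → PP j)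
    (T' : Fin j → EN N) (hT' : T' ∈ (SS j : Set (Fin j → EN N))) {V : ℝ} (hle : V ≤ VV T')
    (hV : (3 / 4) * √(2 / π) < V) : False := by
  have h := IH j hjk (NeZero.pos j) (EN N) T' hT'
  linarith

/-- The reduction of the induction step to the criterion for sorted maximizers. -/
theorem step_aux {k N : ℕ} (hk : 4 ≤ k) (hN : k ≤ N + 1) (IH : ∀ j, j < k → PP j)
    (H : ∀ [NeZero k] (S : Fin k → EN N), Opt S → (3 / 4) * √(2 / π) < VV S →
      (∀ i j : Fin k, i ≤ j → ‖S j‖ ≤ ‖S i‖) → (∀ i, S i ≠ 0) →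
      ∃ j, 3 ≤ j ∧ j < k ∧ PcCrit k (rhoOf S) j) : PP k := by
  apply PP_of_EN hN
  intro _ S hS
  by_contra hcon
  push Not at hcon
  obtain ⟨σ, hσ⟩ := exists_sorted S
  have hopt : Opt (S ∘ σ) := opt_comp_perm hS σ
  have hV : (3 / 4) * √(2 / π) < VV (S ∘ σ) := by
    rw [VV_comp_perm]
    exact hcon
  have hV0 : 0 < VV (S ∘ σ) := lt_of_le_of_lt (by positivity) hV
  by_cases h0 : ∃ i, (S ∘ σ) i = 0
  · obtain ⟨i, hi⟩ := h0
    obtain ⟨n, rfl⟩ : ∃ n, k = n + 1 := ⟨k - 1, by omega⟩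
    haveI : NeZero n := ⟨by omega⟩
    have hlast : (S ∘ σ) (Fin.natAdd n 0) = 0 := by
      have hle : i ≤ Fin.natAdd n 0 := by
        rw [Fin.le_def]
        simp only [Fin.val_natAdd, Fin.val_zero]
        omega
      have h2 := hσ i _ hle
      rw [hi, norm_zero] at h2
      exact norm_le_zero_iff.mp h2
    obtain ⟨T', hT', hle⟩ := zero_delete (S ∘ σ) hopt hV0 hlast
    exact contra_of_delete (by omega) IH T' hT' hle hV
  · push Not at h0
    obtain ⟨j, hj3, hjk, hcrit⟩ := H (S ∘ σ) hopt hV hσ h0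
    obtain ⟨r, rfl⟩ : ∃ r, k = j + r := ⟨k - j, by omega⟩
    haveI : NeZero j := ⟨by omega⟩
    haveI : NeZero r := ⟨by omega⟩
    obtain ⟨T', hT', hle⟩ := delete_of_crit hj3 (S ∘ σ) hopt hV hσ hcrit
    exact contra_of_delete (by omega) IH T' hT' hle hV

lemma rhoOf_le_of_opt {k N : ℕ} [NeZero k] {S : Fin k → EN N} (hS : Opt S)
    (hV : (3 / 4) * √(2 / π) < VV S) (i : ℕ) : rhoOf S i ≤ ((11264 : ℕ) : ℝ) / 16384 := by
  unfold rhoOf
  split_ifs with h
  · have := norm_le_of_opt hS hV ⟨i, h⟩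
    push_cast
    exact this
  · positivity

/-- Reduction of the general space to `EN N`, `N ≥ k - 1`: a maximizer `T₀` in `E` has zero sum
(or `VV ≤ 0`), span of dimension `≤ k - 1` (`finrank_span_of_sum_zero`), embeds in `EN N`
(`exists_embedding`, `VV_eq_of_gram`). So it suffices to bound a maximizer `S` in `EN N`. Then a
maximizer with a zero vector or a sorted one: permute by `Tuple.sort` (VV, SS, Opt are invariant
under permutation of indices); a zero vector is at the end and `zero_delete` with `PP (k-1)` gives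
the claim. Otherwise `PcProf` by `prof_of_opt`.

This theorem is the whole induction step for `k ≥ 5`: `check_sound` gives `j` with `3 ≤ j < k`
and `PcCrit k ρ j`, write `k = j + r`, `crit_delete` (with the sums over `Fin r` converted to the
sums over `Ico j k`), and `PP j` bounds `VV T'`. -/
theorem step_of_class {k N : ℕ} (hk : 5 ≤ k) (hN : k ≤ N + 1) (c : PcClass) (t : PcT)
    (hK : c.K0 ≤ k) (hc : ClassOK c N) (hv : c.valid = true)
    (hch : t.check c 0 11264 0 11264 0 11264 0 11264 0 11264 = true)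
    (IH : ∀ j, j < k → PP j) : PP k := by
  refine step_aux (by omega) hN IH ?_
  intro _ S hS hV hanti hpos
  have hprof := prof_of_opt c hS hV hanti hpos hK hc
  have hle := rhoOf_le_of_opt hS hV
  have h0 : ∀ i, ((0 : ℕ) : ℝ) / 16384 ≤ rhoOf S i := fun i => by
    simpa using hprof.nonneg i
  exact check_sound hprof hv t 0 11264 0 11264 0 11264 0 11264 0 11264 hch (h0 _) (hle _) (h0 _)
    (hle _) (h0 _) (hle _) (h0 _) (hle _) (h0 _) (hle _)

lemma sqrt_two_div_pi_eq : √(2 / π) = 2 * phi0 := by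
  unfold phi0
  have hpi := Real.pi_pos
  rw [eq_comm, ← div_eq_mul_inv, div_eq_iff (by positivity)]
  rw [← Real.sqrt_mul (by positivity)]
  have : 2 / π * (2 * π) = 2 ^ 2 := by
    field_simp
  rw [this, Real.sqrt_sq (by norm_num)]

/-- The cell measures sum to one. -/
lemma sum_real_part {ι : Type*} [Fintype ι] {E : Type*} [NormedAddCommGroup E]
    [InnerProductSpace ℝ E] [FiniteDimensional ℝ E] [MeasurableSpace E] [BorelSpace E]
    {A : ι → Set E} (hA : IsPart A) : ∑ i, (stdGaussian E).real (A i) = 1 := by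
  have h := integral_part hA (f := fun _ => (1 : ℝ)) (integrable_const _)
  simpa [setIntegral_const] using h

/-- The case `k = 4`: same as `step_of_class`, with `N = 3` and the box from `four_balanced`
(`ρ 3 ≤ 317/1000 ≤ c3/16384`, `ρ 4 = 0`), using `cone_three` and strictness `V > (3/2) φ0`. -/
theorem step_four (c : PcClass) (t : PcT) (hK : c.K0 ≤ 4) (hc : ClassOK c 3) (hv : c.valid = true)
    (hch : t.check c 0 11264 0 11264 0 11264 0 5194 0 0 = true)
    (IH : ∀ j, j < 4 → PP j) : PP 4 := by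
  refine step_aux (N := 3) le_rfl (by norm_num) IH ?_
  intro _ S hS hV hanti hpos
  have hprof := prof_of_opt c hS hV hanti hpos hK hc
  have hle := rhoOf_le_of_opt hS hV
  have h0 : ∀ i, ((0 : ℕ) : ℝ) / 16384 ≤ rhoOf S i := fun i => by
    simpa using hprof.nonneg i
  have hV0 : 0 < VV S := lt_of_le_of_lt (by positivity) hV
  have hnorm : ∀ i, 0 < ‖S i‖ := fun i => norm_pos_iff.mpr (hpos i)
  have hφ := phi0_pos
  have hbal : ∃ i, ‖S i‖ ≤ 317 / 1000 := by
    refine four_balanced (μ := fun i => (stdGaussian (EN 3)).real (vorCell S i)) hnorm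
      (fun i => measureReal_nonneg) (opt_sum_sq_eq hS hV0) (sum_real_part (isPart_vorCell S)) ?_
    intro i
    have hu : ‖‖S i‖⁻¹ • S i‖ = 1 := by
      rw [norm_smul, norm_inv, norm_norm]
      exact inv_mul_cancel₀ (hnorm i).ne'
    have h1 := cone_three ((isPart_vorCell S).meas i)
      (fun c x hc => vorCell_cone S i c x hc) hu
    rw [moment_cell hS hV0 i (hpos i)] at h1
    have h2 : (3 / 2) * phi0 < VV S := by
      rw [sqrt_two_div_pi_eq] at hV
      linarith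
    have h3 : (3 / 2) * phi0 * ‖S i‖ < VV S * ‖S i‖ := mul_lt_mul_of_pos_right h2 (hnorm i)
    have h4 : phi0 * (3 / 2 * ‖S i‖) < phi0 * (4 * ((stdGaussian (EN 3)).real (vorCell S i) *
        (1 - (stdGaussian (EN 3)).real (vorCell S i)))) := by
      nlinarith
    exact lt_of_mul_lt_mul_left h4 hφ.le
  obtain ⟨i, hi⟩ := hbal
  have h3 : rhoOf S 3 ≤ ((5194 : ℕ) : ℝ) / 16384 := by
    rw [rhoOf_lt S (by norm_num : 3 < 4)]
    have h5 : ‖S ⟨3, by norm_num⟩‖ ≤ ‖S i‖ := by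
      apply hanti
      rw [Fin.le_def]
      have := i.isLt
      simp only
      omega
    have h6 : ((5194 : ℕ) : ℝ) = 5194 := by norm_num
    rw [h6]
    have : (317 / 1000 : ℝ) ≤ 5194 / 16384 := by norm_num
    linarith
  have h4 : rhoOf S 4 ≤ ((0 : ℕ) : ℝ) / 16384 := by
    have := (hprof.supp 4 le_rfl).1
    rw [this]
    simp
  exact check_sound hprof hv t 0 11264 0 11264 0 11264 0 5194 0 0 hch (h0 _) (hle _) (h0 _)
    (hle _) (h0 _) (hle _) (h0 _) h3 (h0 _) h4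

/-- Up to three vectors: `VV_le_of_le_three`. -/
theorem PP_le_three {k : ℕ} (hk : k ≤ 3) : PP k := by
  intro h0 E _ _ _ _ _ T
  haveI : NeZero k := ⟨h0.ne'⟩
  exact VV_le_of_le_three hk T

/-- From vectors to partitions (see `family_of_partition`): with `F = ∑ ‖z i‖²`, `N = √F`,
`T i = z i / N` is in `SS k` and `VV T ≥ N` by `sum_inner_le_VV`, so `F ≤ (9/8π)`. -/
theorem partition_le_of_PP {k : ℕ} (h : PP k) {E : Type} [NormedAddCommGroup E]
    [InnerProductSpace ℝ E] [FiniteDimensional ℝ E] [MeasurableSpace E] [BorelSpace E]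
    (A : Fin k → Set E) (hA : IsPart A) : ∑ i, ‖zz (A i)‖ ^ 2 ≤ 9 / (8 * π) := by
  set F := ∑ i, ‖zz (A i)‖ ^ 2 with hFdef
  have hF0 : 0 ≤ F := Finset.sum_nonneg (fun _ _ => sq_nonneg _)
  have hpi := Real.pi_pos
  rcases hF0.eq_or_lt with h0 | hFpos
  · rw [← h0]
    positivity
  have hk : 0 < k := by
    rcases Nat.eq_zero_or_pos k with rfl | h1
    · simp [hFdef] at hFpos
    · exact h1
  haveI : NeZero k := ⟨hk.ne'⟩
  set N := √F with hN
  have hNpos : 0 < N := Real.sqrt_pos.mpr hFpos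
  have hNsq : N ^ 2 = F := Real.sq_sqrt hFpos.le
  set T : Fin k → E := fun i => N⁻¹ • zz (A i) with hT
  have hTS : T ∈ (SS k : Set (Fin k → E)) := by
    rw [mem_SS]
    have : ∑ i, ‖N⁻¹ • zz (A i)‖ ^ 2 = (N⁻¹) ^ 2 * F := by
      rw [hFdef, Finset.mul_sum]
      apply Finset.sum_congr rfl
      intro i _
      rw [norm_smul, mul_pow, norm_inv, Real.norm_eq_abs, abs_of_pos hNpos]
    rw [this, ← hNsq]
    apply le_of_eq
    field_simp
  have hVT : N ≤ VV T := by
    have h1 := sum_inner_le_VV hA T id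
    have h2 : ∑ l, ⟪T (id l), zz (A l)⟫ = N := by
      have : ∀ l, ⟪T (id l), zz (A l)⟫ = N⁻¹ * ‖zz (A l)‖ ^ 2 := by
        intro l
        simp [hT, inner_smul_left]
      simp_rw [this]
      rw [← Finset.mul_sum, ← hFdef, ← hNsq]
      field_simp
    rwa [h2] at h1
  have h3 : VV T ≤ (3 / 4) * √(2 / π) := h hk E T hTS
  have h4 : N ≤ (3 / 4) * √(2 / π) := hVT.trans h3
  have h5 : N ^ 2 ≤ ((3 / 4) * √(2 / π)) ^ 2 := pow_le_pow_left₀ hNpos.le h4 2
  have h6 : ((3 / 4) * √(2 / π)) ^ 2 = 9 / (8 * π) := by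
    rw [mul_pow, Real.sq_sqrt (by positivity)]
    field_simp
    norm_num
  calc F = N ^ 2 := hNsq.symm
    _ ≤ _ := h5
    _ = _ := h6

end

end Vale.Agent.Lib.P226
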