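import Mathlib
import Vale.Agent.Lib.P226.G10Tan

/-!
Half-space lines for the cell measure, valid in every dimension.
For every measurable set `A`, unit `u` and `a`: `∫_A ⟨u,x⟩ ≤ a γ(A) + HH a`.
-/

open MeasureTheory ProbabilityTheory Real Set Filter Topology
open scoped ENNReal NNReal RealInnerProductSpace

namespace Vale.Agent.Lib.P226

noncomputable section

variable {E : Type*} [NormedAddCommGroup E] [InnerProductSpace ℝ E] [FiniteDimensional ℝ E]
  [MeasurableSpace E] [BorelSpace E]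

/-- The half-space inequality. -/
lemma half_moment {A : Set E} (hA : MeasurableSet A) {u : E} (hu : ‖u‖ = 1) (a : ℝ) :
    ∫ x in A, ⟪u, x⟫ ∂(stdGaussian E) ≤ a * (stdGaussian E).real A + HH a := by
  have i1 : Integrable (fun x : E => max (⟪u, x⟫ - a) 0) (stdGaussian E) := integrable_max_inner u a
  have h1 : ∫ x in A, ⟪u, x⟫ ∂(stdGaussian E) ≤ ∫ x in A, (a + max (⟪u, x⟫ - a) 0) ∂(stdGaussian E) := by
    apply setIntegral_mono (integrable_inner_gauss _).integrableOn
      ((integrable_const a).add i1).integrableOn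
    intro x
    have := le_max_left (⟪u, x⟫ - a) 0
    show ⟪u, x⟫ ≤ a + max (⟪u, x⟫ - a) 0
    linarith
  refine h1.trans ?_
  rw [integral_add (integrable_const a).integrableOn i1.integrableOn]
  have h2 : ∫ x in A, a ∂(stdGaussian E) = a * (stdGaussian E).real A := by
    simp [mul_comm]
  rw [h2]
  have h3 : ∫ x in A, max (⟪u, x⟫ - a) 0 ∂(stdGaussian E) ≤ ∫ x, max (⟪u, x⟫ - a) 0 ∂(stdGaussian E) :=
    setIntegral_le_integral i1 (Filter.Eventually.of_forall fun _ => le_max_right _ _)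
  have h4 : ∫ x, max (⟪u, x⟫ - a) 0 ∂(stdGaussian E) = HH a := by
    rw [integral_max_inner, hu]
    simp [HH]
  linarith

/-- A line from a half-space, valid in every dimension. -/
theorem tanProp_half (N : ℕ) {a σ κ : ℝ} (ha : 0 < a) (h1 : σ * a ≤ (3 / 2) * phi0)
    (h2 : HH a ≤ κ * a) : TanProp N σ κ := by
  intro A u ρ hA _ hu hρ hmom
  have h3 := half_moment hA hu a
  have h4 : σ * a * ρ ≤ (3 / 2) * phi0 * ρ := mul_le_mul_of_nonneg_right h1 hρ
  have h5 : a * (σ * ρ - κ) ≤ a * (stdGaussian (EN N)).real A := by nlinarith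
  exact le_of_mul_le_mul_left h5 ha

/-- The quadratic rule from a family of half-spaces. -/
theorem zeroProp_of_half (N : ℕ) {b Λ : ℝ}
    (H : ∀ ρ, 0 < ρ → ρ ≤ b → ∃ a, 0 < a ∧ Λ * ρ ^ 2 * a + HH a ≤ (3 / 2) * phi0 * ρ) :
    ZeroProp N b Λ := by
  intro A u ρ hA _ hu hρ hρb hmom
  rcases hρ.eq_or_lt with h0 | h0
  · subst h0
    have : 0 ≤ (stdGaussian (EN N)).real A := measureReal_nonneg
    simpa using this
  obtain ⟨a, ha, hH⟩ := H ρ h0 hρb
  have h3 := half_moment hA hu a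
  have h5 : a * (Λ * ρ ^ 2) ≤ a * (stdGaussian (EN N)).real A := by nlinarith
  exact le_of_mul_le_mul_left h5 ha

/-! ### Numerical upper bounds for `HH` -/

lemma phi0_lt : phi0 < 3989422805 / 10000000000 := by
  unfold phi0
  have hπ := Real.pi_gt_d20
  have h0 : (0 : ℝ) < 2 * π := by positivity
  have h1 : (10000000000 / 3989422805 : ℝ) < √(2 * π) := by
    apply Real.lt_sqrt_of_sq_lt
    have : (10000000000 / 3989422805 : ℝ) ^ 2 < 2 * 3.14159265358979323846 := by norm_num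
    linarith
  have h2 : (0 : ℝ) < 10000000000 / 3989422805 := by norm_num
  have h3 := inv_strictAnti₀ h2 h1
  have h4 : ((10000000000 / 3989422805 : ℝ))⁻¹ = 3989422805 / 10000000000 := by norm_num
  rwa [h4] at h3

lemma phi0_gt : 3989422804 / 10000000000 < phi0 := by
  unfold phi0
  have hπ := Real.pi_lt_d20
  have h0 : (0 : ℝ) < 2 * π := by positivity
  have h1 : √(2 * π) < (10000000000 / 3989422804 : ℝ) := by
    rw [Real.sqrt_lt' (by norm_num)]
    have : 2 * 3.14159265358979323847 < (10000000000 / 3989422804 : ℝ) ^ 2 := by norm_num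
    linarith
  have h3 := inv_strictAnti₀ (Real.sqrt_pos.mpr h0) h1
  have h4 : ((10000000000 / 3989422804 : ℝ))⁻¹ = 3989422804 / 10000000000 := by norm_num
  rwa [h4] at h3

lemma NN_Ioi_zero : NN.real (Ioi (0 : ℝ)) = 1 / 2 := by
  have hsym : NN.real (Iio (0 : ℝ)) = NN.real (Ioi (0 : ℝ)) := by
    have h1 : NN.map (fun x : ℝ => -x) = NN := by
      have := gaussianReal_map_neg (μ := 0) (v := 1)
      simpa [NN] using this
    have h2 : NN (Ioi (0 : ℝ)) = NN (Iio (0 : ℝ)) := by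
      conv_lhs => rw [← h1]
      rw [Measure.map_apply measurable_neg measurableSet_Ioi]
      congr 1
      ext x
      simp
    simp only [Measure.real, h2]
  have hu : (Iio (0 : ℝ)) ∪ {0} ∪ Ioi 0 = univ := by
    ext x
    simp only [mem_union, mem_Iio, mem_singleton_iff, mem_Ioi, mem_univ, iff_true]
    rcases lt_trichotomy x 0 with h | h | h <;> tauto
  have h0 : NN.real ({0} : Set ℝ) = 0 := by
    haveI : NullSingletonClass (gaussianReal 0 1) := nullSingletonClass_gaussianReal (by norm_num)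
    have h : gaussianReal 0 1 ({0} : Set ℝ) = 0 := measure_singleton _
    simp only [Measure.real, NN, h, ENNReal.toReal_zero]
  have hd1 : Disjoint (Iio (0 : ℝ)) {0} := by
    rw [Set.disjoint_left]; intro x hx hy; simp only [mem_Iio, mem_singleton_iff] at hx hy; linarith
  have hd2 : Disjoint (Iio (0 : ℝ) ∪ {0}) (Ioi 0) := by
    rw [Set.disjoint_left]; intro x hx hy
    simp only [mem_union, mem_Iio, mem_singleton_iff, mem_Ioi] at hx hy
    rcases hx with h | h <;> linarith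
  have h1 : NN.real ((Iio (0 : ℝ)) ∪ {0} ∪ Ioi 0) = NN.real (Iio (0 : ℝ)) + NN.real {0} + NN.real (Ioi (0 : ℝ)) := by
    rw [measureReal_union hd2 measurableSet_Ioi, measureReal_union hd1 (measurableSet_singleton _)]
  rw [hu, probReal_univ, h0, hsym] at h1
  linarith

lemma NN_Ioi_eq {a : ℝ} (ha : 0 ≤ a) : NN.real (Ioi a) = 1 / 2 - ∫ x in (0 : ℝ)..a, phi x := by
  have h1 : Ioi (0 : ℝ) = Ioc 0 a ∪ Ioi a := (Ioc_union_Ioi_eq_Ioi ha).symm
  have hd : Disjoint (Ioc 0 a) (Ioi a) := Ioc_disjoint_Ioi le_rfl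
  have h2 : NN.real (Ioi (0 : ℝ)) = NN.real (Ioc 0 a) + NN.real (Ioi a) := by
    rw [h1, measureReal_union hd measurableSet_Ioi]
  have h3 : NN.real (Ioc 0 a) = ∫ x in (0 : ℝ)..a, phi x := by
    rw [intervalIntegral.integral_of_le ha]
    have h2 := setIntegral_NN (Ioc 0 a) measurableSet_Ioc (fun _ => 1)
    simp only [mul_one, integral_const, smul_eq_mul, MeasurableSet.univ,
      measureReal_restrict_apply, univ_inter] at h2
    exact h2
  rw [NN_Ioi_zero, h3] at h2
  linarith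

/-- The double factorial as a recursion. -/
def dfN : ℕ → ℕ
  | 0 => 1
  | n + 1 => dfN n * (2 * n + 3)

lemma dfN_pos (n : ℕ) : 0 < dfN n := by
  induction n with
  | zero => simp [dfN]
  | succ n ih => simp only [dfN]; positivity

/-- Partial sums of the series. -/
def serR (a : ℝ) : ℕ → ℝ
  | 0 => a
  | n + 1 => serR a n + a ^ (2 * n + 3) / dfN (n + 1)

lemma continuous_phi' : Continuous phi := by
  have : phi = fun x => phi0 * rexp (-x ^ 2 / 2) := funext phi_eq
  rw [this]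
  fun_prop

lemma F_rec (a : ℝ) (n : ℕ) :
    ∫ x in (0 : ℝ)..a, x ^ (2 * n + 2) * phi x =
      -(a ^ (2 * n + 1) * phi a) + (2 * n + 1) * ∫ x in (0 : ℝ)..a, x ^ (2 * n) * phi x := by
  have hc := continuous_phi'
  have h1 : ∀ x ∈ uIcc (0 : ℝ) a, HasDerivAt (fun x => -(x ^ (2 * n + 1) * phi x))
      (x ^ (2 * n + 2) * phi x - (2 * n + 1) * (x ^ (2 * n) * phi x)) x := by
    intro x _
    have := ((hasDerivAt_pow (2 * n + 1) x).fun_mul (hasDerivAt_phi x)).fun_neg
    refine this.congr_deriv ?_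
    simp only [Nat.add_sub_cancel]
    push_cast
    ring
  have i1 : IntervalIntegrable (fun x : ℝ => x ^ (2 * n + 2) * phi x) volume 0 a :=
    Continuous.intervalIntegrable (by fun_prop) _ _
  have i2 : IntervalIntegrable (fun x : ℝ => x ^ (2 * n) * phi x) volume 0 a :=
    Continuous.intervalIntegrable (by fun_prop) _ _
  have h2 := intervalIntegral.integral_eq_sub_of_hasDerivAt h1 (i1.sub (i2.const_mul _))
  rw [intervalIntegral.integral_sub i1 (i2.const_mul _), intervalIntegral.integral_const_mul] at h2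
  have e0 : (0 : ℝ) ^ (2 * n + 1) = 0 := by simp
  rw [e0] at h2
  simp only [zero_mul, neg_zero, sub_zero] at h2
  linarith

/-- The series with the remainder. -/
lemma int_phi_series (a : ℝ) (n : ℕ) :
    ∫ x in (0 : ℝ)..a, phi x =
      phi a * serR a n + (∫ x in (0 : ℝ)..a, x ^ (2 * n + 2) * phi x) / dfN n := by
  induction n with
  | zero =>
    have h := F_rec a 0
    simp only [mul_zero, zero_add, pow_one, pow_zero, one_mul, Nat.cast_zero, add_zero] at h
    simp only [serR, dfN, mul_zero, zero_add, Nat.cast_one, div_one]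
    linarith
  | succ n ih =>
    have h := F_rec a (n + 1)
    have hd : (0 : ℝ) < dfN n := by exact_mod_cast dfN_pos n
    have hd1 : ((dfN (n + 1) : ℕ) : ℝ) = dfN n * (2 * n + 3) := by
      simp only [dfN]; push_cast; ring
    have e1 : 2 * (n + 1) = 2 * n + 2 := by ring
    have e2 : 2 * n + 2 + 2 = 2 * (n + 1) + 2 := by ring
    rw [e1] at h
    rw [ih]
    simp only [serR]
    rw [hd1]
    have hn : (0 : ℝ) < 2 * n + 3 := by positivity
    have e3 : 2 * (n + 1) + 2 = 2 * n + 2 + 2 := by ring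
    rw [e3]
    have e4 : 2 * n + 3 = 2 * n + 2 + 1 := by ring
    have h' : ∫ x in (0 : ℝ)..a, x ^ (2 * n + 2 + 2) * phi x =
        -(a ^ (2 * n + 3) * phi a) + (2 * n + 3) * ∫ x in (0 : ℝ)..a, x ^ (2 * n + 2) * phi x := by
      rw [h]
      push_cast
      ring
    rw [h']
    field_simp
    ring

lemma remainder_le {a : ℝ} (ha : 0 ≤ a) (n : ℕ) :
    ∫ x in (0 : ℝ)..a, x ^ (2 * n + 2) * phi x ≤ phi0 * (a ^ (2 * n + 3) / (2 * n + 3)) := by
  have hc := continuous_phi'
  have h1 : ∫ x in (0 : ℝ)..a, x ^ (2 * n + 2) * phi x ≤ ∫ x in (0 : ℝ)..a, phi0 * x ^ (2 * n + 2) := by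
    apply intervalIntegral.integral_mono_on ha
    · exact Continuous.intervalIntegrable (by fun_prop) _ _
    · exact Continuous.intervalIntegrable (by fun_prop) _ _
    · intro x hx
      have h2 : 0 ≤ x ^ (2 * n + 2) := pow_nonneg hx.1 _
      have h3 := phi_le_phi0 x
      nlinarith
  refine h1.trans (le_of_eq ?_)
  rw [intervalIntegral.integral_const_mul, integral_pow]
  have e0 : (0 : ℝ) ^ (2 * n + 2 + 1) = 0 := by simp
  rw [e0, sub_zero]
  push_cast
  have e1 : 2 * n + 2 + 1 = 2 * n + 3 := by ring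
  rw [e1]
  congr 2
  ring

/-- Upper bound for the Gaussian density from the partial sums of the exponential. -/
lemma phi_le_of_sum {a : ℝ} {m : ℕ} (hm : 0 < m) {P : ℝ} (hP : phi0 ≤ P) :
    phi a ≤ P / ∑ i ∈ Finset.range m, (a ^ 2 / 2) ^ i / (i.factorial : ℝ) := by
  have hy : 0 ≤ a ^ 2 / 2 := by positivity
  have h1 := Real.sum_le_exp_of_nonneg hy m
  have hpos : 0 < ∑ i ∈ Finset.range m, (a ^ 2 / 2) ^ i / (i.factorial : ℝ) := by
    apply Finset.sum_pos'
    · intro i _; positivity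
    · exact ⟨0, Finset.mem_range.mpr hm, by simp⟩
  rw [le_div_iff₀ hpos, phi_eq]
  have e : rexp (-a ^ 2 / 2) * rexp (a ^ 2 / 2) = 1 := by
    rw [← Real.exp_add]; simp [neg_div]
  have h0 := phi0_pos
  have h2 : 0 < rexp (-a ^ 2 / 2) := exp_pos _
  calc phi0 * rexp (-a ^ 2 / 2) * ∑ i ∈ Finset.range m, (a ^ 2 / 2) ^ i / (i.factorial : ℝ)
      ≤ phi0 * rexp (-a ^ 2 / 2) * rexp (a ^ 2 / 2) := by gcongr
    _ = phi0 := by rw [mul_assoc, e, mul_one]
    _ ≤ P := hP

/-- Real form of the bound for `HH`. -/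
lemma HH_le_series {a P : ℝ} (ha : 0 ≤ a) (n m : ℕ) (hm : 0 < m) (hP : phi0 ≤ P) :
    HH a ≤ P / (∑ i ∈ Finset.range m, (a ^ 2 / 2) ^ i / (i.factorial : ℝ)) * (1 + a * serR a n) - a / 2 +
      a * (P * (a ^ (2 * n + 3) / (2 * n + 3)) / dfN n) := by
  have hs : 0 ≤ serR a n := by
    induction n with
    | zero => simpa [serR] using ha
    | succ n ih => simp only [serR]; positivity
  rw [HH_eq, NN_Ioi_eq ha, int_phi_series a n]
  have h1 := phi_le_of_sum (a := a) hm hP
  have h2 := remainder_le ha n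
  have hd : (0 : ℝ) < dfN n := by exact_mod_cast dfN_pos n
  have h0 := phi0_pos
  have h3 : (∫ x in (0 : ℝ)..a, x ^ (2 * n + 2) * phi x) / dfN n ≤
      P * (a ^ (2 * n + 3) / (2 * n + 3)) / dfN n := by
    apply div_le_div_of_nonneg_right _ hd.le
    refine h2.trans ?_
    have : 0 ≤ a ^ (2 * n + 3) / (2 * (n : ℝ) + 3) := by positivity
    gcongr
  have h4 := mul_le_mul_of_nonneg_left h3 ha
  have h5 : phi a * (1 + a * serR a n) ≤ P / (∑ i ∈ Finset.range m, (a ^ 2 / 2) ^ i / (i.factorial : ℝ)) *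
      (1 + a * serR a n) := by
    apply mul_le_mul_of_nonneg_right h1
    positivity
  nlinarith

/-! Rational evaluation. -/

/-- Partial sums of the series, rational version (Horner free, small `n`). -/
def serQ (a : ℚ) : ℕ → ℚ
  | 0 => a
  | n + 1 => serQ a n + a ^ (2 * n + 3) / dfN (n + 1)

/-- Partial sums of the exponential, rational version. -/
def expQ (y : ℚ) (m : ℕ) : ℚ := ∑ i ∈ Finset.range m, y ^ i / (i.factorial : ℚ)

/-- The rational upper bound for `HH`. -/
def hhU (a : ℚ) (n m : ℕ) : ℚ :=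
  (3989422805 / 10000000000) / expQ (a ^ 2 / 2) m * (1 + a * serQ a n) - a / 2 +
    a * ((3989422805 / 10000000000) * (a ^ (2 * n + 3) / (2 * n + 3)) / dfN n)

lemma serQ_cast (a : ℚ) (n : ℕ) : ((serQ a n : ℚ) : ℝ) = serR (a : ℝ) n := by
  induction n with
  | zero => simp [serQ, serR]
  | succ n ih => simp [serQ, serR, ih]

theorem HH_le_hhU {a : ℚ} (ha : 0 ≤ a) (n m : ℕ) (hm : 0 < m) : HH (a : ℝ) ≤ (hhU a n m : ℚ) := by
  have ha' : (0 : ℝ) ≤ a := by exact_mod_cast ha
  have h := HH_le_series ha' n m hm (P := 3989422805 / 10000000000) phi0_lt.le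
  refine h.trans (le_of_eq ?_)
  unfold hhU expQ
  push_cast
  rw [serQ_cast]

/-- Check of one half-space line: `a = t / 1000`, `σ = s / 10⁶`, `κ = k / 10⁶`. -/
def halfOK (t s k : ℕ) : Bool :=
  decide (0 < t) &&
  decide (((s : ℚ) / 1000000) * ((t : ℚ) / 1000) ≤ (3 / 2) * (3989422804 / 10000000000)) &&
  decide (hhU ((t : ℚ) / 1000) 60 60 ≤ ((k : ℚ) / 1000000) * ((t : ℚ) / 1000))

theorem tanProp_halfOK (N : ℕ) {t s k : ℕ} (h : halfOK t s k = true) :
    TanProp N ((s : ℝ) / 1000000) ((k : ℝ) / 1000000) := by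
  simp only [halfOK, Bool.and_eq_true, decide_eq_true_eq] at h
  obtain ⟨⟨h1, h2⟩, h3⟩ := h
  have h2' : ((s : ℝ) / 1000000) * ((t : ℝ) / 1000) ≤ (3 / 2) * (3989422804 / 10000000000) := by
    have := (Rat.cast_le (K := ℝ)).2 h2
    push_cast at this
    exact this
  have h3' : ((hhU ((t : ℚ) / 1000) 60 60 : ℚ) : ℝ) ≤ ((k : ℝ) / 1000000) * ((t : ℝ) / 1000) := by
    have := (Rat.cast_le (K := ℝ)).2 h3
    push_cast at this
    exact this
  have ht : (0 : ℝ) < t := by exact_mod_cast h1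
  have h4 := HH_le_hhU (a := (t : ℚ) / 1000) (by positivity) 60 60 (by norm_num)
  push_cast at h4
  have h5 := phi0_gt
  exact tanProp_half N (a := (t : ℝ) / 1000) (by positivity) (by linarith) (by
    push_cast at h3'
    linarith)

/-- The quadratic rule near zero, valid in every dimension. With `c = (3/2) φ0`:
if `c b ≤ exp (-W)`, `W ≥ 1/2` and `Λ² 2W exp(-2W) ≤ (c² B)²`, `B = 1 - φ0/(1+2W)`,
then `Λ ρ² ≤ μ` for `ρ ≤ b`. -/
theorem zeroProp_half (N : ℕ) {W Λ b : ℝ} (hW : 1 / 2 ≤ W) (hΛ : 0 ≤ Λ)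
    (hb : (3 / 2) * phi0 * b ≤ rexp (-W))
    (hmain : Λ ^ 2 * (2 * W * rexp (-(2 * W))) ≤
      (((3 / 2) * phi0) ^ 2 * (1 - phi0 / (1 + 2 * W))) ^ 2) :
    ZeroProp N b Λ := by
  apply zeroProp_of_half
  intro ρ hρ hρb
  have hφ := phi0_pos
  set c := (3 / 2) * phi0 with hc
  have hc0 : 0 < c := by rw [hc]; positivity
  set B := 1 - phi0 / (1 + 2 * W) with hB
  have hφ1 : phi0 < 1 := by have := phi0_lt; linarith
  have hB0 : 0 < B := by
    rw [hB]
    have : phi0 / (1 + 2 * W) < 1 := by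
      rw [div_lt_one (by linarith)]
      linarith
    linarith
  set y := c * ρ with hy
  have hy0 : 0 < y := by positivity
  have hyW : y ≤ rexp (-W) := by
    refine le_trans ?_ hb
    rw [hy]
    gcongr
  set w := -Real.log y with hw
  have hwW : W ≤ w := by
    have := (Real.log_le_log hy0 hyW)
    rw [Real.log_exp] at this
    rw [hw]
    linarith
  have hw0 : 0 < w := by linarith
  have hey : rexp (-w) = y := by
    rw [hw, neg_neg, Real.exp_log hy0]
  refine ⟨√(2 * w), Real.sqrt_pos.mpr (by positivity), ?_⟩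
  set a := √(2 * w) with ha
  have ha0 : 0 < a := Real.sqrt_pos.mpr (by positivity)
  have ha2 : a ^ 2 = 2 * w := Real.sq_sqrt (by positivity)
  -- the value of `HH`
  have hφa : phi a = phi0 * y := by
    rw [phi_eq, ha2, ← hey]
    congr 2
    ring
  have h1 := HH_le a ha0.le
  rw [ha2, hφa] at h1
  have hHH : HH a ≤ phi0 / (1 + 2 * W) * y := by
    have h2 : (1 + 2 * W) * HH a ≤ phi0 * y := by
      have h3 := HH_nonneg a
      nlinarith
    rw [div_mul_eq_mul_div, le_div_iff₀ (by linarith)]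
    linarith
  -- the main term
  have hexp : w * rexp (-(2 * w)) ≤ W * rexp (-(2 * W)) := by
    have h2 := Real.add_one_le_exp (2 * (w - W))
    have h3 : rexp (-(2 * W)) = rexp (-(2 * w)) * rexp (2 * (w - W)) := by
      rw [← Real.exp_add]
      congr 1
      ring
    rw [h3]
    have h4 : 0 < rexp (-(2 * w)) := exp_pos _
    have h5 : w ≤ W * (2 * (w - W) + 1) := by nlinarith
    have h6 : w * rexp (-(2 * w)) ≤ W * (2 * (w - W) + 1) * rexp (-(2 * w)) := by gcongr
    have h7 : W * (2 * (w - W) + 1) * rexp (-(2 * w)) ≤ W * (rexp (2 * (w - W))) * rexp (-(2 * w)) := by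
      gcongr
    calc w * rexp (-(2 * w)) ≤ W * (rexp (2 * (w - W))) * rexp (-(2 * w)) := h6.trans h7
      _ = W * (rexp (-(2 * w)) * rexp (2 * (w - W))) := by ring
  have hy2 : y ^ 2 = rexp (-(2 * w)) := by
    rw [← hey, ← Real.exp_nat_mul]
    congr 1
    push_cast
    ring
  have hsq : (Λ * ρ * a) ^ 2 ≤ (c * B) ^ 2 := by
    have e1 : (Λ * ρ * a) ^ 2 * c ^ 2 = Λ ^ 2 * (2 * w * y ^ 2) := by
      rw [mul_pow, mul_pow, ha2]
      rw [hy]
      ring
    have e2 : Λ ^ 2 * (2 * w * y ^ 2) ≤ (c ^ 2 * B) ^ 2 := by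
      refine le_trans ?_ hmain
      rw [hy2]
      have : 2 * w * rexp (-(2 * w)) ≤ 2 * W * rexp (-(2 * W)) := by linarith
      gcongr
    have e3 : (Λ * ρ * a) ^ 2 * c ^ 2 ≤ (c * B) ^ 2 * c ^ 2 := by
      rw [e1]
      refine e2.trans (le_of_eq ?_)
      ring
    exact le_of_mul_le_mul_right e3 (by positivity)
  have hle : Λ * ρ * a ≤ c * B := by
    have h0 : 0 ≤ c * B := by positivity
    exact (pow_le_pow_iff_left₀ (by positivity) h0 two_ne_zero).1 hsq
  have hmainT : Λ * ρ ^ 2 * a ≤ B * y := by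
    have : Λ * ρ ^ 2 * a = (Λ * ρ * a) * ρ := by ring
    rw [this, hy]
    have h2 := mul_le_mul_of_nonneg_right hle hρ.le
    refine h2.trans (le_of_eq ?_)
    ring
  have hfin : B * y + phi0 / (1 + 2 * W) * y = y := by
    rw [hB]; ring
  show Λ * ρ ^ 2 * a + HH a ≤ y
  linarith

/-- The quadratic rule with `b = 1/20`, `Λ = 4`, in every dimension. -/
theorem zeroProp_half_one (N : ℕ) : ZeroProp N (1 / 20) 4 := by
  have h1 := phi0_lt
  have h2 := phi0_gt
  have h3 := Real.exp_one_lt_d9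
  have h4 := Real.exp_one_gt_d9
  have e7 : rexp 7 = rexp 1 ^ 7 := by
    rw [← Real.exp_nat_mul]; norm_num
  have hu : rexp 7 ≤ 1097 := by
    rw [e7]
    calc rexp 1 ^ 7 ≤ (2.7182818286 : ℝ) ^ 7 := by gcongr
      _ ≤ 1097 := by norm_num
  have hl : 1096 ≤ rexp 7 := by
    rw [e7]
    calc (1096 : ℝ) ≤ (2.7182818283 : ℝ) ^ 7 := by norm_num
      _ ≤ rexp 1 ^ 7 := by gcongr
  apply zeroProp_half N (W := 7 / 2) (by norm_num) (by norm_num)
  · -- `exp(-7/2)` from below
    have h5 : rexp (-(7 / 2)) ^ 2 = rexp (-7) := by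
      rw [← Real.exp_nat_mul]; norm_num
    have h6 : rexp (-7) = (rexp 7)⁻¹ := Real.exp_neg 7
    have h7 : (1 / 1097 : ℝ) ≤ rexp (-7) := by
      rw [h6, one_div]
      exact inv_anti₀ (by positivity) hu
    have h8 : (3 / 2 * phi0 * (1 / 20)) ^ 2 ≤ rexp (-(7 / 2)) ^ 2 := by
      rw [h5]
      refine le_trans ?_ h7
      have : 3 / 2 * phi0 * (1 / 20) ≤ 3 / 2 * (3989422805 / 10000000000) * (1 / 20) := by
        gcongr
      calc (3 / 2 * phi0 * (1 / 20)) ^ 2 ≤ (3 / 2 * (3989422805 / 10000000000) * (1 / 20)) ^ 2 := by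
            gcongr
        _ ≤ 1 / 1097 := by norm_num
    exact (pow_le_pow_iff_left₀ (by positivity) (exp_pos _).le two_ne_zero).1 h8
  · have h5 : rexp (-(2 * (7 / 2))) = (rexp 7)⁻¹ := by
      rw [← Real.exp_neg]; norm_num
    rw [h5]
    have h6 : (rexp 7)⁻¹ ≤ 1 / 1096 := by
      rw [one_div]
      exact inv_anti₀ (by norm_num) hl
    have h7 : (4 : ℝ) ^ 2 * (2 * (7 / 2) * (rexp 7)⁻¹) ≤ 4 ^ 2 * (2 * (7 / 2) * (1 / 1096)) := by
      gcongr
    refine h7.trans ?_
    have h8 : (0.34 : ℝ) ≤ (3 / 2 * phi0) ^ 2 * (1 - phi0 / (1 + 2 * (7 / 2))) := by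
      have h9 : (0.358 : ℝ) ≤ (3 / 2 * phi0) ^ 2 := by
        calc (0.358 : ℝ) ≤ (3 / 2 * (3989422804 / 10000000000)) ^ 2 := by norm_num
          _ ≤ (3 / 2 * phi0) ^ 2 := by gcongr
      have h10 : (0.95 : ℝ) ≤ 1 - phi0 / (1 + 2 * (7 / 2)) := by
        have : phi0 / (1 + 2 * (7 / 2)) ≤ 0.05 := by
          rw [div_le_iff₀ (by norm_num)]
          linarith
        linarith
      calc (0.34 : ℝ) ≤ 0.358 * 0.95 := by norm_num
        _ ≤ _ := by gcongr
    calc (4 : ℝ) ^ 2 * (2 * (7 / 2) * (1 / 1096)) ≤ 0.34 ^ 2 := by norm_num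
      _ ≤ _ := by gcongr

end

end Vale.Agent.Lib.P226
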