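import Mathlib
import Vale.Agent.Lib.P226.Gauss1D

/-!
Single deletion, step 1: one-dimensional integration by parts for the tail of a maximum of affine
functions.
-/

open MeasureTheory ProbabilityTheory Real Set Filter Topology
open scoped ENNReal NNReal

namespace Vale.Agent.Lib.P226

set_option linter.unusedSectionVars false

noncomputable section

lemma continuous_phi : Continuous phi := by
  have : phi = fun x => phi0 * rexp (-x ^ 2 / 2) := funext phi_eq
  rw [this]
  fun_prop

lemma integrable_phi : Integrable phi := by
  have := integrable_phi_mul (f := fun _ => (1 : ℝ)) (integrable_const 1)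
  simpa using this

lemma integrable_mul_phi : Integrable (fun t => phi t * t) := integrable_phi_mul integrable_id_NN

lemma tail_eq (y : ℝ) : NN.real (Ioi y) = ∫ s in Ioi y, phi s := by
  have h := setIntegral_NN (Ioi y) measurableSet_Ioi (fun _ => 1)
  simp only [mul_one, integral_const, smul_eq_mul, MeasurableSet.univ,
    measureReal_restrict_apply, univ_inter] at h
  exact h

/-- The derivative of the Gaussian tail. -/
lemma hasDerivAt_tail (y : ℝ) : HasDerivAt (fun y => NN.real (Ioi y)) (-phi y) y := by
  have h : ∀ z, NN.real (Ioi z) = (∫ x in z..0, phi x) + ∫ s in Ioi 0, phi s := by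
    intro z
    rw [tail_eq]
    have := intervalIntegral.integral_Ioi_sub_Ioi' (μ := volume) (f := phi) (a := z) (b := 0)
      integrable_phi.integrableOn integrable_phi.integrableOn
    linarith
  have h2 : (fun y => NN.real (Ioi y)) = fun z => (∫ x in z..0, phi x) + ∫ s in Ioi 0, phi s :=
    funext h
  rw [h2]
  exact (intervalIntegral.integral_hasDerivAt_left (continuous_phi.intervalIntegrable _ _)
    (continuous_phi.stronglyMeasurableAtFilter _ _) continuous_phi.continuousAt).add_const _

lemma continuous_tail : Continuous (fun y => NN.real (Ioi y)) :=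
  continuous_iff_continuousAt.2 (fun y => (hasDerivAt_tail y).continuousAt)

/-- The cell of index `r` on a line: the first index attaining the maximum of the affine functions
`t ↦ t * p l + q l`. -/
def lineCell {m : ℕ} (p q : Fin m → ℝ) (r : Fin m) : Set ℝ :=
  {t | (∀ j, t * p j + q j ≤ t * p r + q r) ∧ ∀ j, j < r → t * p j + q j < t * p r + q r}

/-- The maximum of affine functions. -/
def lineMax {m : ℕ} [NeZero m] (p q : Fin m → ℝ) (t : ℝ) : ℝ := ⨆ l, (t * p l + q l)

section line

variable {m : ℕ} (p q : Fin m → ℝ)

lemma measurableSet_lineCell (r : Fin m) : MeasurableSet (lineCell p q r) := by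
  have h1 : lineCell p q r = (⋂ j, {t | t * p j + q j ≤ t * p r + q r}) ∩
      (⋂ j, ⋂ (_ : j < r), {t | t * p j + q j < t * p r + q r}) := by
    ext x
    simp [lineCell]
  rw [h1]
  refine (MeasurableSet.iInter fun j => ?_).inter
    (MeasurableSet.iInter fun j => MeasurableSet.iInter fun _ => ?_)
  · exact measurableSet_le (by fun_prop) (by fun_prop)
  · exact measurableSet_lt (by fun_prop) (by fun_prop)

lemma lineCell_unique {r s : Fin m} {t : ℝ} (hr : t ∈ lineCell p q r) (hs : t ∈ lineCell p q s) :
    r = s := by
  rcases lt_trichotomy r s with h | h | h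
  · exact absurd (hs.2 r h) (not_lt.mpr (hr.1 s))
  · exact h
  · exact absurd (hr.2 s h) (not_lt.mpr (hs.1 r))

variable [NeZero m]

lemma exists_mem_lineCell (t : ℝ) : ∃ r, t ∈ lineCell p q r := by
  classical
  have hne : (Finset.univ.filter fun i : Fin m => ∀ j, t * p j + q j ≤ t * p i + q i).Nonempty := by
    obtain ⟨i, -, hi⟩ := Finset.exists_max_image (Finset.univ : Finset (Fin m))
      (fun j => t * p j + q j) ⟨0, Finset.mem_univ _⟩
    exact ⟨i, by simpa using fun j => hi j (Finset.mem_univ j)⟩
  let i := Finset.min' _ hne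
  have hi := Finset.min'_mem _ hne
  simp only [Finset.mem_filter, Finset.mem_univ, true_and] at hi
  refine ⟨i, hi, ?_⟩
  intro j hj
  by_contra hcon
  have hle : t * p i + q i ≤ t * p j + q j := not_lt.mp hcon
  have hj2 : j ∈ (Finset.univ.filter fun i : Fin m => ∀ j, t * p j + q j ≤ t * p i + q i) := by
    simp only [Finset.mem_filter, Finset.mem_univ, true_and]
    intro l
    exact (hi l).trans hle
  exact absurd (Finset.min'_le _ j hj2) (not_le.mpr hj)

lemma le_lineMax (l : Fin m) (t : ℝ) : t * p l + q l ≤ lineMax p q t :=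
  le_ciSup (f := fun l => t * p l + q l) (Set.finite_range _).bddAbove l

lemma lineMax_le {t c : ℝ} (h : ∀ l, t * p l + q l ≤ c) : lineMax p q t ≤ c := ciSup_le h

lemma lineMax_eq_of_mem {r : Fin m} {t : ℝ} (ht : t ∈ lineCell p q r) :
    lineMax p q t = t * p r + q r :=
  le_antisymm (lineMax_le p q ht.1) (le_lineMax p q r t)

lemma continuous_lineMax : Continuous (lineMax p q) := by
  have h : lineMax p q = fun t => Finset.univ.sup' ⟨0, Finset.mem_univ _⟩ (fun l => t * p l + q l) := by
    ext t
    apply le_antisymm
    · exact lineMax_le p q (fun l => Finset.le_sup' (fun l => t * p l + q l) (Finset.mem_univ l))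
    · exact Finset.sup'_le _ _ (fun l _ => le_lineMax p q l t)
  rw [h]
  exact Continuous.finset_sup'_apply _ (fun l _ => by fun_prop)

/-- The crossing points of distinct lines. -/
def crossSet (p q : Fin m → ℝ) : Set ℝ :=
  ⋃ i, ⋃ j, {t | p i ≠ p j ∧ t * p i + q i = t * p j + q j}

lemma countable_crossSet : (crossSet p q).Countable := by
  refine Set.countable_iUnion fun i => Set.countable_iUnion fun j => ?_
  refine Set.Subsingleton.countable ?_
  rintro s ⟨hp, hs⟩ t ⟨-, ht⟩
  have h1 : (s - t) * (p i - p j) = 0 := by linear_combination hs - ht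
  rcases mul_eq_zero.mp h1 with h | h
  · linarith
  · exact absurd (by linarith) hp

lemma hasDerivAt_lineMax {r : Fin m} {t : ℝ} (ht : t ∈ lineCell p q r) (hS : t ∉ crossSet p q) :
    HasDerivAt (lineMax p q) (p r) t := by
  have h1 : ∀ l, ∀ᶠ s in 𝓝 t, s * p l + q l ≤ s * p r + q r := by
    intro l
    rcases (ht.1 l).lt_or_eq with h | h
    · have hc : ContinuousAt (fun s => (s * p r + q r) - (s * p l + q l)) t := by fun_prop
      have h2 : 0 < (t * p r + q r) - (t * p l + q l) := by linarith
      filter_upwards [hc.eventually (lt_mem_nhds h2)] with s hs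
      linarith
    · have hp : p l = p r := by
        by_contra hne
        apply hS
        simp only [crossSet, mem_iUnion]
        exact ⟨l, r, hne, h⟩
      have hq : q l = q r := by
        rw [hp] at h
        linarith
      filter_upwards with s
      rw [hp, hq]
  have h2 : ∀ᶠ s in 𝓝 t, lineMax p q s = s * p r + q r := by
    filter_upwards [Filter.eventually_all.2 h1] with s hs
    exact le_antisymm (lineMax_le p q hs) (le_lineMax p q r s)
  have h3 : HasDerivAt (fun s => s * p r + q r) (p r) t := by
    have := ((hasDerivAt_id' t).mul_const (p r)).add_const (q r)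
    simpa using this
  exact h3.congr_of_eventuallyEq h2

/-- The slope of the active line. -/
def lineSlope (p q : Fin m → ℝ) (t : ℝ) : ℝ :=
  ∑ r, (lineCell p q r).indicator (fun _ => p r) t

lemma lineSlope_eq {r : Fin m} {t : ℝ} (ht : t ∈ lineCell p q r) : lineSlope p q t = p r := by
  unfold lineSlope
  rw [Finset.sum_eq_single r]
  · exact indicator_of_mem ht _
  · intro s _ hs
    apply indicator_of_notMem
    intro h
    exact hs (lineCell_unique p q h ht)
  · intro h
    exact absurd (Finset.mem_univ r) h

lemma measurable_lineSlope : Measurable (lineSlope p q) := by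
  unfold lineSlope
  exact Finset.measurable_sum _ (fun r _ => measurable_const.indicator (measurableSet_lineCell p q r))

lemma abs_lineSlope_le (t : ℝ) : |lineSlope p q t| ≤ ∑ r, |p r| := by
  obtain ⟨r, hr⟩ := exists_mem_lineCell p q t
  rw [lineSlope_eq p q hr]
  exact Finset.single_le_sum (f := fun r => |p r|) (fun _ _ => abs_nonneg _) (Finset.mem_univ r)

lemma phi_neg (x : ℝ) : phi (-x) = phi x := by
  rw [phi_eq, phi_eq]
  simp

lemma tail_nonneg (y : ℝ) : 0 ≤ NN.real (Ioi y) := measureReal_nonneg

lemma tail_le_one (y : ℝ) : NN.real (Ioi y) ≤ 1 := measureReal_le_one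

lemma phi_le_of_abs {x : ℝ} : |phi x| ≤ phi0 := by
  rw [abs_of_pos (phi_pos x)]
  exact phi_le_phi0 x

lemma measurable_tail : Measurable (fun y => NN.real (Ioi y)) := continuous_tail.measurable

/-- One-dimensional integration by parts. -/
theorem ibp_line :
    ∫ t, t * NN.real (Ioi (lineMax p q t)) ∂NN =
      -∑ r, p r * ∫ t in lineCell p q r, phi (lineMax p q t) ∂NN := by
  set M := lineMax p q with hM
  have hMc : Continuous M := continuous_lineMax p q
  set W : ℝ → ℝ := fun t => phi t * NN.real (Ioi (M t)) with hW
  set W1 : ℝ → ℝ := fun t => (phi t * t) * NN.real (Ioi (M t)) with hW1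
  set W2 : ℝ → ℝ := fun t => (phi t * phi (M t)) * lineSlope p q t with hW2
  have hWc : Continuous W := continuous_phi.mul (continuous_tail.comp hMc)
  have hd : ∀ t, t ∉ crossSet p q → HasDerivAt W (-W1 t + -W2 t) t := by
    intro t ht
    obtain ⟨r, hr⟩ := exists_mem_lineCell p q t
    have h1 := hasDerivAt_lineMax p q hr ht
    have h2 : HasDerivAt (fun s => NN.real (Ioi (M s))) (-phi (M t) * p r) t :=
      (hasDerivAt_tail (M t)).comp t h1
    have h3 := (hasDerivAt_phi t).mul h2
    refine h3.congr_deriv ?_
    simp only [hW1, hW2, lineSlope_eq p q hr]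
    ring
  have hW1i : Integrable W1 := by
    refine Integrable.mono' (integrable_mul_phi.norm) ?_ ?_
    · exact (integrable_mul_phi.aestronglyMeasurable).mul
        (measurable_tail.comp hMc.measurable).aestronglyMeasurable
    · filter_upwards with t
      simp only [hW1, norm_mul, Real.norm_eq_abs]
      have h1 := tail_nonneg (M t)
      have h2 := tail_le_one (M t)
      rw [abs_of_nonneg h1]
      exact mul_le_of_le_one_right (by positivity) h2
  have hW2i : Integrable W2 := by
    refine Integrable.mono' (integrable_phi.mul_const (phi0 * ∑ r, |p r|)) ?_ ?_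
    · exact ((continuous_phi.mul (continuous_phi.comp hMc)).measurable.mul
        (measurable_lineSlope p q)).aestronglyMeasurable
    · filter_upwards with t
      simp only [hW2, norm_mul, Real.norm_eq_abs, abs_of_pos (phi_pos _)]
      have h1 := phi_le_phi0 (M t)
      have h2 := abs_lineSlope_le p q t
      have h3 := phi_pos t
      have h4 := phi_pos (M t)
      have h0 := abs_nonneg (lineSlope p q t)
      have h5 := phi0_pos
      calc phi t * phi (M t) * |lineSlope p q t| = phi t * (phi (M t) * |lineSlope p q t|) := by ring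
        _ ≤ phi t * (phi0 * ∑ r, |p r|) := by gcongr
  have hi : Integrable (fun t => -W1 t + -W2 t) := hW1i.neg.add hW2i.neg
  have hFTC : ∀ n : ℕ, ∫ t in (-(n : ℝ))..n, (-W1 t + -W2 t) = W n - W (-(n : ℝ)) := by
    intro n
    apply integral_eq_of_hasDerivAt_off_countable W _ (countable_crossSet p q) hWc.continuousOn
    · intro x hx
      exact hd x hx.2
    · exact hi.intervalIntegrable
  have hlim1 : Tendsto (fun n : ℕ => ∫ t in (-(n : ℝ))..n, (-W1 t + -W2 t)) atTop
      (𝓝 (∫ t, (-W1 t + -W2 t))) :=
    intervalIntegral_tendsto_integral hi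
      (tendsto_neg_atTop_atBot.comp tendsto_natCast_atTop_atTop) tendsto_natCast_atTop_atTop
  have hbound : ∀ x : ℝ, |W x| ≤ phi x := by
    intro x
    simp only [hW, abs_mul, abs_of_pos (phi_pos x)]
    rw [abs_of_nonneg (tail_nonneg _)]
    exact mul_le_of_le_one_right (phi_pos x).le (tail_le_one _)
  have hphi0 : Tendsto (fun n : ℕ => phi (n : ℝ)) atTop (𝓝 0) :=
    tendsto_phi_atTop.comp tendsto_natCast_atTop_atTop
  have hlim2 : Tendsto (fun n : ℕ => W n - W (-(n : ℝ))) atTop (𝓝 0) := by
    have h1 : Tendsto (fun n : ℕ => W n) atTop (𝓝 0) := by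
      apply squeeze_zero_norm _ hphi0
      intro n
      exact hbound n
    have h2 : Tendsto (fun n : ℕ => W (-(n : ℝ))) atTop (𝓝 0) := by
      apply squeeze_zero_norm _ hphi0
      intro n
      have := hbound (-(n : ℝ))
      rwa [phi_neg] at this
    simpa using h1.sub h2
  simp_rw [hFTC] at hlim1
  have h0 : ∫ t, (-W1 t + -W2 t) = 0 := tendsto_nhds_unique hlim1 hlim2
  have hA : Integrable (fun t => -W1 t) := hW1i.neg
  have hB : Integrable (fun t => -W2 t) := hW2i.neg
  rw [integral_add hA hB, integral_neg, integral_neg] at h0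
  have hL : ∫ t, t * NN.real (Ioi (M t)) ∂NN = ∫ t, W1 t := by
    have h := setIntegral_NN univ MeasurableSet.univ (fun t => t * NN.real (Ioi (M t)))
    simp only [setIntegral_univ] at h
    rw [h]
    congr 1
    ext t
    simp only [hW1]
    ring
  have hR : ∀ r, ∫ t in lineCell p q r, phi (M t) ∂NN =
      ∫ t in lineCell p q r, phi t * phi (M t) := fun r =>
    setIntegral_NN _ (measurableSet_lineCell p q r) _
  have hg : Integrable (fun t => phi t * phi (M t)) := by
    refine Integrable.mono' (integrable_phi.mul_const phi0) ?_ ?_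
    · exact (continuous_phi.mul (continuous_phi.comp hMc)).aestronglyMeasurable
    · filter_upwards with t
      simp only [norm_mul, Real.norm_eq_abs, abs_of_pos (phi_pos _)]
      have := phi_le_phi0 (M t)
      have := phi_pos t
      gcongr
  have hS : ∫ t, W2 t = ∑ r, p r * ∫ t in lineCell p q r, phi (M t) ∂NN := by
    have h1 : ∀ t, W2 t = ∑ r, (lineCell p q r).indicator (fun t => p r * (phi t * phi (M t))) t := by
      intro t
      simp only [hW2, lineSlope, Finset.mul_sum]
      refine Finset.sum_congr rfl (fun r _ => ?_)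
      by_cases ht : t ∈ lineCell p q r
      · simp [ht, mul_comm]
      · simp [ht]
    simp_rw [h1]
    rw [integral_finsetSum _ (fun r _ => (hg.const_mul _).indicator (measurableSet_lineCell p q r))]
    refine Finset.sum_congr rfl (fun r _ => ?_)
    rw [integral_indicator (measurableSet_lineCell p q r), integral_const_mul, hR]
  rw [hL, ← hS]
  linarith

end line

end

end Vale.Agent.Lib.P226
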