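import Mathlib
import Vale.Agent.Lib.P226.G16Ibp
import Vale.Agent.Lib.P226.Cell

/-!
Single deletion, step 2: Gaussian integration by parts in the whole space (from `ibp_line` through
the coordinate decomposition `QQ`).
-/

open MeasureTheory ProbabilityTheory Real Set Filter Topology
open scoped ENNReal NNReal RealInnerProductSpace

namespace Vale.Agent.Lib.P226

set_option linter.unusedSectionVars false

noncomputable section

variable {E : Type*} [NormedAddCommGroup E] [InnerProductSpace ℝ E] [FiniteDimensional ℝ E]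
  [MeasurableSpace E] [BorelSpace E]

lemma tail_abs_le (y : ℝ) : |NN.real (Ioi y)| ≤ 1 := by
  rw [abs_of_nonneg measureReal_nonneg]
  exact measureReal_le_one

lemma integrable_inner_tail {m : ℕ} [NeZero m] (g : Fin m → E) (a : E) :
    Integrable (fun x => ⟪a, x⟫ * NN.real (Ioi (Vf g x))) (stdGaussian E) := by
  refine Integrable.mono' (integrable_inner_gauss a).abs
    (((continuous_const.inner continuous_id).measurable.mul
      (measurable_tail.comp (measurable_Vf g))).aestronglyMeasurable) ?_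
  filter_upwards with x
  rw [Real.norm_eq_abs, abs_mul]
  calc |⟪a, x⟫| * |NN.real (Ioi (Vf g x))| ≤ |⟪a, x⟫| * 1 := by
        gcongr
        exact tail_abs_le _
    _ = |⟪a, x⟫| := mul_one _

lemma integrable_phi_Vf {m : ℕ} [NeZero m] (g : Fin m → E) :
    Integrable (fun x => phi (Vf g x)) (stdGaussian E) := by
  refine Integrable.of_bound (measurable_phi.comp (measurable_Vf g)).aestronglyMeasurable
    phi0 ?_
  filter_upwards with x
  rw [Real.norm_of_nonneg (phi_pos _).le]
  exact phi_le_phi0 _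

/-- The unit case of `ibp_Vf`. -/
lemma ibp_Vf_unit {m : ℕ} [NeZero m] (g : Fin m → E) {e : E} (he : ‖e‖ = 1) :
    ∫ x, ⟪e, x⟫ * NN.real (Ioi (Vf g x)) ∂(stdGaussian E) =
      -∑ r, ⟪e, g r⟫ * ∫ x in vorCell g r, phi (Vf g x) ∂(stdGaussian E) := by
  -- the integrable functions on the right
  have hf : ∀ r, Integrable ((vorCell g r).indicator (fun y => phi (Vf g y))) (stdGaussian E) :=
    fun r => (integrable_phi_Vf g).indicator ((isPart_vorCell g).meas r)
  have hR : ∀ r, ∫ x in vorCell g r, phi (Vf g x) ∂(stdGaussian E) =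
      ∫ x, ∫ s, (vorCell g r).indicator (fun y => phi (Vf g y)) (QQ e (s, x)) ∂NN
        ∂(stdGaussian E) := by
    intro r
    rw [← integral_indicator ((isPart_vorCell g).meas r)]
    exact integral_eq_QQ e he (hf r)
  have hFi : ∀ r, Integrable (fun x => ∫ s, (vorCell g r).indicator (fun y => phi (Vf g y))
      (QQ e (s, x)) ∂NN) (stdGaussian E) := by
    intro r
    exact (integrable_prod_QQ e he (hf r)).integral_prod_right
  have hL : ∀ x, ∫ s, ⟪e, QQ e (s, x)⟫ * NN.real (Ioi (Vf g (QQ e (s, x)))) ∂NN =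
      -∑ r, ⟪e, g r⟫ * ∫ s, (vorCell g r).indicator (fun y => phi (Vf g y)) (QQ e (s, x)) ∂NN := by
    intro x
    set p : Fin m → ℝ := fun l => ⟪g l, e⟫ with hp
    set q : Fin m → ℝ := fun l => ⟪g l - ⟪g l, e⟫ • e, x⟫ with hq
    have hi : ∀ (l : Fin m) (s : ℝ), ⟪g l, QQ e (s, x)⟫ = s * p l + q l := by
      intro l s
      rw [inner_QQ]
    have hV : ∀ s, Vf g (QQ e (s, x)) = lineMax p q s := by
      intro s
      unfold Vf lineMax
      congr 1
      ext l
      exact hi l s
    have hcell : ∀ (r : Fin m) (s : ℝ), QQ e (s, x) ∈ vorCell g r ↔ s ∈ lineCell p q r := by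
      intro r s
      simp only [vorCell, lineCell, Set.mem_ofPred_eq, hi]
    have hmeas : ∀ r, MeasurableSet (lineCell p q r) := by
      intro r
      have hcont : Continuous fun s : ℝ => QQ e (s, x) := by
        unfold QQ
        fun_prop
      have : lineCell p q r = (fun s : ℝ => QQ e (s, x)) ⁻¹' vorCell g r := by
        ext s
        exact (hcell r s).symm
      rw [this]
      exact hcont.measurable ((isPart_vorCell g).meas r)
    have hrhs : ∀ r, ∫ s, (vorCell g r).indicator (fun y => phi (Vf g y)) (QQ e (s, x)) ∂NN =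
        ∫ t in lineCell p q r, phi (lineMax p q t) ∂NN := by
      intro r
      rw [← integral_indicator (hmeas r)]
      congr 1
      ext s
      by_cases hs : s ∈ lineCell p q r
      · rw [indicator_of_mem hs, indicator_of_mem ((hcell r s).2 hs), hV]
      · rw [indicator_of_notMem hs, indicator_of_notMem (fun hh => hs ((hcell r s).1 hh))]
    have hll : ∫ s, ⟪e, QQ e (s, x)⟫ * NN.real (Ioi (Vf g (QQ e (s, x)))) ∂NN =
        ∫ t, t * NN.real (Ioi (lineMax p q t)) ∂NN := by
      congr 1
      ext s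
      rw [inner_u_QQ he, hV]
    rw [hll, ibp_line p q]
    congr 1
    refine Finset.sum_congr rfl fun r _ => ?_
    rw [hrhs r, hp]
    simp only
    rw [real_inner_comm]
  rw [integral_eq_QQ e he (integrable_inner_tail g e)]
  simp_rw [hL]
  rw [integral_neg, integral_finsetSum _ (fun r _ => (hFi r).const_mul _)]
  congr 1
  refine Finset.sum_congr rfl fun r _ => ?_
  rw [integral_const_mul, hR r]

/-- Gaussian integration by parts for the tail of the maximum of linear forms.
Route: `a = 0` is trivial, scale to `‖a‖ = 1`; `integral_eq_QQ a` on both sides; for fixed `x`, with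
`p l = ⟪g l, a⟫`, `q l = ⟪g l - ⟪g l, a⟫ • a, x⟫` one has `⟪g l, QQ a (t, x)⟫ = t * p l + q l`
(`inner_QQ`), `⟪a, QQ a (t, x)⟫ = t`, `Vf g (QQ a (t, x)) = lineMax p q t`,
`QQ a (t, x) ∈ vorCell g r ↔ t ∈ lineCell p q r`; then `ibp_line`. -/
theorem ibp_Vf {m : ℕ} [NeZero m] (g : Fin m → E) (a : E) :
    ∫ x, ⟪a, x⟫ * NN.real (Ioi (Vf g x)) ∂(stdGaussian E) =
      -∑ r, ⟪a, g r⟫ * ∫ x in vorCell g r, phi (Vf g x) ∂(stdGaussian E) := by
  by_cases ha : a = 0
  · subst ha
    simp
  have hne : ‖a‖ ≠ 0 := norm_ne_zero_iff.mpr ha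
  have he : ‖(‖a‖⁻¹ • a)‖ = 1 := norm_smul_inv_norm ha
  have hscale : a = ‖a‖ • (‖a‖⁻¹ • a) := by
    rw [smul_smul, mul_inv_cancel₀ hne, one_smul]
  have h1 := ibp_Vf_unit g he
  have h2 : ∀ y : E, ⟪a, y⟫ = ‖a‖ * ⟪‖a‖⁻¹ • a, y⟫ := by
    intro y
    conv_lhs => rw [hscale]
    rw [inner_smul_left]
    simp
  simp_rw [h2 _]
  simp_rw [mul_assoc]
  rw [integral_const_mul, h1]
  rw [mul_neg, Finset.mul_sum]

end

end Vale.Agent.Lib.P226
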