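import Mathlib
import Vale.Agent.Lib.P226.G16Lift

/-!
Single deletion, step 3: the flux identity at a maximizer.
-/

open MeasureTheory ProbabilityTheory Real Set Filter Topology
open scoped ENNReal NNReal RealInnerProductSpace

namespace Vale.Agent.Lib.P226

set_option linter.unusedSectionVars false

noncomputable section

variable {E : Type*} [NormedAddCommGroup E] [InnerProductSpace ℝ E] [FiniteDimensional ℝ E]
  [MeasurableSpace E] [BorelSpace E]
variable {m : ℕ} [NeZero m] {σ : ℝ} {u : E} {w : Fin m → E}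

/-- The normal vectors of the section of the small cell; `GG σ w u = Vf (gg σ w u)` by definition. -/
def gg (σ : ℝ) (w : Fin m → E) (u : E) : Fin m → E := fun l => (cc σ w u l)⁻¹ • vv w u l

/-- The flux through the facet of index `r` of the small cell. -/
def flux (σ : ℝ) (w : Fin m → E) (u : E) (r : Fin m) : ℝ :=
  ∫ x in vorCell (gg σ w u) r, phi (GG σ w u x) ∂(stdGaussian E)

lemma flux_nonneg (σ : ℝ) (w : Fin m → E) (u : E) (r : Fin m) : 0 ≤ flux σ w u r :=
  integral_nonneg (fun _ => (phi_pos _).le)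

lemma sum_flux (σ : ℝ) (w : Fin m → E) (u : E) :
    ∑ r, flux σ w u r = ∫ x, phi (GG σ w u x) ∂(stdGaussian E) :=
  integral_part (isPart_vorCell _) (integrable_phi_GG σ w u)

/-- The integral over the small cell of a linear form orthogonal to `u`. -/
lemma integral_DD_perp (h : CellData σ u w) {a : E} (ha : ⟪a, u⟫ = 0) :
    ∫ y in DD σ w u, ⟪a, y⟫ ∂(stdGaussian E) =
      ∫ x, ⟪a, x⟫ * NN.real (Ioi (GG σ w u x)) ∂(stdGaussian E) := by
  rw [← integral_indicator (measurableSet_DD σ w u)]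
  rw [integral_eq_QQ u h.hu ((integrable_inner_gauss a).indicator (measurableSet_DD σ w u))]
  apply integral_congr_ae
  filter_upwards with x
  have h1 : ∀ s, (DD σ w u).indicator (fun y => ⟪a, y⟫) (QQ u (s, x)) =
      (Ioi (GG σ w u x)).indicator (fun _ => ⟪a, x⟫) s := by
    intro s
    have h2 : ⟪a, QQ u (s, x)⟫ = ⟪a, x⟫ := by
      rw [inner_QQ, ha]
      simp
    by_cases hs : GG σ w u x < s
    · rw [indicator_of_mem ((mem_DD_iff h s x).2 hs), indicator_of_mem (mem_Ioi.mpr hs), h2]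
    · rw [indicator_of_notMem (fun hh => hs ((mem_DD_iff h s x).1 hh)),
        indicator_of_notMem (fun hh => hs (mem_Ioi.mp hh))]
  simp_rw [h1]
  rw [integral_indicator measurableSet_Ioi, setIntegral_const]
  simp only [smul_eq_mul, mul_comm]

/-- The flux vector vanishes. Route: fix `a` and put `a' = a - ⟪a, u⟫ • u`, so `⟪a', u⟫ = 0`.
By `integral_eq_QQ u` on the indicator of `DD` and `mem_DD_iff`, `⟪a', QQ u (s, x)⟫ = ⟪a', x⟫`:
`∫_DD ⟪a', y⟫ = ∫ ⟪a', x⟫ * NN.real (Ioi (GG x))`. Hence `ibp_Vf (gg σ w u) a'` gives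
`∑ ⟪a', gg r⟫ * flux r = 0`, and `⟪a', vv r⟫ = ⟪a, vv r⟫` (`inner_vv_u`). Conclude by
`inner_self_eq_zero` with `a` = the sum. -/
theorem flux_sum_vv (h : CellData σ u w)
    (hbar : ∀ a : E, ⟪a, u⟫ = 0 → ∫ y in DD σ w u, ⟪a, y⟫ ∂(stdGaussian E) = 0) :
    ∑ r, (flux σ w u r / cc σ w u r) • vv w u r = 0 := by
  set S := ∑ r, (flux σ w u r / cc σ w u r) • vv w u r with hS
  have hu1 : ⟪u, u⟫ = 1 := inner_u_u h
  set a' := S - ⟪S, u⟫ • u with ha'
  have ha'u : ⟪a', u⟫ = 0 := by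
    rw [ha', inner_sub_left, inner_smul_left, hu1]
    simp
  have h0 := hbar a' ha'u
  rw [integral_DD_perp h ha'u] at h0
  have h1 := ibp_Vf (gg σ w u) a'
  have hGG : ∀ x, Vf (gg σ w u) x = GG σ w u x := fun _ => rfl
  simp_rw [hGG] at h1
  rw [h0] at h1
  have h2 : ∑ r, ⟪a', gg σ w u r⟫ * flux σ w u r = 0 := by
    have : ∑ r, ⟪a', gg σ w u r⟫ * flux σ w u r = -0 := by
      rw [h1]
      simp only [flux, neg_neg]
    simpa using this
  have h3 : ∀ r, ⟪a', gg σ w u r⟫ = (cc σ w u r)⁻¹ * ⟪S, vv w u r⟫ := by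
    intro r
    unfold gg
    rw [inner_smul_right, ha', inner_sub_left, inner_smul_left, real_inner_comm (vv w u r) u,
      inner_vv_u h r]
    simp
  have h4 : ⟪S, S⟫ = 0 := by
    calc ⟪S, S⟫ = ⟪S, ∑ r, (flux σ w u r / cc σ w u r) • vv w u r⟫ := by rw [← hS]
      _ = ∑ r, (flux σ w u r / cc σ w u r) * ⟪S, vv w u r⟫ := by
        rw [inner_sum]
        simp_rw [inner_smul_right]
      _ = ∑ r, ⟪a', gg σ w u r⟫ * flux σ w u r := by
        refine Finset.sum_congr rfl fun r _ => ?_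
        rw [h3 r]
        ring
      _ = 0 := h2
  exact inner_self_eq_zero.mp h4

/-- The flux identity: the flux through a facet is proportional to `c_r`. Route: `q r = flux r / cc r`
satisfies `∑ q r • vv r = 0` and `∑ vv r = 0`. Pick `r₀` minimizing `q`; then
`∑ (q r - q r₀) • vv r = 0`; pairing with `vv r₀` gives a sum of nonpositive terms
(`⟪vv r, vv r₀⟫ = ⟪w r, w r₀⟫ - b_r b_r₀ < 0`), so all `q r = q r₀`. Finally
`∑ cc r = (m + 1) σ` (`sum_bb`) and `sum_flux`. -/
theorem flux_eq (h : CellData σ u w)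
    (hbar : ∀ a : E, ⟪a, u⟫ = 0 → ∫ y in DD σ w u, ⟪a, y⟫ ∂(stdGaussian E) = 0)
    (hstrict : ∀ l r, l ≠ r → ⟪w l, w r⟫ < 0) (r : Fin m) :
    flux σ w u r * ((m + 1) * σ) = (∫ x, phi (GG σ w u x) ∂(stdGaussian E)) * cc σ w u r := by
  set q : Fin m → ℝ := fun r => flux σ w u r / cc σ w u r with hq
  have h1 : ∑ r, q r • vv w u r = 0 := flux_sum_vv h hbar
  -- the minimum of q
  obtain ⟨r₀, -, hr₀⟩ := Finset.exists_min_image (Finset.univ : Finset (Fin m)) q
    ⟨0, Finset.mem_univ _⟩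
  have hmin : ∀ r, q r₀ ≤ q r := fun r => hr₀ r (Finset.mem_univ r)
  have h2 : ∑ r, (q r - q r₀) • vv w u r = 0 := by
    simp_rw [sub_smul]
    rw [Finset.sum_sub_distrib, h1, ← Finset.smul_sum, sum_vv h, smul_zero, sub_zero]
  have h3 : ∑ r, (q r - q r₀) * ⟪vv w u r, vv w u r₀⟫ = 0 := by
    have := congrArg (fun z => ⟪z, vv w u r₀⟫) h2
    simp only [sum_inner, inner_smul_left, conj_trivial, inner_zero_left] at this
    exact this
  have hneg : ∀ r, r ≠ r₀ → ⟪vv w u r, vv w u r₀⟫ < 0 := by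
    intro r hr
    rw [inner_vv_vv h]
    have := hstrict r r₀ hr
    nlinarith [mul_nonneg (bb_nonneg h r) (bb_nonneg h r₀)]
  have hterm : ∀ r ∈ Finset.univ, (q r - q r₀) * ⟪vv w u r, vv w u r₀⟫ ≤ 0 := by
    intro r _
    by_cases hr : r = r₀
    · rw [hr]; simp
    · exact mul_nonpos_of_nonneg_of_nonpos (sub_nonneg.mpr (hmin r)) (hneg r hr).le
  have hzero := (Finset.sum_eq_zero_iff_of_nonpos hterm).1 h3
  have hconst : ∀ r, q r = q r₀ := by
    intro r
    by_cases hr : r = r₀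
    · rw [hr]
    · have := hzero r (Finset.mem_univ r)
      rcases mul_eq_zero.1 this with h4 | h4
      · linarith
      · exact absurd h4 (hneg r hr).ne
  have hfl : ∀ r, flux σ w u r = q r₀ * cc σ w u r := by
    intro r
    have h5 := cc_pos h r
    rw [← hconst r, hq]
    simp only
    field_simp
  have hsumc : ∑ r, cc σ w u r = (m + 1) * σ := by
    unfold cc
    rw [Finset.sum_add_distrib, sum_bb h]
    simp
    ring
  have hint : ∫ x, phi (GG σ w u x) ∂(stdGaussian E) = q r₀ * ((m + 1) * σ) := by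
    rw [← sum_flux, ← hsumc, Finset.mul_sum]
    exact Finset.sum_congr rfl fun r _ => hfl r
  rw [hint, hfl r]
  ring

end

end Vale.Agent.Lib.P226
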