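import Mathlib
import Vale.Agent.Lib.P226.G15Half

/-!
Single deletion: one-dimensional facts about `HH` and the Gaussian distribution function.
-/

open MeasureTheory ProbabilityTheory Real Set Filter Topology
open scoped ENNReal NNReal

namespace Vale.Agent.Lib.P226

noncomputable section

/-- The Gaussian tail, written as a differentiable function on the whole line. -/
def oneFF (x : ℝ) : ℝ := 1 / 2 - ∫ t in (0 : ℝ)..x, phi t

lemma oneFF_eq {a : ℝ} (ha : 0 ≤ a) : NN.real (Ioi a) = oneFF a := NN_Ioi_eq ha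

lemma hasDerivAt_oneFF (x : ℝ) : HasDerivAt oneFF (-phi x) x := by
  have hc : Continuous phi := continuous_phi'
  have h := intervalIntegral.integral_hasDerivAt_right (hc.intervalIntegrable (0 : ℝ) x)
    (hc.stronglyMeasurableAtFilter _ _) hc.continuousAt
  have h2 := h.const_sub (1 / 2 : ℝ)
  exact h2

/-- The ratio `HH / phi`, in a form differentiable on the whole line. -/
def oneR (x : ℝ) : ℝ := (phi x - x * oneFF x) / phi x

lemma hasDerivAt_oneR (x : ℝ) :
    HasDerivAt oneR ((x * phi x - (1 + x ^ 2) * oneFF x) / phi x) x := by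
  have h1 : HasDerivAt (fun x => phi x - x * oneFF x) (-oneFF x) x := by
    have h := (hasDerivAt_phi x).sub ((hasDerivAt_id' x).mul (hasDerivAt_oneFF x))
    refine h.congr_deriv ?_
    ring
  have h2 := h1.div (hasDerivAt_phi x) (phi_pos x).ne'
  have hp := (phi_pos x).ne'
  refine h2.congr_deriv ?_
  field_simp
  ring

lemma oneR_eq {a : ℝ} (ha : 0 ≤ a) : oneR a = HH a / phi a := by
  unfold oneR
  rw [HH_eq, oneFF_eq ha]

lemma oneR_antitone : AntitoneOn oneR (Ici 0) := by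
  apply antitoneOn_of_deriv_nonpos (convex_Ici 0)
  · exact fun x _ => (hasDerivAt_oneR x).continuousAt.continuousWithinAt
  · exact fun x _ => (hasDerivAt_oneR x).differentiableAt.differentiableWithinAt
  · intro x hx
    rw [interior_Ici] at hx
    have hx0 : (0 : ℝ) < x := hx
    rw [(hasDerivAt_oneR x).deriv]
    apply div_nonpos_of_nonpos_of_nonneg _ (phi_pos x).le
    have h := tail_lower x x
    rw [oneFF_eq hx0.le] at h
    nlinarith

/-- `HH / phi` is antitone on the half-line. Route: `HH a = phi a - a * NN.real (Ioi a)` (`HH_eq`) has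
derivative `-NN.real (Ioi a)` (derivative of the tail is `-phi`; see also `hasDerivAt_tail` in
`G16Ibp`, or use `NN_Ioi_eq` for `a ≥ 0`), so `(HH/phi)' = (a HH a - NN.real (Ioi a))/phi a ≤ 0`
by `tail_lower a a`. -/
theorem HH_ratio {a b : ℝ} (ha : 0 ≤ a) (hab : a ≤ b) : HH b * phi a ≤ HH a * phi b := by
  have hb : 0 ≤ b := ha.trans hab
  have h := oneR_antitone (mem_Ici.mpr ha) (mem_Ici.mpr hb) hab
  rw [oneR_eq ha, oneR_eq hb, div_le_div_iff₀ (phi_pos b) (phi_pos a)] at h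
  exact h

lemma exp_lower_aux {y u : ℝ} (hy0 : 0 ≤ y) (hy1 : y ≤ 1) (n : ℕ) (hn : 0 < n)
    (h : ∑ m ∈ Finset.range n, y ^ m / (m.factorial : ℝ) + y ^ n * ((n + 1 : ℕ) / (n.factorial * n)) ≤ u) :
    rexp y ≤ u := by
  have := Real.exp_bound' hy0 hy1 hn
  refine this.trans ?_
  refine le_trans (le_of_eq ?_) h
  push_cast
  ring

lemma phi_45_ge : (2896 / 10000 : ℝ) + 8 / 100000 ≤ phi (4 / 5) := by
  rw [phi_eq]
  have h1 : rexp (8 / 25) ≤ 137716 / 100000 := by
    apply exp_lower_aux (by norm_num) (by norm_num) 8 (by norm_num)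
    norm_num [Finset.sum_range_succ, Nat.factorial]
  have h2 : rexp (-(4 / 5 : ℝ) ^ 2 / 2) = (rexp (8 / 25))⁻¹ := by
    rw [← Real.exp_neg]; congr 1; norm_num
  rw [h2]
  have h3 : (137716 / 100000 : ℝ)⁻¹ ≤ (rexp (8 / 25))⁻¹ := inv_anti₀ (exp_pos _) h1
  have h4 := phi0_gt
  have h5 : (0 : ℝ) ≤ (137716 / 100000 : ℝ)⁻¹ := by norm_num
  have h6 : (3989422804 / 10000000000 : ℝ) * (137716 / 100000 : ℝ)⁻¹ ≤ phi0 * (rexp (8 / 25))⁻¹ := by
    apply mul_le_mul h4.le h3 h5 phi0_pos.le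
  refine le_trans ?_ h6
  norm_num

lemma phi_35_ge : (33322 / 100000 : ℝ) ≤ phi (3 / 5) := by
  rw [phi_eq]
  have h1 : rexp (9 / 50) ≤ 119723 / 100000 := by
    apply exp_lower_aux (by norm_num) (by norm_num) 7 (by norm_num)
    norm_num [Finset.sum_range_succ, Nat.factorial]
  have h2 : rexp (-(3 / 5 : ℝ) ^ 2 / 2) = (rexp (9 / 50))⁻¹ := by
    rw [← Real.exp_neg]; congr 1; norm_num
  rw [h2]
  have h3 : (119723 / 100000 : ℝ)⁻¹ ≤ (rexp (9 / 50))⁻¹ := inv_anti₀ (exp_pos _) h1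
  have h4 := phi0_gt
  have h5 : (0 : ℝ) ≤ (119723 / 100000 : ℝ)⁻¹ := by norm_num
  have h6 : (3989422804 / 10000000000 : ℝ) * (119723 / 100000 : ℝ)⁻¹ ≤ phi0 * (rexp (9 / 50))⁻¹ := by
    apply mul_le_mul h4.le h3 h5 phi0_pos.le
  refine le_trans ?_ h6
  norm_num

lemma HH_45_le : HH (4 / 5 : ℝ) ≤ 120215 / 1000000 := by
  have h := HH_le_hhU (a := 4 / 5) (by norm_num) 12 12 (by norm_num)
  have h2 : hhU (4 / 5) 12 12 ≤ 120215 / 1000000 := by decide +kernel
  have h3 : ((hhU (4 / 5) 12 12 : ℚ) : ℝ) ≤ ((120215 / 1000000 : ℚ) : ℝ) := by exact_mod_cast h2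
  have e : (((4 / 5 : ℚ)) : ℝ) = 4 / 5 := by norm_num
  rw [e] at h
  refine h.trans (h3.trans (le_of_eq ?_))
  norm_num

lemma HH_35_le : HH (3 / 5 : ℝ) ≤ 16868 / 100000 := by
  have h := HH_le_hhU (a := 3 / 5) (by norm_num) 12 12 (by norm_num)
  have h2 : hhU (3 / 5) 12 12 ≤ 16868 / 100000 := by decide +kernel
  have h3 : ((hhU (3 / 5) 12 12 : ℚ) : ℝ) ≤ ((16868 / 100000 : ℚ) : ℝ) := by exact_mod_cast h2
  have e : (((3 / 5 : ℚ)) : ℝ) = 3 / 5 := by norm_num
  rw [e] at h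
  refine h.trans (h3.trans (le_of_eq ?_))
  norm_num

lemma phi_anti {a b : ℝ} (ha : 0 ≤ a) (hab : a ≤ b) : phi b ≤ phi a := by
  rw [phi_eq, phi_eq]
  apply mul_le_mul_of_nonneg_left _ phi0_pos.le
  apply exp_le_exp.mpr
  nlinarith

/-- The staircase for the constants of the main proof. Numerically `h(4/5) = .41495`,
`h(3/5) = .50618`, `phi(3/5) = .33322`, `(1-.415) phi0 = .23338 ≤ .0304 + .2030`.
Uses `HH_ratio`, `HH_le_phi`, `HH_le_hhU` and rational bounds for `phi (4/5)`, `phi (3/5)`. -/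
theorem HH_stair {G : ℝ} (hG : 0 ≤ G) :
    HH G ≤ (415 / 1000) * phi G + (304 / 10000) * (if G < 4 / 5 then 1 else 0) +
      (2030 / 10000) * (if G < 3 / 5 then 1 else 0) := by
  have hp := phi_pos G
  by_cases h1 : G < 3 / 5
  · have h2 : G < 4 / 5 := by linarith
    simp only [h1, h2, if_true]
    have h3 := HH_le_phi G hG
    have h4 := phi_le_phi0 G
    have h5 := phi0_lt
    nlinarith
  · have h1' : 3 / 5 ≤ G := not_lt.mp h1
    simp only [h1, if_false]
    by_cases h2 : G < 4 / 5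
    · simp only [h2, if_true]
      have h3 := HH_ratio (a := 3 / 5) (by norm_num) h1'
      have h4 := phi_anti (a := 3 / 5) (by norm_num) h1'
      have h5 := HH_35_le
      have h6 := phi_35_ge
      have hB : 0 < phi (3 / 5) := phi_pos _
      have h7 : HH (3 / 5 : ℝ) ≤ 304 / 10000 + 415 / 1000 * phi (3 / 5) := by linarith
      have h8 : HH G * phi (3 / 5) ≤ (304 / 10000 + 415 / 1000 * phi G) * phi (3 / 5) := by
        have h9 : HH (3 / 5 : ℝ) * phi G ≤ (304 / 10000 + 415 / 1000 * phi (3 / 5)) * phi G :=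
          mul_le_mul_of_nonneg_right h7 hp.le
        nlinarith
      have h10 := le_of_mul_le_mul_right h8 hB
      linarith
    · have h2' : 4 / 5 ≤ G := not_lt.mp h2
      simp only [h2, if_false]
      have h3 := HH_ratio (a := 4 / 5) (by norm_num) h2'
      have h5 := HH_45_le
      have h6 := phi_45_ge
      have hB : 0 < phi (4 / 5) := phi_pos _
      have h7 : HH (4 / 5 : ℝ) ≤ 415 / 1000 * phi (4 / 5) := by linarith
      have h8 : HH G * phi (4 / 5) ≤ (415 / 1000 * phi G) * phi (4 / 5) := by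
        have h9 : HH (4 / 5 : ℝ) * phi G ≤ (415 / 1000 * phi (4 / 5)) * phi G :=
          mul_le_mul_of_nonneg_right h7 hp.le
        nlinarith
      have h10 := le_of_mul_le_mul_right h8 hB
      linarith

lemma NN_Iio_eq {a : ℝ} (ha : 0 ≤ a) : NN.real (Iio a) = 1 / 2 + ∫ x in (0 : ℝ)..a, phi x := by
  haveI : NullSingletonClass (gaussianReal 0 1) := nullSingletonClass_gaussianReal (by norm_num)
  have h1 : NN.real (Ici a) = NN.real (Ioi a) := by
    simp only [Measure.real]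
    congr 1
    exact measure_congr Ioi_ae_eq_Ici.symm
  have h2 : NN.real (Iio a) = 1 - NN.real (Ici a) := by
    rw [← compl_Ici, probReal_compl_eq_one_sub measurableSet_Ici]
  rw [h2, h1, NN_Ioi_eq ha]
  ring

lemma mul_phi_le (y : ℝ) (hy : 0 ≤ y) : y * phi y ≤ 1 / 4 := by
  have h1 : y ≤ rexp ((y ^ 2 - 1) / 2) := by
    have := Real.add_one_le_exp ((y ^ 2 - 1) / 2)
    nlinarith [sq_nonneg (y - 1)]
  have h2 : rexp ((y ^ 2 - 1) / 2) * rexp (-y ^ 2 / 2) = rexp (-(1 / 2)) := by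
    rw [← Real.exp_add]; congr 1; ring
  have h3 : (8 / 5 : ℝ) ≤ rexp (1 / 2) := by
    have := Real.quadratic_le_exp_of_nonneg (x := 1 / 2) (by norm_num)
    norm_num at this ⊢
    linarith
  have h4 : rexp (-(1 / 2)) ≤ 5 / 8 := by
    rw [Real.exp_neg]
    have := inv_anti₀ (by norm_num : (0 : ℝ) < 8 / 5) h3
    refine this.trans (le_of_eq ?_)
    norm_num
  rw [phi_eq]
  have h5 := phi0_lt
  have h6 : 0 < rexp (-y ^ 2 / 2) := exp_pos _
  have h7 : y * rexp (-y ^ 2 / 2) ≤ rexp ((y ^ 2 - 1) / 2) * rexp (-y ^ 2 / 2) :=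
    mul_le_mul_of_nonneg_right h1 h6.le
  rw [h2] at h7
  have h8 : y * rexp (-y ^ 2 / 2) ≤ 5 / 8 := h7.trans h4
  have h9 : 0 ≤ y * rexp (-y ^ 2 / 2) := by positivity
  calc y * (phi0 * rexp (-y ^ 2 / 2)) = phi0 * (y * rexp (-y ^ 2 / 2)) := by ring
    _ ≤ phi0 * (5 / 8) := mul_le_mul_of_nonneg_left h8 phi0_pos.le
    _ ≤ 1 / 4 := by nlinarith

/-- Tangent bound. Route: `Φ(y(1+β)) - Φ(y) = NN (Ioc y (y(1+β))) ≤ y β φ(y)` as `φ` decreases on
`y ≥ 0`; `y φ(y) ≤ 1/4` (from `y ≤ exp((y²-1)/2)` and `φ0 exp(-1/2) ≤ 1/4`); `Φ(y) ≥ 1/2 + y φ(y)`;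
so `y φ(y) ≤ Φ(y)/3`. -/
theorem Phi_scale {y β : ℝ} (hy : 0 ≤ y) (hβ : 0 ≤ β) :
    NN.real (Iio (y * (1 + β))) ≤ NN.real (Iio y) * (1 + β / 3) := by
  have hz : y ≤ y * (1 + β) := by nlinarith [mul_nonneg hy hβ]
  have hz0 : 0 ≤ y * (1 + β) := hy.trans hz
  have hc : Continuous phi := continuous_phi'
  rw [NN_Iio_eq hz0, NN_Iio_eq hy]
  have h1 : ∫ x in (0 : ℝ)..(y * (1 + β)), phi x =
      (∫ x in (0 : ℝ)..y, phi x) + ∫ x in y..(y * (1 + β)), phi x :=
    (intervalIntegral.integral_add_adjacent_intervals (hc.intervalIntegrable _ _)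
      (hc.intervalIntegrable _ _)).symm
  have h2 : ∫ x in y..(y * (1 + β)), phi x ≤ (y * β) * phi y := by
    have h3 : ∫ x in y..(y * (1 + β)), phi x ≤ ∫ _x in y..(y * (1 + β)), phi y := by
      apply intervalIntegral.integral_mono_on hz (hc.intervalIntegrable _ _)
        (continuous_const.intervalIntegrable _ _)
      intro x hx
      exact phi_anti hy hx.1
    refine h3.trans (le_of_eq ?_)
    rw [intervalIntegral.integral_const, smul_eq_mul]
    ring
  have h4 : y * phi y ≤ ∫ x in (0 : ℝ)..y, phi x := by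
    have h5 : ∫ _x in (0 : ℝ)..y, phi y ≤ ∫ x in (0 : ℝ)..y, phi x := by
      apply intervalIntegral.integral_mono_on hy (continuous_const.intervalIntegrable _ _)
        (hc.intervalIntegrable _ _)
      intro x hx
      exact phi_anti hx.1 hx.2
    refine le_trans (le_of_eq ?_) h5
    rw [intervalIntegral.integral_const, smul_eq_mul]
    ring
  have h6 := mul_phi_le y hy
  have h7 : 3 * (y * phi y) ≤ 1 / 2 + ∫ x in (0 : ℝ)..y, phi x := by linarith
  rw [h1]
  have h8 : β * (3 * (y * phi y)) ≤ β * (1 / 2 + ∫ x in (0 : ℝ)..y, phi x) :=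
    mul_le_mul_of_nonneg_left h7 hβ
  nlinarith

end

end Vale.Agent.Lib.P226
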