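import Mathlib
import Vale.Agent.Lib.P226.G16Flux
import Vale.Agent.Lib.P226.G16One

/-!
Single deletion: the gain of the smallest vector.
-/

open MeasureTheory ProbabilityTheory Real Set Filter Topology
open scoped ENNReal NNReal RealInnerProductSpace

namespace Vale.Agent.Lib.P226

set_option linter.unusedSectionVars false

noncomputable section

variable {E : Type*} [NormedAddCommGroup E] [InnerProductSpace ℝ E] [FiniteDimensional ℝ E]
  [MeasurableSpace E] [BorelSpace E]
variable {m : ℕ} [NeZero m] {σ : ℝ} {u : E} {w : Fin m → E}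

lemma GG_eq_of_mem {x : E} {r : Fin m} (hx : x ∈ vorCell (gg σ w u) r) :
    GG σ w u x = ⟪gg σ w u r, x⟫ := by
  apply le_antisymm
  · exact Vf_le hx.1
  · exact inner_le_Vf (gg σ w u) r x

lemma inner_vv_eq_of_mem (h : CellData σ u w) {x : E} {r : Fin m}
    (hx : x ∈ vorCell (gg σ w u) r) :
    ⟪vv w u r, x⟫ = cc σ w u r * GG σ w u x := by
  rw [GG_eq_of_mem hx]
  unfold gg
  rw [inner_smul_left]
  simp only [conj_trivial]
  have hc := (cc_pos h r).ne'
  field_simp

/-- Pointwise bound on the gain, with the constant of the active facet (as in `key_ineq`). -/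
lemma key_ineq_cell (h : CellData σ u w) (s : ℝ) {x : E} {r : Fin m}
    (hx : x ∈ vorCell (gg σ w u) r) :
    max (σ * s - Vf w (QQ u (s, x))) 0 ≤ cc σ w u r * max (s - GG σ w u x) 0 := by
  have h1 := inner_vv_eq_of_mem h hx
  have h2 := inner_le_Vf w r (QQ u (s, x))
  rw [inner_w_QQ, h1] at h2
  have h3 : σ * s - Vf w (QQ u (s, x)) ≤ cc σ w u r * (s - GG σ w u x) := by
    have : cc σ w u r = σ + bb w u r := rfl
    rw [this] at h2 ⊢
    nlinarith
  have hc1 := cc_pos h r
  apply max_le
  · refine h3.trans ?_
    exact mul_le_mul_of_nonneg_left (le_max_left _ _) hc1.le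
  · exact mul_nonneg hc1.le (le_max_right _ _)

lemma measurable_HH : Measurable HH := by
  have : HH = fun a => phi a - a * NN.real (Ioi a) := funext HH_eq
  rw [this]
  exact measurable_phi.sub (measurable_id.mul measurable_tail)

lemma integrable_HH_GG (h : CellData σ u w) :
    Integrable (fun x => HH (GG σ w u x)) (stdGaussian E) := by
  refine Integrable.of_bound (measurable_HH.comp (measurable_GG σ w u)).aestronglyMeasurable
    phi0 ?_
  filter_upwards with x
  rw [Real.norm_of_nonneg (HH_nonneg _)]
  exact HH_le_phi0 _ (GG_nonneg h x)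

/-- The gain is bounded by the facet sum (as in `gain_bound`, with `integral_part` over the cells). -/
theorem gain_le_cells (h : CellData σ u w) :
    ∫ y, max (⟪σ • u, y⟫ - Vf w y) 0 ∂(stdGaussian E) ≤
      ∑ r, cc σ w u r * ∫ x in vorCell (gg σ w u) r, HH (GG σ w u x) ∂(stdGaussian E) := by
  have hint : Integrable (fun y : E => max (⟪σ • u, y⟫ - Vf w y) 0) (stdGaussian E) :=
    ((integrable_inner_gauss (σ • u)).sub (integrable_Vf w)).sup (integrable_zero _ _ _)
  rw [integral_eq_QQ u h.hu hint]
  have hFi : Integrable (fun x => ∫ s, max (⟪σ • u, QQ u (s, x)⟫ - Vf w (QQ u (s, x))) 0 ∂NN)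
      (stdGaussian E) := (integrable_prod_QQ u h.hu hint).integral_prod_right
  rw [← integral_part (isPart_vorCell (gg σ w u)) hFi]
  refine Finset.sum_le_sum fun r _ => ?_
  rw [← integral_const_mul]
  refine setIntegral_mono_on hFi.integrableOn ((integrable_HH_GG h).const_mul _).integrableOn
    ((isPart_vorCell (gg σ w u)).meas r) fun x hx => ?_
  have h1 : ∫ s, max (⟪σ • u, QQ u (s, x)⟫ - Vf w (QQ u (s, x))) 0 ∂NN ≤
      ∫ s, cc σ w u r * max (s - GG σ w u x) 0 ∂NN := by
    apply integral_mono_of_nonneg
    · filter_upwards with s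
      exact le_max_right _ _
    · exact (integrable_max_sub _).const_mul _
    · filter_upwards with s
      have h2 := key_ineq_cell h s hx
      rw [inner_smul_left, inner_u_QQ h.hu]
      simpa using h2
  rw [integral_const_mul] at h1
  exact h1

/-- The measure of a sublevel set of `GG`, as a sum over the cells. -/
lemma sum_cell_sublevel (t : ℝ) :
    ∑ r, ∫ x in vorCell (gg σ w u) r, (if GG σ w u x < t then (1 : ℝ) else 0) ∂(stdGaussian E) =
      (stdGaussian E).real {x | GG σ w u x < t} := by
  have hm : MeasurableSet {x | GG σ w u x < t} :=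
    measurableSet_lt (measurable_GG σ w u) measurable_const
  have hi : Integrable (fun x => if GG σ w u x < t then (1 : ℝ) else 0) (stdGaussian E) := by
    have : (fun x => if GG σ w u x < t then (1 : ℝ) else 0) =
        {x | GG σ w u x < t}.indicator (fun _ => (1 : ℝ)) := by
      ext x
      by_cases hx : GG σ w u x < t
      · simp [hx]
      · simp [hx]
    rw [this]
    exact (integrable_const (1 : ℝ)).indicator hm
  rw [integral_part (isPart_vorCell (gg σ w u)) hi]
  have : (fun x => if GG σ w u x < t then (1 : ℝ) else 0) =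
      {x | GG σ w u x < t}.indicator (fun _ => (1 : ℝ)) := by
    ext x
    by_cases hx : GG σ w u x < t
    · simp [hx]
    · simp [hx]
  rw [this, integral_indicator hm]
  simp

lemma integrable_ite_GG (t : ℝ) :
    Integrable (fun x => if GG σ w u x < t then (1 : ℝ) else 0) (stdGaussian E) := by
  have hm : MeasurableSet {x | GG σ w u x < t} :=
    measurableSet_lt (measurable_GG σ w u) measurable_const
  have : (fun x => if GG σ w u x < t then (1 : ℝ) else 0) =
      {x | GG σ w u x < t}.indicator (fun _ => (1 : ℝ)) := by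
    ext x
    by_cases hx : GG σ w u x < t
    · simp [hx]
    · simp [hx]
  rw [this]
  exact (integrable_const (1 : ℝ)).indicator hm

/-- The gain from the staircase `HH_stair`, using `GG_nonneg`, `cc_le` and `integral_part`. -/
theorem gain_le_stair (h : CellData σ u w) :
    ∫ y, max (⟪σ • u, y⟫ - Vf w y) 0 ∂(stdGaussian E) ≤
      (415 / 1000) * ∑ r, cc σ w u r * flux σ w u r +
      2 * σ * ((304 / 10000) * (stdGaussian E).real {x | GG σ w u x < 4 / 5} +
        (2030 / 10000) * (stdGaussian E).real {x | GG σ w u x < 3 / 5}) := by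
  refine (gain_le_cells h).trans ?_
  set A : Fin m → ℝ := fun r => ∫ x in vorCell (gg σ w u) r,
    (if GG σ w u x < 4 / 5 then (1 : ℝ) else 0) ∂(stdGaussian E) with hA
  set B : Fin m → ℝ := fun r => ∫ x in vorCell (gg σ w u) r,
    (if GG σ w u x < 3 / 5 then (1 : ℝ) else 0) ∂(stdGaussian E) with hB
  have hA0 : ∀ r, 0 ≤ A r := fun r => integral_nonneg fun x => by
    by_cases hx : GG σ w u x < 4 / 5 <;> simp [hx]
  have hB0 : ∀ r, 0 ≤ B r := fun r => integral_nonneg fun x => by
    by_cases hx : GG σ w u x < 3 / 5 <;> simp [hx]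
  have hcell : ∀ r, ∫ x in vorCell (gg σ w u) r, HH (GG σ w u x) ∂(stdGaussian E) ≤
      (415 / 1000) * flux σ w u r + (304 / 10000) * A r + (2030 / 10000) * B r := by
    intro r
    have i1 : Integrable (fun x => phi (GG σ w u x)) (stdGaussian E) := integrable_phi_GG σ w u
    have i2 := integrable_ite_GG (σ := σ) (w := w) (u := u) (E := E) (4 / 5)
    have i3 := integrable_ite_GG (σ := σ) (w := w) (u := u) (E := E) (3 / 5)
    have e : (415 / 1000) * flux σ w u r + (304 / 10000) * A r + (2030 / 10000) * B r =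
        ∫ x in vorCell (gg σ w u) r, ((415 / 1000) * phi (GG σ w u x) +
          (304 / 10000) * (if GG σ w u x < 4 / 5 then (1 : ℝ) else 0) +
          (2030 / 10000) * (if GG σ w u x < 3 / 5 then (1 : ℝ) else 0)) ∂(stdGaussian E) := by
      have i12 : Integrable (fun x => (415 / 1000) * phi (GG σ w u x) +
          (304 / 10000) * (if GG σ w u x < 4 / 5 then (1 : ℝ) else 0)) (stdGaussian E) :=
        (i1.const_mul _).add (i2.const_mul _)
      rw [integral_add i12.integrableOn (i3.const_mul _).integrableOn,
        integral_add (i1.const_mul _).integrableOn (i2.const_mul _).integrableOn,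
        integral_const_mul, integral_const_mul, integral_const_mul]
      rfl
    rw [e]
    refine setIntegral_mono (integrable_HH_GG h).integrableOn
      (((i1.const_mul _).add (i2.const_mul _)).add (i3.const_mul _)).integrableOn fun x => ?_
    exact HH_stair (GG_nonneg h x)
  have hsumA : ∑ r, A r = (stdGaussian E).real {x | GG σ w u x < 4 / 5} := sum_cell_sublevel _
  have hsumB : ∑ r, B r = (stdGaussian E).real {x | GG σ w u x < 3 / 5} := sum_cell_sublevel _
  have hterm : ∀ r, cc σ w u r * ∫ x in vorCell (gg σ w u) r, HH (GG σ w u x) ∂(stdGaussian E) ≤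
      (415 / 1000) * (cc σ w u r * flux σ w u r) +
        2 * σ * ((304 / 10000) * A r + (2030 / 10000) * B r) := by
    intro r
    have hc1 := cc_pos h r
    have hc2 := cc_le h r
    have h1 : cc σ w u r * ∫ x in vorCell (gg σ w u) r, HH (GG σ w u x) ∂(stdGaussian E) ≤
        cc σ w u r * ((415 / 1000) * flux σ w u r + (304 / 10000) * A r + (2030 / 10000) * B r) :=
      mul_le_mul_of_nonneg_left (hcell r) hc1.le
    have h2 : cc σ w u r * ((304 / 10000) * A r + (2030 / 10000) * B r) ≤
        2 * σ * ((304 / 10000) * A r + (2030 / 10000) * B r) := by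
      apply mul_le_mul_of_nonneg_right hc2
      have := hA0 r
      have := hB0 r
      positivity
    nlinarith
  refine (Finset.sum_le_sum fun r _ => hterm r).trans (le_of_eq ?_)
  rw [Finset.sum_add_distrib, ← Finset.mul_sum, ← Finset.mul_sum, Finset.sum_add_distrib,
    ← Finset.mul_sum, ← Finset.mul_sum, hsumA, hsumB]

/-- Sum of the squares of the constants: `∑ (σ + b_r)² = m σ² + 2 σ ∑ b + ∑ b² ≤ (m + 3) σ²`. -/
lemma sum_cc_sq (h : CellData σ u w) : ∑ r, cc σ w u r ^ 2 ≤ (m + 3) * σ ^ 2 := by
  have hb : ∑ r, bb w u r ^ 2 ≤ σ ^ 2 := by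
    calc ∑ r, bb w u r ^ 2 ≤ ∑ r, σ * bb w u r := by
          refine Finset.sum_le_sum fun r _ => ?_
          have h1 := bb_nonneg h r
          have h2 := bb_le h r
          nlinarith
      _ = σ ^ 2 := by rw [← Finset.mul_sum, sum_bb h]; ring
  have e : ∑ r, cc σ w u r ^ 2 =
      m * σ ^ 2 + 2 * σ * ∑ r, bb w u r + ∑ r, bb w u r ^ 2 := by
    unfold cc
    have : ∀ r, (σ + bb w u r) ^ 2 = σ ^ 2 + 2 * σ * bb w u r + bb w u r ^ 2 := fun r => by ring
    simp_rw [this]
    rw [Finset.sum_add_distrib, Finset.sum_add_distrib, ← Finset.mul_sum]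
    simp
  rw [e, sum_bb h]
  nlinarith

end

end Vale.Agent.Lib.P226
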