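import Mathlib
import Vale.Agent.Lib.P226.Cell
import Vale.Agent.Lib.P226.G16One

/-!
Single deletion: the product bound for the section of the small cell.
-/

open MeasureTheory ProbabilityTheory Real Set Filter Topology
open scoped ENNReal NNReal RealInnerProductSpace

namespace Vale.Agent.Lib.P226

set_option linter.unusedSectionVars false

noncomputable section

variable {E : Type*} [NormedAddCommGroup E] [InnerProductSpace ℝ E] [FiniteDimensional ℝ E]
  [MeasurableSpace E] [BorelSpace E]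
variable {m : ℕ} [NeZero m] {σ : ℝ} {u : E} {w : Fin m → E}

/-- The product bound with the factor two. Route: `B = ⋂ l, {y | ⟪w l, y⟫ < t * cc l}`. If
`GG x < t` and `0 ≤ s` then `QQ u (s, x) ∈ B`: `⟪w l, QQ u (s,x)⟫ = -b_l s + ⟪vv l, x⟫ < t c_l`
(`inner_w_QQ`, `GG_lt_iff`). So by `measure_eq_lintegral_QQ u`,
`γ(B) ≥ NN (Ici 0) * γ {GG < t} = (1/2) γ {GG < t}`. And `prod_bound` (obtuse `w`) with
`measure_inner` gives `γ(B) ≤ ∏ NN (Iio (t c_l / ‖w l‖))`. -/
theorem F_le_prod (h : CellData σ u w) (hw : ∀ l, w l ≠ 0) {t : ℝ} (ht : 0 ≤ t) :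
    (stdGaussian E).real {x | GG σ w u x < t} ≤
      2 * ∏ l, NN.real (Iio (t * cc σ w u l / ‖w l‖)) := by
  classical
  set B : Set E := ⋂ l ∈ (Finset.univ : Finset (Fin m)), {y | ⟪w l, y⟫ < t * cc σ w u l} with hB
  have hBm : MeasurableSet B := by
    refine Finset.measurableSet_biInter _ (fun i _ => ?_)
    exact measurableSet_lt (continuous_const.inner continuous_id).measurable measurable_const
  set A : Set E := {x | GG σ w u x < t} with hA
  have hAm : MeasurableSet A := measurableSet_lt (measurable_GG σ w u) measurable_const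
  -- lower bound for the measure of `B`
  have hsub : ∀ x ∈ A, Ioi (0 : ℝ) ⊆ {s | QQ u (s, x) ∈ B} := by
    intro x hx s hs
    simp only [Set.mem_ofPred_eq, hB, mem_iInter]
    intro l _
    rw [inner_w_QQ]
    have h1 := (GG_lt_iff h x t).1 hx l
    have h2 := bb_nonneg h l
    have h3 : 0 < s := hs
    have h4 : 0 ≤ bb w u l * s := mul_nonneg h2 h3.le
    have h5 : cc σ w u l * t = t * cc σ w u l := mul_comm _ _
    linarith
  have hlow : NN (Ioi (0 : ℝ)) * stdGaussian E A ≤ stdGaussian E B := by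
    rw [measure_eq_lintegral_QQ u h.hu hBm, ← lintegral_indicator_const hAm]
    refine lintegral_mono (fun x => ?_)
    by_cases hx : x ∈ A
    · rw [indicator_of_mem hx]
      exact measure_mono (hsub x hx)
    · rw [indicator_of_notMem hx]
      exact bot_le
  -- upper bound
  have hup : stdGaussian E B ≤ ∏ l, NN (Iio (t * cc σ w u l / ‖w l‖)) := by
    refine (prod_bound Finset.univ w (fun l => t * cc σ w u l)
      (fun i _ j _ hij => h.obt i j hij)).trans (le_of_eq ?_)
    refine Finset.prod_congr rfl (fun l _ => ?_)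
    have hpos : 0 < ‖w l‖ := norm_pos_iff.mpr (hw l)
    have h1 := measure_inner (E := E) (w l) (S := Iio (t * cc σ w u l)) measurableSet_Iio
    simp only [mem_Iio] at h1
    rw [h1]
    congr 1
    ext s
    simp only [Set.mem_ofPred_eq, mem_Iio]
    rw [lt_div_iff₀ hpos, mul_comm s]
  have hhalf : NN (Ioi (0 : ℝ)) = ENNReal.ofReal (1 / 2) := by
    rw [← NN_Ioi_zero, ofReal_measureReal]
  have hfin : ∏ l, NN (Iio (t * cc σ w u l / ‖w l‖)) ≠ ⊤ :=
    ENNReal.prod_ne_top (fun l _ => measure_ne_top _ _)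
  have hmain : NN (Ioi (0 : ℝ)) * stdGaussian E A ≤ ∏ l, NN (Iio (t * cc σ w u l / ‖w l‖)) :=
    hlow.trans hup
  have h3 := ENNReal.toReal_mono hfin hmain
  rw [ENNReal.toReal_mul, ENNReal.toReal_prod, hhalf,
    ENNReal.toReal_ofReal (by norm_num : (0 : ℝ) ≤ 1 / 2)] at h3
  have e1 : (stdGaussian E).real A = (stdGaussian E A).toReal := rfl
  have e2 : ∏ l, NN.real (Iio (t * cc σ w u l / ‖w l‖)) =
      ∏ l, (NN (Iio (t * cc σ w u l / ‖w l‖))).toReal := rfl
  rw [e1, e2]
  linarith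

lemma exp_third_le : rexp (1 / 3) ≤ 13957 / 10000 := by
  have h1 : rexp (1 / 3) ^ 3 = rexp 1 := by
    rw [← Real.exp_nat_mul]
    norm_num
  have h2 := Real.exp_one_lt_d9
  by_contra hcon
  push Not at hcon
  have h3 : ((13957 : ℝ) / 10000) ^ 3 < rexp (1 / 3) ^ 3 :=
    pow_lt_pow_left₀ hcon (by norm_num) (by norm_num)
  rw [h1] at h3
  norm_num at h3
  linarith

/-- Removing the `β`. Route: `t c_l / ‖w l‖ = y_l (1 + β_l)` with `y_l = t σ / ‖w l‖`,
`β_l = b_l / σ ≥ 0`, `∑ β_l = 1` (`sum_bb`). `Phi_scale`, then `1 + β/3 ≤ exp (β/3)`,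
`Real.exp_sum`, and `exp (1/3) ≤ 13957/10000`. -/
theorem prod_beta (h : CellData σ u w) (hw : ∀ l, w l ≠ 0) {t : ℝ} (ht : 0 ≤ t) :
    ∏ l, NN.real (Iio (t * cc σ w u l / ‖w l‖)) ≤
      (13957 / 10000) * ∏ l, NN.real (Iio (t * (σ / ‖w l‖))) := by
  have hσ := h.hσ
  have hfac : ∀ l, NN.real (Iio (t * cc σ w u l / ‖w l‖)) ≤
      NN.real (Iio (t * (σ / ‖w l‖))) * rexp (bb w u l / σ / 3) := by
    intro l
    have hpos : 0 < ‖w l‖ := norm_pos_iff.mpr (hw l)
    have hb : 0 ≤ bb w u l / σ := div_nonneg (bb_nonneg h l) hσ.le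
    have hy : 0 ≤ t * (σ / ‖w l‖) := by positivity
    have e1 : t * cc σ w u l / ‖w l‖ = t * (σ / ‖w l‖) * (1 + bb w u l / σ) := by
      unfold cc
      field_simp
    rw [e1]
    refine (Phi_scale hy hb).trans ?_
    refine mul_le_mul_of_nonneg_left ?_ measureReal_nonneg
    have := Real.add_one_le_exp (bb w u l / σ / 3)
    linarith
  have h2 : ∏ l, NN.real (Iio (t * cc σ w u l / ‖w l‖)) ≤
      ∏ l, (NN.real (Iio (t * (σ / ‖w l‖))) * rexp (bb w u l / σ / 3)) :=
    Finset.prod_le_prod (fun l _ => measureReal_nonneg) (fun l _ => hfac l)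
  rw [Finset.prod_mul_distrib, ← Real.exp_sum] at h2
  have e2 : ∑ l, bb w u l / σ / 3 = 1 / 3 := by
    rw [← Finset.sum_div, ← Finset.sum_div, sum_bb h]
    field_simp
  rw [e2] at h2
  have h3 : 0 ≤ ∏ l, NN.real (Iio (t * (σ / ‖w l‖))) :=
    Finset.prod_nonneg (fun l _ => measureReal_nonneg)
  calc _ ≤ _ := h2
    _ ≤ (∏ l, NN.real (Iio (t * (σ / ‖w l‖)))) * (13957 / 10000) :=
        mul_le_mul_of_nonneg_left exp_third_le h3
    _ = _ := mul_comm _ _

end

end Vale.Agent.Lib.P226
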