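import Mathlib
import Vale.Agent.Lib.P226.GSound

/-!
The real analysis behind the single deletion for at least 33 vectors: if the numerical criterion
fails for every `j`, the smallest norm is not small compared with a product of constants.
-/

open Finset

namespace Vale.Agent.Lib.P226

namespace Tail

noncomputable section

/-- Tangent upper bound of `√n`. -/
def aT (n : ℝ) : ℝ := (n / 5 + 5) / 2

/-- Tangent upper bound of the cube root of `n`. -/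
def xT (n : ℝ) : ℝ := (n / 9 + 6) / 3

/-- Tangent upper bound of the sixth root of `n`. -/
def rT (n : ℝ) : ℝ := (xT n * (4 / 7) + 7 / 4) / 2

/-- The coefficient in the criterion. -/
def EE (j n : ℝ) : ℝ := aT n + 3 / 4 * j * xT n + 9 / 8 * j * rT n + 27 / 32 * j ^ 2

lemma aT_nonneg {n : ℝ} (hn : 0 ≤ n) : 0 ≤ aT n := by unfold aT; positivity
lemma xT_nonneg {n : ℝ} (hn : 0 ≤ n) : 0 ≤ xT n := by unfold xT; positivity
lemma rT_nonneg {n : ℝ} (hn : 0 ≤ n) : 0 ≤ rT n := by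
  have := xT_nonneg hn
  unfold rT; positivity

lemma aT_sq {n : ℝ} : n ≤ aT n ^ 2 := by
  unfold aT
  nlinarith [sq_nonneg (n / 5 - 5)]

lemma xT_cube {n : ℝ} (hn : 0 ≤ n) : n ≤ xT n ^ 3 := by
  unfold xT
  have h : (n / 9 + 6) / 3 = n / 27 + 2 := by ring
  rw [h]
  set y := n / 27 with hy
  have hy0 : 0 ≤ y := by positivity
  have hn' : n = 27 * y := by rw [hy]; ring
  rw [hn']
  nlinarith [mul_nonneg (sq_nonneg (y - 1)) (by linarith : (0 : ℝ) ≤ y + 8)]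

lemma rT_sq {n : ℝ} : xT n ≤ rT n ^ 2 := by
  unfold rT
  nlinarith [sq_nonneg (xT n * (4 / 7) - 7 / 4)]

lemma rT_six {n : ℝ} (hn : 0 ≤ n) : n ≤ rT n ^ 6 := by
  have h1 := xT_cube hn
  have h2 : xT n ^ 3 ≤ (rT n ^ 2) ^ 3 := pow_le_pow_left₀ (xT_nonneg hn) rT_sq 3
  calc n ≤ xT n ^ 3 := h1
    _ ≤ (rT n ^ 2) ^ 3 := h2
    _ = rT n ^ 6 := by ring

lemma EE_nonneg {j n : ℝ} (hj : 0 ≤ j) (hn : 0 ≤ n) : 0 ≤ EE j n := by
  have := aT_nonneg hn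
  have := xT_nonneg hn
  have := rT_nonneg hn
  unfold EE; positivity

variable {k : ℕ} {ρ : ℕ → ℝ}

/-- The numerical criterion, in closed form. -/
lemma crit_of_EE {j : ℕ} (hj : 0 < j) (hjk : j < k) (hanti : ∀ i, ρ (i + 1) ≤ ρ i)
    (hpos : ∀ i, i < k → 0 < ρ i) (hA1 : 0 ≤ ρ 1) (hA2 : 0 ≤ ρ 2)
    (hlt : pcM k ρ j < ρ 2 ^ 2)
    (hmain : 4 * (EE j ((k - j : ℕ) : ℝ) * ρ j) ^ 2 ≤
      (1413 / 100) ^ 2 * (3 * (ρ 1 ^ 2 * (ρ 2 ^ 2 - pcM k ρ j)))) :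
    PcCrit k ρ j := by
  have hmono : ∀ a b, a ≤ b → ρ b ≤ ρ a := antitone_nat_of_succ_le hanti
  set T := ρ j with hT
  have hTpos : 0 < T := hpos j hjk
  set n : ℝ := ((k - j : ℕ) : ℝ) with hn
  have hn0 : 0 ≤ n := by rw [hn]; positivity
  set M := pcM k ρ j with hM
  have hmem : ∀ i ∈ Ico j k, 0 < ρ i ∧ ρ i ≤ T := by
    intro i hi
    rw [mem_Ico] at hi
    exact ⟨hpos i hi.2, hmono _ _ hi.1⟩
  have hM0 : 0 < M := by
    rw [hM]
    unfold pcM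
    refine sum_pos (fun i hi => ?_) ?_
    · exact pow_pos (hmem i hi).1 2
    · exact ⟨j, mem_Ico.mpr ⟨le_rfl, hjk⟩⟩
  have hMn : M ≤ n * T ^ 2 := by
    rw [hM]
    unfold pcM
    have h1 : ∑ i ∈ Ico j k, ρ i ^ 2 ≤ ∑ _i ∈ Ico j k, T ^ 2 := by
      refine sum_le_sum fun i hi => ?_
      exact pow_le_pow_left₀ (hmem i hi).1.le (hmem i hi).2 2
    refine h1.trans (le_of_eq ?_)
    rw [sum_const, Nat.card_Ico, nsmul_eq_mul]
  have hy3 : ∑ i ∈ Ico j k, ρ i ^ 3 ≤ T * M := by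
    rw [hM]
    unfold pcM
    rw [mul_sum]
    refine sum_le_sum fun i hi => ?_
    have h1 := (hmem i hi).2
    have h2 := (hmem i hi).1
    have : ρ i ^ 3 = ρ i * ρ i ^ 2 := by ring
    rw [this]
    gcongr
  have hE : aT n * T + 3 / 4 * (j : ℝ) * (xT n * T) + 9 / 8 * (j : ℝ) * (rT n * T) +
      27 / 32 * (j : ℝ) ^ 2 * T = EE j n * T := by
    unfold EE
    ring
  refine crit_real (j := j) hj (T := T) (Mb := M) (P := aT n * T) (Q := xT n * T) (R := rT n * T)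
    (A1 := ρ 1) (A2 := ρ 2) (ρ1 := ρ 1) (ρ2 := ρ 2) (m := M) (y3 := ∑ i ∈ Ico j k, ρ i ^ 3) (t := T)
    hM0 le_rfl le_rfl hTpos.le hy3
    (mul_nonneg (aT_nonneg hn0) hTpos.le) (mul_nonneg (xT_nonneg hn0) hTpos.le)
    (mul_nonneg (rT_nonneg hn0) hTpos.le) ?_ ?_ ?_ le_rfl hA1 le_rfl hA2 hlt ?_
  · refine hMn.trans ?_
    rw [mul_pow]
    exact mul_le_mul_of_nonneg_right aT_sq (sq_nonneg _)
  · have h1 := xT_cube hn0
    have : (xT n * T) ^ 3 = xT n ^ 3 * T ^ 3 := by ring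
    rw [this]
    calc T * M ≤ T * (n * T ^ 2) := by gcongr
      _ = n * T ^ 3 := by ring
      _ ≤ xT n ^ 3 * T ^ 3 := by gcongr
  · have h1 := rT_six hn0
    have : (rT n * T) ^ 6 = rT n ^ 6 * T ^ 6 := by ring
    rw [this]
    calc T ^ 4 * M ≤ T ^ 4 * (n * T ^ 2) := by gcongr
      _ = n * T ^ 6 := by ring
      _ ≤ rT n ^ 6 * T ^ 6 := by gcongr
  · rw [hE, mul_pow] at *
    exact hmain

/-- The two factors. -/
def p1 : ℝ := 6052 / 10000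

/-- The two factors. -/
def p2 : ℝ := 7882 / 10000

/-- The final constant. -/
def CC : ℝ := 285 / 10000

/-- The product of the factors. -/
def prd (j n : ℕ) : ℝ := p1 ^ j * p2 ^ n

lemma p1_pos : 0 < p1 := by unfold p1; norm_num
lemma p2_pos : 0 < p2 := by unfold p2; norm_num
lemma CC_pos : 0 < CC := by unfold CC; norm_num

lemma prd_pos (j n : ℕ) : 0 < prd j n := by
  have := p1_pos
  have := p2_pos
  unfold prd; positivity

lemma prd_succ_right (j n : ℕ) : prd j (n + 1) = prd j n * p2 := by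
  unfold prd; ring

lemma prd_succ_left (j n : ℕ) : prd (j + 1) n = prd j n * p1 := by
  unfold prd; ring

/-! ### The sequence for small `j` -/

def uu (n : ℕ) : ℝ := prd 0 n ^ 2 * ((n : ℝ) + 1)

lemma uu_step {n : ℕ} (hn : 1 ≤ n) : uu (n + 1) ≤ uu n := by
  unfold uu
  rw [prd_succ_right]
  have h1 : (1 : ℝ) ≤ n := by exact_mod_cast hn
  have h2 : p2 ^ 2 * (((n + 1 : ℕ) : ℝ) + 1) ≤ (n : ℝ) + 1 := by
    unfold p2
    push_cast
    nlinarith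
  have h3 := sq_nonneg (prd 0 n)
  calc (prd 0 n * p2) ^ 2 * (((n + 1 : ℕ) : ℝ) + 1)
      = prd 0 n ^ 2 * (p2 ^ 2 * (((n + 1 : ℕ) : ℝ) + 1)) := by ring
    _ ≤ prd 0 n ^ 2 * ((n : ℝ) + 1) := by gcongr

lemma uu_le {N n : ℕ} (hN : 1 ≤ N) (h : N ≤ n) : uu n ≤ uu N := by
  induction n, h using Nat.le_induction with
  | base => exact le_rfl
  | succ n hn ih => exact (uu_step (hN.trans hn)).trans ih

lemma num0 {n : ℕ} (h : 32 ≤ n) : prd 0 n ^ 2 * (9 * ((n : ℝ) + 1)) ≤ CC ^ 2 := by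
  have h1 := uu_le (N := 32) (by norm_num) h
  have h2 : uu 32 * 9 ≤ CC ^ 2 := by
    norm_num [uu, prd, p1, p2, CC]
  have h3 : prd 0 n ^ 2 * (9 * ((n : ℝ) + 1)) = uu n * 9 := by unfold uu; ring
  rw [h3]
  nlinarith

lemma num1 {n : ℕ} (h : 31 ≤ n) : prd 1 n ^ 2 * (81 / 5 * ((n : ℝ) + 1)) ≤ CC ^ 2 := by
  have h1 := uu_le (N := 31) (by norm_num) h
  have h2 : uu 31 * (p1 ^ 2 * (81 / 5)) ≤ CC ^ 2 := by
    norm_num [uu, prd, p1, p2, CC]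
  have h3 : prd 1 n ^ 2 * (81 / 5 * ((n : ℝ) + 1)) = uu n * (p1 ^ 2 * (81 / 5)) := by
    unfold uu prd
    ring
  rw [h3]
  have h4 : 0 ≤ p1 ^ 2 * (81 / 5) := by positivity
  exact (mul_le_mul_of_nonneg_right h1 h4).trans h2

lemma num2 {n : ℕ} (h : 30 ≤ n) : prd 2 n ^ 2 * (81 * ((n : ℝ) + 1)) ≤ CC ^ 2 := by
  have h1 := uu_le (N := 30) (by norm_num) h
  have h2 : uu 30 * (p1 ^ 4 * 81) ≤ CC ^ 2 := by
    norm_num [uu, prd, p1, p2, CC]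
  have h3 : prd 2 n ^ 2 * (81 * ((n : ℝ) + 1)) = uu n * (p1 ^ 4 * 81) := by
    unfold uu prd
    ring
  rw [h3]
  have h4 : 0 ≤ p1 ^ 4 * 81 := by positivity
  exact (mul_le_mul_of_nonneg_right h1 h4).trans h2

/-! ### The large tail mass case -/

def BB (j n : ℕ) : ℝ := prd j n ^ 2 * (81 * (2 * (j : ℝ) - 3) * ((n : ℝ) + 2))

lemma BB_step_n {j : ℕ} (hj : 3 ≤ j) (n : ℕ) : BB j (n + 1) ≤ BB j n := by
  unfold BB
  rw [prd_succ_right]
  have h1 : (3 : ℝ) ≤ j := by exact_mod_cast hj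
  have h0 : (0 : ℝ) ≤ n := by positivity
  have h2 : p2 ^ 2 * (((n + 1 : ℕ) : ℝ) + 2) ≤ (n : ℝ) + 2 := by
    unfold p2
    push_cast
    nlinarith
  have h3 := sq_nonneg (prd j n)
  have h4 : 0 ≤ 81 * (2 * (j : ℝ) - 3) := by nlinarith
  calc (prd j n * p2) ^ 2 * (81 * (2 * (j : ℝ) - 3) * (((n + 1 : ℕ) : ℝ) + 2))
      = prd j n ^ 2 * (81 * (2 * (j : ℝ) - 3)) * (p2 ^ 2 * (((n + 1 : ℕ) : ℝ) + 2)) := by ring
    _ ≤ prd j n ^ 2 * (81 * (2 * (j : ℝ) - 3)) * ((n : ℝ) + 2) := by gcongr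
    _ = _ := by ring

lemma BB_le_n {j N n : ℕ} (hj : 3 ≤ j) (h : N ≤ n) : BB j n ≤ BB j N := by
  induction n, h using Nat.le_induction with
  | base => exact le_rfl
  | succ n hn ih => exact (BB_step_n hj n).trans ih

lemma BB_step_j {j : ℕ} (hj : 3 ≤ j) : BB (j + 1) 0 ≤ BB j 0 := by
  unfold BB
  rw [prd_succ_left]
  have h1 : (3 : ℝ) ≤ j := by exact_mod_cast hj
  have h2 : p1 ^ 2 * (2 * ((j + 1 : ℕ) : ℝ) - 3) ≤ 2 * (j : ℝ) - 3 := by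
    unfold p1
    push_cast
    nlinarith
  have h3 := sq_nonneg (prd j 0)
  calc (prd j 0 * p1) ^ 2 * (81 * (2 * ((j + 1 : ℕ) : ℝ) - 3) * (((0 : ℕ) : ℝ) + 2))
      = prd j 0 ^ 2 * (81 * 2) * (p1 ^ 2 * (2 * ((j + 1 : ℕ) : ℝ) - 3)) := by
        push_cast; ring
    _ ≤ prd j 0 ^ 2 * (81 * 2) * (2 * (j : ℝ) - 3) := by gcongr
    _ = _ := by push_cast; ring

lemma BB_le_j {j : ℕ} (h : 32 ≤ j) : BB j 0 ≤ BB 32 0 := by
  induction j, h using Nat.le_induction with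
  | base => exact le_rfl
  | succ j hj ih => exact (BB_step_j (by omega)).trans ih

lemma BB_base {j : ℕ} (h3 : 3 ≤ j) (h : j ≤ 32) : BB j (32 - j) ≤ CC ^ 2 := by
  interval_cases j <;> norm_num [BB, prd, p1, p2, CC]

/-- The numerical inequality of the large tail mass case. -/
lemma numB {j n : ℕ} (hj : 3 ≤ j) (h : 32 ≤ j + n) : BB j n ≤ CC ^ 2 := by
  by_cases h32 : j ≤ 32
  · exact (BB_le_n hj (by omega)).trans (BB_base hj h32)
  · have h1 := BB_le_n hj (Nat.zero_le n)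
    have h2 := BB_le_j (j := j) (by omega)
    have h3 := BB_base (j := 32) (by norm_num) le_rfl
    exact h1.trans (h2.trans h3)

/-! ### The small tail mass case -/

/-- The constant coming from the criterion. -/
def k8 : ℝ := (1413 / 100) ^ 2 * (3 / 2) / 36

lemma EE_step {j n : ℝ} (hj : 0 ≤ j) (hn : 0 ≤ n) : p2 * EE j (n + 1) ≤ EE j n := by
  have h1 : EE j (n + 1) = EE j n + (1 / 10 + j / 36 + j / 84) := by
    unfold EE aT rT xT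
    ring
  have h2 : 5 / 2 + 3 * j ≤ EE j n := by
    unfold EE aT rT xT
    nlinarith [mul_nonneg hj hn, sq_nonneg j]
  rw [h1]
  unfold p2
  nlinarith

/-- The case `j ≥ 6`. -/
def AA (j n : ℕ) : ℝ :=
  prd j n ^ 2 * EE j ((n : ℝ) + 1) ^ 2 * (81 * ((j : ℝ) - 1 / 2) ^ 2 / 25)

/-- The case `j ≤ 5`. -/
def AB (j n : ℕ) : ℝ :=
  prd j n ^ 2 * EE j ((n : ℝ) + 1) ^ 2 * (81 * ((j : ℝ) - 3 / 2) / 4)

lemma prdE_step (j n : ℕ) :
    prd j (n + 1) ^ 2 * EE j (((n + 1 : ℕ) : ℝ) + 1) ^ 2 ≤ prd j n ^ 2 * EE j ((n : ℝ) + 1) ^ 2 := by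
  rw [prd_succ_right]
  have h0 : (0 : ℝ) ≤ j := by positivity
  have h1 : (0 : ℝ) ≤ (n : ℝ) + 1 := by positivity
  have h2 := EE_step h0 h1
  have h3 : 0 ≤ p2 * EE j ((n : ℝ) + 1 + 1) := mul_nonneg p2_pos.le (EE_nonneg h0 (by positivity))
  have h4 : (p2 * EE j ((n : ℝ) + 1 + 1)) ^ 2 ≤ EE j ((n : ℝ) + 1) ^ 2 :=
    pow_le_pow_left₀ h3 h2 2
  have h5 := sq_nonneg (prd j n)
  push_cast
  calc (prd j n * p2) ^ 2 * EE j ((n : ℝ) + 1 + 1) ^ 2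
      = prd j n ^ 2 * (p2 * EE j ((n : ℝ) + 1 + 1)) ^ 2 := by ring
    _ ≤ _ := by gcongr

lemma AA_le_n {j N n : ℕ} (h : N ≤ n) : AA j n ≤ AA j N := by
  induction n, h using Nat.le_induction with
  | base => exact le_rfl
  | succ n hn ih =>
    refine le_trans ?_ ih
    unfold AA
    have : 0 ≤ 81 * ((j : ℝ) - 1 / 2) ^ 2 / 25 := by positivity
    exact mul_le_mul_of_nonneg_right (prdE_step j n) this

lemma AB_le_n {j N n : ℕ} (hj : 3 ≤ j) (h : N ≤ n) : AB j n ≤ AB j N := by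
  induction n, h using Nat.le_induction with
  | base => exact le_rfl
  | succ n hn ih =>
    refine le_trans ?_ ih
    unfold AB
    have h1 : (3 : ℝ) ≤ j := by exact_mod_cast hj
    have : 0 ≤ 81 * ((j : ℝ) - 3 / 2) / 4 := by
      apply div_nonneg _ (by norm_num)
      nlinarith
    exact mul_le_mul_of_nonneg_right (prdE_step j n) this

lemma AA_step_j {j : ℕ} (hj : 32 ≤ j) : AA (j + 1) 0 ≤ AA j 0 := by
  unfold AA
  rw [prd_succ_left]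
  have h1 : (32 : ℝ) ≤ j := by exact_mod_cast hj
  push_cast
  simp only [zero_add]
  set J : ℝ := (j : ℝ) with hJ
  have h2 : EE (J + 1) 1 ≤ 11 / 10 * EE J 1 := by
    unfold EE aT rT xT
    nlinarith
  have h3 : J + 1 - 1 / 2 ≤ 11 / 10 * (J - 1 / 2) := by linarith
  have h4 : 0 ≤ EE (J + 1) 1 := EE_nonneg (by linarith) (by norm_num)
  have h5 : 0 ≤ J + 1 - 1 / 2 := by linarith
  have h6 : EE (J + 1) 1 * (J + 1 - 1 / 2) ≤ (11 / 10 * EE J 1) * (11 / 10 * (J - 1 / 2)) :=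
    mul_le_mul h2 h3 h5 (by linarith)
  have h7 : 0 ≤ EE J 1 * (J - 1 / 2) :=
    mul_nonneg (EE_nonneg (by linarith) (by norm_num)) (by linarith)
  have h8 : p1 * (EE (J + 1) 1 * (J + 1 - 1 / 2)) ≤ EE J 1 * (J - 1 / 2) := by
    unfold p1
    nlinarith
  have h9 : 0 ≤ p1 * (EE (J + 1) 1 * (J + 1 - 1 / 2)) :=
    mul_nonneg p1_pos.le (mul_nonneg h4 h5)
  have h10 := pow_le_pow_left₀ h9 h8 2
  have h11 := sq_nonneg (prd j 0)
  calc (prd j 0 * p1) ^ 2 * EE (J + 1) 1 ^ 2 * (81 * (J + 1 - 1 / 2) ^ 2 / 25)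
      = prd j 0 ^ 2 * (81 / 25) * (p1 * (EE (J + 1) 1 * (J + 1 - 1 / 2))) ^ 2 := by ring
    _ ≤ prd j 0 ^ 2 * (81 / 25) * (EE J 1 * (J - 1 / 2)) ^ 2 := by gcongr
    _ = _ := by ring

lemma AA_le_j {j : ℕ} (h : 32 ≤ j) : AA j 0 ≤ AA 32 0 := by
  induction j, h using Nat.le_induction with
  | base => exact le_rfl
  | succ j hj ih => exact (AA_step_j hj).trans ih

lemma AA_base {j : ℕ} (h3 : 6 ≤ j) (h : j ≤ 32) : AA j (32 - j) ≤ k8 * CC ^ 2 := by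
  interval_cases j <;> norm_num [AA, EE, aT, xT, rT, prd, p1, p2, CC, k8]

lemma AB_base {j : ℕ} (h3 : 3 ≤ j) (h : j ≤ 5) : AB j (32 - j) ≤ k8 * CC ^ 2 := by
  interval_cases j <;> norm_num [AB, EE, aT, xT, rT, prd, p1, p2, CC, k8]

lemma numA {j n : ℕ} (hj : 6 ≤ j) (h : 32 ≤ j + n) : AA j n ≤ k8 * CC ^ 2 := by
  by_cases h32 : j ≤ 32
  · exact (AA_le_n (by omega)).trans (AA_base hj h32)
  · have h1 := AA_le_n (j := j) (Nat.zero_le n)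
    have h2 := AA_le_j (j := j) (by omega)
    have h3 := AA_base (j := 32) (by norm_num) le_rfl
    exact h1.trans (h2.trans h3)

lemma numA' {j n : ℕ} (hj : 3 ≤ j) (hj5 : j ≤ 5) (h : 32 ≤ j + n) : AB j n ≤ k8 * CC ^ 2 :=
  (AB_le_n hj (by omega)).trans (AB_base hj hj5)

/-! ### The product of the two middle norms -/

lemma ab_small {a b D : ℝ} (ha : 0 < a) (hab : a ≤ b) (hD1 : 1 / 4 ≤ D) (hD4 : D ≤ 4)
    (h1 : 1 ≤ 9 * D * a) (h2 : 5 / 9 ≤ b + D * a) : 4 ≤ 81 * D * (a * b) := by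
  have hD : 0 < D := by linarith
  by_cases hw : 5 ≤ 9 * (D + 1) * a
  · -- a is large
    have h3 : a ^ 2 ≤ a * b := by nlinarith
    have h4 : 25 ≤ (9 * (D + 1) * a) ^ 2 := by nlinarith
    have h5 : 25 ≤ 81 * (D + 1) ^ 2 * a ^ 2 := by nlinarith
    have h6 : 4 * (D + 1) ^ 2 ≤ 25 * D := by nlinarith [mul_nonneg (by linarith : 0 ≤ 4 * D - 1) (by linarith : 0 ≤ 4 - D)]
    have h7 : 0 ≤ a ^ 2 := sq_nonneg a
    have h8 : 4 * 25 ≤ 4 * (81 * (D + 1) ^ 2 * a ^ 2) := by linarith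
    have h9 : 4 * (81 * (D + 1) ^ 2 * a ^ 2) ≤ 25 * (81 * D * a ^ 2) := by
      have : 4 * (81 * (D + 1) ^ 2 * a ^ 2) = 81 * a ^ 2 * (4 * (D + 1) ^ 2) := by ring
      rw [this]
      have : 25 * (81 * D * a ^ 2) = 81 * a ^ 2 * (25 * D) := by ring
      rw [this]
      gcongr
    have h10 : 4 ≤ 81 * D * a ^ 2 := by linarith
    have h11 : 81 * D * a ^ 2 ≤ 81 * D * (a * b) := by gcongr
    linarith
  · push Not at hw
    set v := 9 * D * a with hv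
    have h3 : v ≤ 4 := by
      have : 5 * v ≤ 4 * (9 * (D + 1) * a) + 0 := by
        rw [hv]
        nlinarith [mul_nonneg ha.le (by linarith : 0 ≤ 4 - D)]
      nlinarith
    have h4 : 5 / 9 - D * a ≤ b := by linarith
    have h5 : 81 * D * (a * (5 / 9 - D * a)) ≤ 81 * D * (a * b) := by gcongr
    have h6 : 81 * D * (a * (5 / 9 - D * a)) = v * (5 - v) := by
      rw [hv]; ring
    have h7 : 4 ≤ v * (5 - v) := by nlinarith [mul_nonneg (by linarith : 0 ≤ v - 1) (by linarith : 0 ≤ 4 - v)]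
    linarith

lemma ab_large {a b D : ℝ} (ha : 0 < a) (hab : a ≤ b) (hD4 : 4 ≤ D)
    (h1 : 1 ≤ 9 * D * a) (h2 : 5 / 9 ≤ b + D * a) : 25 ≤ 81 * (D + 1) ^ 2 * (a * b) := by
  have hD : 0 < D := by linarith
  by_cases hw : 5 ≤ 9 * (D + 1) * a
  · have h3 : a ^ 2 ≤ a * b := by nlinarith
    have h4 : 25 ≤ (9 * (D + 1) * a) ^ 2 := by nlinarith
    have h5 : 81 * (D + 1) ^ 2 * a ^ 2 ≤ 81 * (D + 1) ^ 2 * (a * b) := by gcongr
    nlinarith
  · push Not at hw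
    set w := 9 * (D + 1) * a with hw'
    have h3 : 5 ≤ D * w := by
      have : D * w = (D + 1) * (9 * D * a) := by rw [hw']; ring
      rw [this]
      nlinarith
    have h4 : 5 / 9 - D * a ≤ b := by linarith
    have h5 : 81 * (D + 1) ^ 2 * (a * (5 / 9 - D * a)) ≤ 81 * (D + 1) ^ 2 * (a * b) := by gcongr
    have h6 : 81 * (D + 1) ^ 2 * (a * (5 / 9 - D * a)) = 25 + (5 - w) * (D * w - 5) := by
      rw [hw']; ring
    have h7 : 0 ≤ (5 - w) * (D * w - 5) := mul_nonneg (by linarith) (by linarith)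
    linarith

lemma finish {a X c Y : ℝ} (ha : 0 ≤ a) (h1 : a * X ≤ c) (h2 : 1 ≤ X * Y) (hY : 0 ≤ Y) :
    a ≤ c * Y := by
  calc a = a * 1 := by ring
    _ ≤ a * (X * Y) := by gcongr
    _ = (a * X) * Y := by ring
    _ ≤ c * Y := by gcongr

lemma concl_aux {P W Z K A C Y : ℝ} (hP : 0 ≤ P) (hZ : 0 ≤ Z) (hK : 0 < K) (h1 : 1 ≤ Z * A)
    (h2 : P * W * Z ≤ K * C) (h3 : K * A ≤ W * Y) (hY : 0 ≤ Y) : P ≤ C * Y := by
  have h4 : P * K ≤ P * K * (Z * A) := by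
    have : 0 ≤ P * K := by positivity
    nlinarith
  have h5 : P * K * (Z * A) = P * Z * (K * A) := by ring
  have h6 : P * Z * (K * A) ≤ P * Z * (W * Y) := by gcongr
  have h7 : P * Z * (W * Y) = (P * W * Z) * Y := by ring
  have h8 : (P * W * Z) * Y ≤ (K * C) * Y := by gcongr
  have h9 : P * K ≤ (C * Y) * K := by nlinarith
  exact le_of_mul_le_mul_right h9 hK

lemma large_mass_real {J a b M N Y r0 : ℝ} (hJ : 3 ≤ J) (hr0 : r0 ≤ 4 / 9) (hb : b ≤ 4 / 9)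
    (hmass : 1 ≤ r0 + b + (J - 2) * a + M) (hcase : a / 2 ≤ M) (hM1 : M ≤ (N + 1) * (9 * Y))
    (hN : 0 ≤ N) (hY : 0 ≤ Y) : 1 ≤ 81 * (2 * J - 3) * (N + 2) * Y := by
  have h4 : (J - 2) * a ≤ (J - 2) * (2 * M) :=
    mul_le_mul_of_nonneg_left (by linarith) (by linarith)
  have h5 : 0 ≤ 2 * J - 3 := by linarith
  have h6 : (2 * J - 3) * M ≤ (2 * J - 3) * ((N + 1) * (9 * Y)) :=
    mul_le_mul_of_nonneg_left hM1 h5
  have h7 : (2 * J - 3) * ((N + 1) * (9 * Y)) ≤ (2 * J - 3) * ((N + 2) * (9 * Y)) := by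
    gcongr
    linarith
  have e1 : (J - 2) * (2 * M) + M = (2 * J - 3) * M := by ring
  have e2 : 81 * (2 * J - 3) * (N + 2) * Y = 9 * ((2 * J - 3) * ((N + 2) * (9 * Y))) := by ring
  rw [e2]
  linarith

lemma small_mass_real {J a b M W T Y r0 : ℝ} (hr0 : r0 ≤ 4 / 9) (hb : b ≤ 4 / 9)
    (hab : 0 ≤ b) (hmass : 1 ≤ r0 + b + (J - 2) * a + M) (hcase : M < a / 2)
    (hnot : (1413 / 100) ^ 2 * (3 * (b * (a - M))) < 4 * (W * T) ^ 2) (hT : T ^ 2 ≤ 9 * Y) :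
    k8 * (a * b) ≤ W ^ 2 * Y ∧ 1 ≤ 9 * (J - 3 / 2) * a ∧ 5 / 9 ≤ b + (J - 3 / 2) * a := by
  have hDe : (J - 2) * a + a / 2 = (J - 3 / 2) * a := by ring
  refine ⟨?_, ?_, by linarith⟩
  · have h1 : (1413 / 100) ^ 2 * (3 * (b * (a / 2))) ≤
        (1413 / 100) ^ 2 * (3 * (b * (a - M))) := by
      have : a / 2 ≤ a - M := by linarith
      gcongr
    have h2 : 4 * (W * T) ^ 2 ≤ 4 * (W ^ 2 * (9 * Y)) := by
      rw [mul_pow]
      gcongr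
    have h3 : (1413 / 100) ^ 2 * (3 * (b * (a / 2))) ≤ 4 * (W ^ 2 * (9 * Y)) := by
      linarith
    have e1 : k8 * (a * b) = ((1413 / 100) ^ 2 * (3 * (b * (a / 2)))) / 36 := by
      unfold k8
      ring
    have e2 : W ^ 2 * Y = (4 * (W ^ 2 * (9 * Y))) / 36 := by ring
    rw [e1, e2]
    linarith
  · have e : 9 * (J - 3 / 2) * a = 9 * ((J - 3 / 2) * a) := by ring
    rw [e]
    linarith

/-- The case of at most two large vectors. -/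
lemma tail_small_j {k j n : ℕ} (hj3 : j < 3) (hn : j + (n + 1) = k) (hk : 33 ≤ k) {ρ : ℕ → ℝ}
    {Y : ℝ} (hIco : ∀ a b, b ≤ k → ∑ i ∈ Ico a b, ρ i ^ 2 ≤ ((b - a : ℕ) : ℝ) * ρ a ^ 2)
    (hsplit : ∀ a, a ≤ k → ∑ i ∈ range a, ρ i ^ 2 + ∑ i ∈ Ico a k, ρ i ^ 2 = 1)
    (hs0 : ρ 0 ^ 2 ≤ 4 / 9) (hs1 : ρ 1 ^ 2 ≤ 4 / 9) (hj2 : ρ j ^ 2 ≤ 9 * Y) (hY : 0 ≤ Y) :
    prd j n ^ 2 ≤ CC ^ 2 * Y := by
  have hP2 : 0 ≤ prd j n ^ 2 := sq_nonneg _
  have hnn : (0 : ℝ) ≤ n := by positivity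
  interval_cases j
  · have h1 := hIco 0 k le_rfl
    have h2 := hsplit 0 (by omega)
    simp only [range_zero, sum_empty, zero_add, Nat.sub_zero] at h1 h2
    have hkn : ((k : ℕ) : ℝ) = (n : ℝ) + 1 := by
      rw [← hn]; push_cast; ring
    rw [hkn] at h1
    have h3 := num0 (n := n) (by omega)
    refine finish hP2 h3 ?_ hY
    have h5 : ((n : ℝ) + 1) * ρ 0 ^ 2 ≤ ((n : ℝ) + 1) * (9 * Y) := by gcongr
    have e : 9 * ((n : ℝ) + 1) * Y = ((n : ℝ) + 1) * (9 * Y) := by ring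
    rw [e]
    linarith
  · have h1 := hIco 1 k le_rfl
    have h2 := hsplit 1 (by omega)
    simp only [sum_range_one] at h2
    have hkn : ((k - 1 : ℕ) : ℝ) = (n : ℝ) + 1 := by
      have : k - 1 = n + 1 := by omega
      rw [this]; push_cast; ring
    rw [hkn] at h1
    have h3 := num1 (n := n) (by omega)
    refine finish hP2 h3 ?_ hY
    have h5 : ((n : ℝ) + 1) * ρ 1 ^ 2 ≤ ((n : ℝ) + 1) * (9 * Y) := by gcongr
    have e : 81 / 5 * ((n : ℝ) + 1) * Y = 9 / 5 * (((n : ℝ) + 1) * (9 * Y)) := by ring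
    rw [e]
    linarith
  · have h1 := hIco 2 k le_rfl
    have h2 := hsplit 2 (by omega)
    simp only [sum_range_succ, sum_range_zero, zero_add] at h2
    have hkn : ((k - 2 : ℕ) : ℝ) = (n : ℝ) + 1 := by
      have : k - 2 = n + 1 := by omega
      rw [this]; push_cast; ring
    rw [hkn] at h1
    have h3 := num2 (n := n) (by omega)
    refine finish hP2 h3 ?_ hY
    have h5 : ((n : ℝ) + 1) * ρ 2 ^ 2 ≤ ((n : ℝ) + 1) * (9 * Y) := by gcongr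
    have e : 81 * ((n : ℝ) + 1) * Y = 9 * (((n : ℝ) + 1) * (9 * Y)) := by ring
    rw [e]
    linarith

/-- The main statement: with `σ` the smallest norm, if the criterion fails for every `j`, then
the norms above `3 σ` are the first `j`, and `p1 ^ j * p2 ^ n ≤ CC * σ`, where `j + n + 1 = k`. -/
theorem tail_bound {k : ℕ} (hk : 33 ≤ k) {ρ : ℕ → ℝ} (hanti : ∀ i, ρ (i + 1) ≤ ρ i)
    (hpos : ∀ i, i < k → 0 < ρ i) (hsum : ∑ i ∈ range k, ρ i ^ 2 = 1) (h0 : ρ 0 ≤ 2 / 3)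
    (hno : ∀ j, 3 ≤ j → j < k → ¬ PcCrit k ρ j) :
    ∃ j n : ℕ, j + (n + 1) = k ∧ (∀ l, l < j → 3 * ρ (k - 1) < ρ l) ∧
      prd j n ≤ CC * ρ (k - 1) := by
  have hmono : ∀ a b, a ≤ b → ρ b ≤ ρ a := antitone_nat_of_succ_le hanti
  set σ := ρ (k - 1) with hσdef
  have hσ : 0 < σ := hpos _ (by omega)
  have hex : ∃ l, ρ l ≤ 3 * σ := ⟨k - 1, by linarith⟩
  classical
  obtain ⟨j, hj, hjlt, hjk⟩ : ∃ j, ρ j ≤ 3 * σ ∧ (∀ l, l < j → 3 * σ < ρ l) ∧ j ≤ k - 1 :=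
    ⟨Nat.find hex, Nat.find_spec hex, fun l hl => not_le.mp (Nat.find_min hex hl),
      Nat.find_min' hex (by linarith)⟩
  obtain ⟨n, hn⟩ : ∃ n, j + (n + 1) = k := ⟨k - 1 - j, by omega⟩
  refine ⟨j, n, hn, hjlt, ?_⟩
  have hP := prd_pos j n
  suffices hsq : prd j n ^ 2 ≤ (CC * σ) ^ 2 by
    exact (pow_le_pow_iff_left₀ hP.le (mul_pos CC_pos hσ).le two_ne_zero).1 hsq
  rw [mul_pow]
  have hP2 : 0 ≤ prd j n ^ 2 := sq_nonneg _
  have hσ2 : 0 ≤ σ ^ 2 := sq_nonneg _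
  have hp0 : 0 < ρ 0 := hpos 0 (by omega)
  have hp1 : 0 < ρ 1 := hpos 1 (by omega)
  have hp2 : 0 < ρ 2 := hpos 2 (by omega)
  have h10 : ρ 1 ≤ ρ 0 := hmono _ _ (by norm_num)
  have h21 : ρ 2 ≤ ρ 1 := hmono _ _ (by norm_num)
  have hs0 : ρ 0 ^ 2 ≤ 4 / 9 := by
    have := pow_le_pow_left₀ hp0.le h0 2
    norm_num at this ⊢
    exact this
  have hs1 : ρ 1 ^ 2 ≤ 4 / 9 := by
    have := pow_le_pow_left₀ hp1.le (h10.trans h0) 2
    norm_num at this ⊢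
    exact this
  have hIco : ∀ a b, b ≤ k → ∑ i ∈ Ico a b, ρ i ^ 2 ≤ ((b - a : ℕ) : ℝ) * ρ a ^ 2 := by
    intro a b hb
    have h1 : ∑ i ∈ Ico a b, ρ i ^ 2 ≤ ∑ _i ∈ Ico a b, ρ a ^ 2 := by
      refine sum_le_sum fun i hi => ?_
      rw [mem_Ico] at hi
      exact pow_le_pow_left₀ (hpos i (by omega)).le (hmono _ _ hi.1) 2
    refine h1.trans (le_of_eq ?_)
    rw [sum_const, Nat.card_Ico, nsmul_eq_mul]
  have hsplit : ∀ a, a ≤ k → ∑ i ∈ range a, ρ i ^ 2 + ∑ i ∈ Ico a k, ρ i ^ 2 = 1 := by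
    intro a ha
    rw [← hsum, range_eq_Ico, range_eq_Ico]
    exact sum_Ico_consecutive _ (by omega) ha
  have hj2 : ρ j ^ 2 ≤ 9 * σ ^ 2 := by
    have := pow_le_pow_left₀ (hpos j (by omega)).le hj 2
    rw [mul_pow] at this
    norm_num at this
    exact this
  rcases Nat.lt_or_ge j 3 with hj3 | hj3
  · exact tail_small_j hj3 hn hk hIco hsplit hs0 hs1 hj2 hσ2
  -- the main case
  have hjkk : j < k := by omega
  have hjR : (3 : ℝ) ≤ j := by exact_mod_cast hj3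
  have hkj : k - j = n + 1 := by omega
  have hnn : (0 : ℝ) ≤ n := by positivity
  have hMeq : pcM k ρ j = ∑ i ∈ Ico j k, ρ i ^ 2 := rfl
  have hM1 : pcM k ρ j ≤ ((n : ℝ) + 1) * (9 * σ ^ 2) := by
    have h1 := hIco j k le_rfl
    rw [hkj] at h1
    push_cast at h1
    rw [hMeq]
    refine h1.trans ?_
    gcongr
  have hmass : 1 ≤ ρ 0 ^ 2 + ρ 1 ^ 2 + ((j : ℝ) - 2) * ρ 2 ^ 2 + pcM k ρ j := by
    have h1 := hsplit 2 (by omega)
    simp only [sum_range_succ, sum_range_zero, zero_add] at h1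
    have h2 : ∑ i ∈ Ico 2 k, ρ i ^ 2 = ∑ i ∈ Ico 2 j, ρ i ^ 2 + pcM k ρ j := by
      rw [hMeq]
      exact (sum_Ico_consecutive _ (by omega) (by omega)).symm
    have h3 := hIco 2 j (by omega)
    have h4 : ((j - 2 : ℕ) : ℝ) = (j : ℝ) - 2 := by
      rw [Nat.cast_sub (by omega)]; norm_num
    rw [h4] at h3
    linarith
  by_cases hcase : ρ 2 ^ 2 / 2 ≤ pcM k ρ j
  · -- large tail mass
    have h3 := numB (j := j) (n := n) hj3 (by omega)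
    unfold BB at h3
    exact finish hP2 h3 (large_mass_real hjR hs0 hs1 hmass hcase hM1 hnn hσ2) hσ2
  -- small tail mass
  push Not at hcase
  have hapos : 0 < ρ 2 ^ 2 := pow_pos hp2 2
  have hbpos : 0 < ρ 1 ^ 2 := pow_pos hp1 2
  have hlt : pcM k ρ j < ρ 2 ^ 2 := by linarith
  have hnot : ¬ (4 * (EE j ((k - j : ℕ) : ℝ) * ρ j) ^ 2 ≤
      (1413 / 100) ^ 2 * (3 * (ρ 1 ^ 2 * (ρ 2 ^ 2 - pcM k ρ j)))) := fun hmain =>
    hno j hj3 hjkk (crit_of_EE (by omega) hjkk hanti hpos hp1.le hp2.le hlt hmain)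
  push Not at hnot
  rw [hkj] at hnot
  have hcast : ((n + 1 : ℕ) : ℝ) = (n : ℝ) + 1 := by push_cast; ring
  rw [hcast] at hnot
  have hab : ρ 2 ^ 2 ≤ ρ 1 ^ 2 := pow_le_pow_left₀ hp2.le h21 2
  obtain ⟨hlow, hDa, hDb⟩ := small_mass_real hs0 hs1 hbpos.le hmass hcase hnot hj2
  have hk8 : 0 < k8 := by unfold k8; norm_num
  rcases Nat.lt_or_ge j 6 with hj6 | hj6
  · have hj5 : (j : ℝ) ≤ 5 := by
      have : j ≤ 5 := by omega
      exact_mod_cast this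
    have hab2 := ab_small (D := (j : ℝ) - 3 / 2) hapos hab (by linarith) (by linarith) hDa hDb
    have hZ : 0 ≤ 81 * ((j : ℝ) - 3 / 2) / 4 := by
      apply div_nonneg _ (by norm_num)
      linarith
    have hZ1 : 1 ≤ 81 * ((j : ℝ) - 3 / 2) / 4 * (ρ 2 ^ 2 * ρ 1 ^ 2) := by
      have e : 81 * ((j : ℝ) - 3 / 2) / 4 * (ρ 2 ^ 2 * ρ 1 ^ 2) =
          (81 * ((j : ℝ) - 3 / 2) * (ρ 2 ^ 2 * ρ 1 ^ 2)) / 4 := by ring
      rw [e]
      linarith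
    have hnum := numA' (n := n) hj3 (by omega) (by omega)
    unfold AB at hnum
    exact concl_aux hP2 hZ hk8 hZ1 hnum hlow hσ2
  · have hj6R : (6 : ℝ) ≤ j := by exact_mod_cast hj6
    have hab2 := ab_large (D := (j : ℝ) - 3 / 2) hapos hab (by linarith) hDa hDb
    have hZ : 0 ≤ 81 * ((j : ℝ) - 1 / 2) ^ 2 / 25 := by positivity
    have hZ1 : 1 ≤ 81 * ((j : ℝ) - 1 / 2) ^ 2 / 25 * (ρ 2 ^ 2 * ρ 1 ^ 2) := by
      have e : (j : ℝ) - 3 / 2 + 1 = (j : ℝ) - 1 / 2 := by ring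
      rw [e] at hab2
      have e2 : 81 * ((j : ℝ) - 1 / 2) ^ 2 / 25 * (ρ 2 ^ 2 * ρ 1 ^ 2) =
          (81 * ((j : ℝ) - 1 / 2) ^ 2 * (ρ 2 ^ 2 * ρ 1 ^ 2)) / 25 := by ring
      rw [e2]
      linarith
    have hnum := numA (n := n) hj6 (by omega)
    unfold AA at hnum
    exact concl_aux hP2 hZ hk8 hZ1 hnum hlow hσ2

end

end Tail

end Vale.Agent.Lib.P226
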