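import Mathlib
import Vale.Agent.Lib.P226.G15Half
import Vale.Agent.Lib.P226.G16Tail

/-!
Single deletion, part 3: the pure numerical inequality for `k ≥ 33`.
-/

open MeasureTheory ProbabilityTheory Real Set Filter Topology

namespace Vale.Agent.Lib.P226

noncomputable section

/-- The weight in the criterion: `√n (1 + (15/8) j) + (27/32) j²`. -/
def WW (j n : ℕ) : ℝ := √(n : ℝ) * (1 + 15 / 8 * j) + 27 / 32 * (j : ℝ) ^ 2

namespace Tail

/-- `WW` with the tangent bound of the square root. -/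
def WT (j n : ℝ) : ℝ := aT n * (1 + 15 / 8 * j) + 27 / 32 * j ^ 2

/-- The coefficient in the failure of the criterion. -/
def ZZ (j n : ℝ) : ℝ := 4 * WT j n ^ 2 + (1413 / 100) ^ 2 * (4 / 3) * n

/-- The constant in the failure of the criterion, divided by nine. -/
def k9 : ℝ := (1413 / 100) ^ 2 * 3 / 9

lemma WT_nonneg {j n : ℝ} (hj : 0 ≤ j) (hn : 0 ≤ n) : 0 ≤ WT j n := by
  have := aT_nonneg hn
  unfold WT
  positivity

lemma WW_le_WT {j n : ℕ} : WW j n ≤ WT j n := by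
  unfold WW WT
  have h1 : √(n : ℝ) ≤ aT n := by
    apply Real.sqrt_le_iff.mpr
    exact ⟨aT_nonneg (by positivity), aT_sq⟩
  gcongr

lemma WW_nonneg {j n : ℕ} : 0 ≤ WW j n := by
  unfold WW
  positivity

lemma ZZ_step {j n : ℝ} (hj : 3 ≤ j) (hn : 0 ≤ n) : p2 ^ 2 * ZZ j (n + 1) ≤ ZZ j n := by
  have hc : 0 < 1 + 15 / 8 * j := by linarith
  set c := 1 + 15 / 8 * j with hcdef
  have hc2 : 53 / 8 ≤ c := by rw [hcdef]; linarith
  have ha : 5 / 2 ≤ aT n := by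
    unfold aT
    linarith
  have hU : WT j n = aT n * c + 27 / 32 * j ^ 2 := rfl
  have hU1 : WT j (n + 1) = WT j n + c / 10 := by
    unfold WT aT
    rw [← hcdef]
    ring
  have hU2 : 5 / 2 * c ≤ WT j n := by
    rw [hU]
    nlinarith [sq_nonneg j]
  set U := WT j n with hUdef
  have hU3 : WT j (n + 1) ≤ 104 / 100 * U := by
    rw [hU1]
    linarith
  have hU4 : 0 ≤ WT j (n + 1) := WT_nonneg (by linarith) (by linarith)
  have hU5 : WT j (n + 1) ^ 2 ≤ (104 / 100 * U) ^ 2 := pow_le_pow_left₀ hU4 hU3 2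
  have hU6 : (53 / 8 * (5 / 2) : ℝ) ≤ U := by nlinarith
  have hU7 : (16 : ℝ) ^ 2 ≤ U ^ 2 := by
    apply pow_le_pow_left₀ (by norm_num)
    norm_num at hU6 ⊢
    linarith
  unfold ZZ
  rw [← hUdef]
  unfold p2
  nlinarith

lemma prdZ_step {j : ℕ} (hj : 3 ≤ j) (n : ℕ) :
    prd j (n + 1) ^ 2 * ZZ j (((n + 1 : ℕ) : ℝ) + 1) ≤ prd j n ^ 2 * ZZ j ((n : ℝ) + 1) := by
  rw [prd_succ_right]
  have h1 : (3 : ℝ) ≤ j := by exact_mod_cast hj
  have h2 := ZZ_step (j := j) (n := (n : ℝ) + 1) h1 (by positivity)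
  have h5 := sq_nonneg (prd j n)
  push_cast
  calc (prd j n * p2) ^ 2 * ZZ j ((n : ℝ) + 1 + 1)
      = prd j n ^ 2 * (p2 ^ 2 * ZZ j ((n : ℝ) + 1 + 1)) := by ring
    _ ≤ _ := by gcongr

/-- The case `j ≥ 6`. -/
def AC (j n : ℕ) : ℝ := prd j n ^ 2 * ZZ j ((n : ℝ) + 1) * (81 * ((j : ℝ) - 1 / 2) ^ 2 / 25)

/-- The case `j ≤ 5`. -/
def AD (j n : ℕ) : ℝ := prd j n ^ 2 * ZZ j ((n : ℝ) + 1) * (81 * ((j : ℝ) - 3 / 2) / 4)

lemma AC_le_n {j N n : ℕ} (hj : 3 ≤ j) (h : N ≤ n) : AC j n ≤ AC j N := by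
  induction n, h using Nat.le_induction with
  | base => exact le_rfl
  | succ n hn ih =>
    refine le_trans ?_ ih
    unfold AC
    have : 0 ≤ 81 * ((j : ℝ) - 1 / 2) ^ 2 / 25 := by positivity
    exact mul_le_mul_of_nonneg_right (prdZ_step hj n) this

lemma AD_le_n {j N n : ℕ} (hj : 3 ≤ j) (h : N ≤ n) : AD j n ≤ AD j N := by
  induction n, h using Nat.le_induction with
  | base => exact le_rfl
  | succ n hn ih =>
    refine le_trans ?_ ih
    unfold AD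
    have h1 : (3 : ℝ) ≤ j := by exact_mod_cast hj
    have : 0 ≤ 81 * ((j : ℝ) - 3 / 2) / 4 := by
      apply div_nonneg _ (by norm_num)
      nlinarith
    exact mul_le_mul_of_nonneg_right (prdZ_step hj n) this

lemma ZZ_step_j {J : ℝ} (hJ : 32 ≤ J) : ZZ (J + 1) 1 ≤ 121 / 100 * ZZ J 1 := by
  have h1 : WT (J + 1) 1 ≤ 11 / 10 * WT J 1 := by
    unfold WT aT
    nlinarith
  have h2 : 0 ≤ WT (J + 1) 1 := WT_nonneg (by linarith) (by norm_num)
  have h3 := pow_le_pow_left₀ h2 h1 2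
  unfold ZZ
  have h4 : 0 ≤ (1413 / 100 : ℝ) ^ 2 * (4 / 3) * 1 := by norm_num
  nlinarith

lemma AC_step_j {j : ℕ} (hj : 32 ≤ j) : AC (j + 1) 0 ≤ AC j 0 := by
  unfold AC
  rw [prd_succ_left]
  have h1 : (32 : ℝ) ≤ j := by exact_mod_cast hj
  push_cast
  simp only [zero_add]
  set J : ℝ := (j : ℝ) with hJ
  have h2 := ZZ_step_j h1
  have h3 : J + 1 - 1 / 2 ≤ 11 / 10 * (J - 1 / 2) := by linarith
  have h5 : 0 ≤ J + 1 - 1 / 2 := by linarith
  have h6 := pow_le_pow_left₀ h5 h3 2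
  have hZ0 : 0 ≤ ZZ J 1 := by
    unfold ZZ
    positivity
  have hZ1 : 0 ≤ ZZ (J + 1) 1 := by
    unfold ZZ
    positivity
  have h7 : ZZ (J + 1) 1 * (J + 1 - 1 / 2) ^ 2 ≤
      (121 / 100 * ZZ J 1) * (11 / 10 * (J - 1 / 2)) ^ 2 :=
    mul_le_mul h2 h6 (sq_nonneg _) (by positivity)
  have h8 : p1 ^ 2 * (ZZ (J + 1) 1 * (J + 1 - 1 / 2) ^ 2) ≤ ZZ J 1 * (J - 1 / 2) ^ 2 := by
    have h9 : 0 ≤ ZZ J 1 * (J - 1 / 2) ^ 2 := by positivity
    have e : (121 / 100 * ZZ J 1) * (11 / 10 * (J - 1 / 2)) ^ 2 =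
        (121 / 100 * (121 / 100)) * (ZZ J 1 * (J - 1 / 2) ^ 2) := by ring
    rw [e] at h7
    unfold p1
    nlinarith
  have h11 := sq_nonneg (prd j 0)
  calc (prd j 0 * p1) ^ 2 * ZZ (J + 1) 1 * (81 * (J + 1 - 1 / 2) ^ 2 / 25)
      = prd j 0 ^ 2 * (81 / 25) * (p1 ^ 2 * (ZZ (J + 1) 1 * (J + 1 - 1 / 2) ^ 2)) := by ring
    _ ≤ prd j 0 ^ 2 * (81 / 25) * (ZZ J 1 * (J - 1 / 2) ^ 2) := by gcongr
    _ = _ := by ring

lemma AC_le_j {j : ℕ} (h : 32 ≤ j) : AC j 0 ≤ AC 32 0 := by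
  induction j, h using Nat.le_induction with
  | base => exact le_rfl
  | succ j hj ih => exact (AC_step_j hj).trans ih

lemma AC_base {j : ℕ} (h3 : 6 ≤ j) (h : j ≤ 32) : AC j (32 - j) ≤ k9 * CC ^ 2 := by
  interval_cases j <;> norm_num [AC, ZZ, WT, aT, prd, p1, p2, CC, k9]

lemma AD_base {j : ℕ} (h3 : 3 ≤ j) (h : j ≤ 5) : AD j (32 - j) ≤ k9 * CC ^ 2 := by
  interval_cases j <;> norm_num [AD, ZZ, WT, aT, prd, p1, p2, CC, k9]

lemma numC {j n : ℕ} (hj : 6 ≤ j) (h : 32 ≤ j + n) : AC j n ≤ k9 * CC ^ 2 := by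
  by_cases h32 : j ≤ 32
  · exact (AC_le_n (by omega) (by omega)).trans (AC_base hj h32)
  · have h1 := AC_le_n (j := j) (by omega) (Nat.zero_le n)
    have h2 := AC_le_j (j := j) (by omega)
    have h3 := AC_base (j := 32) (by norm_num) le_rfl
    exact h1.trans (h2.trans h3)

lemma numD {j n : ℕ} (hj : 3 ≤ j) (hj5 : j ≤ 5) (h : 32 ≤ j + n) : AD j n ≤ k9 * CC ^ 2 :=
  (AD_le_n hj (by omega)).trans (AD_base hj hj5)

/-- The bound of the product, from the failure of the criterion in closed form. -/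
theorem tail_bound' {k : ℕ} (hk : 33 ≤ k) {ρ : ℕ → ℝ} (hanti : ∀ i, i + 1 < k → ρ (i + 1) ≤ ρ i)
    (hpos : ∀ i, i < k → 0 < ρ i) (hle : ∀ i, i < k → ρ i ≤ 2 / 3)
    (hsum : ∑ i ∈ Finset.range k, ρ i ^ 2 = 1)
    (hfail : ∀ j, 3 ≤ j → j < k →
      (1413 / 100) ^ 2 * 3 * (ρ 1 * ρ 2) ^ 2 <
        ρ j ^ 2 * (4 * WW j (k - j) ^ 2 + (1413 / 100) ^ 2 * (4 / 3) * ((k - j : ℕ) : ℝ))) :
    ∃ j n : ℕ, j + (n + 1) = k ∧ (∀ l, l < j → 3 * ρ (k - 1) < ρ l) ∧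
      prd j n ≤ CC * ρ (k - 1) := by
  have hmono : ∀ a b, a ≤ b → b < k → ρ b ≤ ρ a := by
    intro a b hab
    induction b, hab using Nat.le_induction with
    | base => exact fun _ => le_rfl
    | succ b hb ih =>
      intro hb1
      exact (hanti b hb1).trans (ih (by omega))
  set σ := ρ (k - 1) with hσdef
  have hσ : 0 < σ := hpos _ (by omega)
  have hex : ∃ l, ρ l ≤ 3 * σ := ⟨k - 1, by linarith⟩
  classical
  obtain ⟨j, hj, hjlt, hjk⟩ : ∃ j, ρ j ≤ 3 * σ ∧ (∀ l, l < j → 3 * σ < ρ l) ∧ j ≤ k - 1 :=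
    ⟨Nat.find hex, Nat.find_spec hex, fun l hl => not_le.mp (Nat.find_min hex hl),
      Nat.find_min' hex (by linarith)⟩
  obtain ⟨n, hn⟩ : ∃ n, j + (n + 1) = k := ⟨k - 1 - j, by omega⟩
  refine ⟨j, n, hn, hjlt, ?_⟩
  have hP := prd_pos j n
  suffices hsq : prd j n ^ 2 ≤ (CC * σ) ^ 2 by
    exact (pow_le_pow_iff_left₀ hP.le (mul_pos CC_pos hσ).le two_ne_zero).1 hsq
  rw [mul_pow]
  have hP2 : 0 ≤ prd j n ^ 2 := sq_nonneg _
  have hσ2 : 0 ≤ σ ^ 2 := sq_nonneg _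
  have hp0 : 0 < ρ 0 := hpos 0 (by omega)
  have hp1 : 0 < ρ 1 := hpos 1 (by omega)
  have hp2 : 0 < ρ 2 := hpos 2 (by omega)
  have h21 : ρ 2 ≤ ρ 1 := hmono _ _ (by norm_num) (by omega)
  have hs0 : ρ 0 ^ 2 ≤ 4 / 9 := by
    have := pow_le_pow_left₀ hp0.le (hle 0 (by omega)) 2
    norm_num at this ⊢
    exact this
  have hs1 : ρ 1 ^ 2 ≤ 4 / 9 := by
    have := pow_le_pow_left₀ hp1.le (hle 1 (by omega)) 2
    norm_num at this ⊢
    exact this
  have hIco : ∀ a b, b ≤ k → ∑ i ∈ Finset.Ico a b, ρ i ^ 2 ≤ ((b - a : ℕ) : ℝ) * ρ a ^ 2 := by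
    intro a b hb
    have h1 : ∑ i ∈ Finset.Ico a b, ρ i ^ 2 ≤ ∑ _i ∈ Finset.Ico a b, ρ a ^ 2 := by
      refine Finset.sum_le_sum fun i hi => ?_
      rw [Finset.mem_Ico] at hi
      exact pow_le_pow_left₀ (hpos i (by omega)).le (hmono _ _ hi.1 (by omega)) 2
    refine h1.trans (le_of_eq ?_)
    rw [Finset.sum_const, Nat.card_Ico, nsmul_eq_mul]
  have hsplit : ∀ a, a ≤ k → ∑ i ∈ Finset.range a, ρ i ^ 2 + ∑ i ∈ Finset.Ico a k, ρ i ^ 2 = 1 := by
    intro a ha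
    rw [← hsum, Finset.range_eq_Ico, Finset.range_eq_Ico]
    exact Finset.sum_Ico_consecutive _ (by omega) ha
  have hj2 : ρ j ^ 2 ≤ 9 * σ ^ 2 := by
    have := pow_le_pow_left₀ (hpos j (by omega)).le hj 2
    rw [mul_pow] at this
    norm_num at this
    exact this
  rcases Nat.lt_or_ge j 3 with hj3 | hj3
  · exact tail_small_j hj3 hn hk hIco hsplit hs0 hs1 hj2 hσ2
  -- the main case
  have hjkk : j < k := by omega
  have hjR : (3 : ℝ) ≤ j := by exact_mod_cast hj3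
  have hkj : k - j = n + 1 := by omega
  have hnn : (0 : ℝ) ≤ n := by positivity
  set M := ∑ i ∈ Finset.Ico j k, ρ i ^ 2 with hM
  have hM1 : M ≤ ((n : ℝ) + 1) * (9 * σ ^ 2) := by
    have h1 := hIco j k le_rfl
    rw [hkj] at h1
    push_cast at h1
    refine h1.trans ?_
    gcongr
  have hmass : 1 ≤ ρ 0 ^ 2 + ρ 1 ^ 2 + ((j : ℝ) - 2) * ρ 2 ^ 2 + M := by
    have h1 := hsplit 2 (by omega)
    simp only [Finset.sum_range_succ, Finset.sum_range_zero, zero_add] at h1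
    have h2 : ∑ i ∈ Finset.Ico 2 k, ρ i ^ 2 = ∑ i ∈ Finset.Ico 2 j, ρ i ^ 2 + M := by
      rw [hM]
      exact (Finset.sum_Ico_consecutive _ (by omega) (by omega)).symm
    have h3 := hIco 2 j (by omega)
    have h4 : ((j - 2 : ℕ) : ℝ) = (j : ℝ) - 2 := by
      rw [Nat.cast_sub (by omega)]; norm_num
    rw [h4] at h3
    linarith
  by_cases hcase : ρ 2 ^ 2 / 2 ≤ M
  · -- large tail mass
    have h3 := numB (j := j) (n := n) hj3 (by omega)
    unfold BB at h3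
    exact finish hP2 h3 (large_mass_real hjR hs0 hs1 hmass hcase hM1 hnn hσ2) hσ2
  -- small tail mass
  push Not at hcase
  have hapos : 0 < ρ 2 ^ 2 := pow_pos hp2 2
  have hbpos : 0 < ρ 1 ^ 2 := pow_pos hp1 2
  have hab : ρ 2 ^ 2 ≤ ρ 1 ^ 2 := pow_le_pow_left₀ hp2.le h21 2
  have hDe : ((j : ℝ) - 2) * ρ 2 ^ 2 + ρ 2 ^ 2 / 2 = ((j : ℝ) - 3 / 2) * ρ 2 ^ 2 := by ring
  have hDa : 1 ≤ 9 * ((j : ℝ) - 3 / 2) * ρ 2 ^ 2 := by
    have e : 9 * ((j : ℝ) - 3 / 2) * ρ 2 ^ 2 = 9 * (((j : ℝ) - 3 / 2) * ρ 2 ^ 2) := by ring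
    rw [e]
    linarith
  have hDb : 5 / 9 ≤ ρ 1 ^ 2 + ((j : ℝ) - 3 / 2) * ρ 2 ^ 2 := by linarith
  have hfj := hfail j hj3 hjkk
  rw [hkj] at hfj
  have hcast : ((n + 1 : ℕ) : ℝ) = (n : ℝ) + 1 := by push_cast; ring
  rw [hcast] at hfj
  set Z := ZZ j ((n : ℝ) + 1) with hZdef
  have hZ0 : 0 ≤ Z := by
    rw [hZdef]
    unfold ZZ
    positivity
  have hZ1 : 4 * WW j (n + 1) ^ 2 + (1413 / 100) ^ 2 * (4 / 3) * ((n : ℝ) + 1) ≤ Z := by
    rw [hZdef]
    unfold ZZ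
    have h1 : WW j (n + 1) ≤ WT j ((n + 1 : ℕ) : ℝ) := WW_le_WT
    rw [hcast] at h1
    have h2 := pow_le_pow_left₀ WW_nonneg h1 2
    linarith
  have hlow : k9 * (ρ 2 ^ 2 * ρ 1 ^ 2) ≤ Z * σ ^ 2 := by
    have h1 : ρ j ^ 2 * (4 * WW j (n + 1) ^ 2 + (1413 / 100) ^ 2 * (4 / 3) * ((n : ℝ) + 1)) ≤
        (9 * σ ^ 2) * Z := mul_le_mul hj2 hZ1 (by positivity) (by positivity)
    have e1 : k9 * (ρ 2 ^ 2 * ρ 1 ^ 2) = ((1413 / 100) ^ 2 * 3 * (ρ 1 * ρ 2) ^ 2) / 9 := by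
      unfold k9
      ring
    have e2 : Z * σ ^ 2 = ((9 * σ ^ 2) * Z) / 9 := by ring
    rw [e1, e2]
    linarith
  have hk9 : 0 < k9 := by unfold k9; norm_num
  rcases Nat.lt_or_ge j 6 with hj6 | hj6
  · have hj5 : (j : ℝ) ≤ 5 := by
      have : j ≤ 5 := by omega
      exact_mod_cast this
    have hab2 := ab_small (D := (j : ℝ) - 3 / 2) hapos hab (by linarith) (by linarith) hDa hDb
    have hZ : 0 ≤ 81 * ((j : ℝ) - 3 / 2) / 4 := by
      apply div_nonneg _ (by norm_num)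
      linarith
    have hZ1 : 1 ≤ 81 * ((j : ℝ) - 3 / 2) / 4 * (ρ 2 ^ 2 * ρ 1 ^ 2) := by
      have e : 81 * ((j : ℝ) - 3 / 2) / 4 * (ρ 2 ^ 2 * ρ 1 ^ 2) =
          (81 * ((j : ℝ) - 3 / 2) * (ρ 2 ^ 2 * ρ 1 ^ 2)) / 4 := by ring
      rw [e]
      linarith
    have hnum := numD (n := n) hj3 (by omega) (by omega)
    unfold AD at hnum
    exact concl_aux hP2 hZ hk9 hZ1 hnum hlow hσ2
  · have hj6R : (6 : ℝ) ≤ j := by exact_mod_cast hj6
    have hab2 := ab_large (D := (j : ℝ) - 3 / 2) hapos hab (by linarith) hDa hDb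
    have hZ : 0 ≤ 81 * ((j : ℝ) - 1 / 2) ^ 2 / 25 := by positivity
    have hZ1 : 1 ≤ 81 * ((j : ℝ) - 1 / 2) ^ 2 / 25 * (ρ 2 ^ 2 * ρ 1 ^ 2) := by
      have e : (j : ℝ) - 3 / 2 + 1 = (j : ℝ) - 1 / 2 := by ring
      rw [e] at hab2
      have e2 : 81 * ((j : ℝ) - 1 / 2) ^ 2 / 25 * (ρ 2 ^ 2 * ρ 1 ^ 2) =
          (81 * ((j : ℝ) - 1 / 2) ^ 2 * (ρ 2 ^ 2 * ρ 1 ^ 2)) / 25 := by ring
      rw [e2]
      linarith
    have hnum := numC (n := n) hj6 (by omega)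
    unfold AC at hnum
    exact concl_aux hP2 hZ hk9 hZ1 hnum hlow hσ2

/-! ### Upper bounds for the normal distribution function -/

lemma Phi_num {a P : ℝ} (ha : 0 ≤ a) (n m : ℕ) (hm : 0 < m) (hP : phi0 ≤ P) :
    NN.real (Iio a) ≤ 1 / 2 + P / (∑ i ∈ Finset.range m, (a ^ 2 / 2) ^ i / (i.factorial : ℝ)) *
      serR a n + P * (a ^ (2 * n + 3) / (2 * n + 3)) / dfN n := by
  have hs : 0 ≤ serR a n := by
    induction n with
    | zero => simpa [serR] using ha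
    | succ n ih => simp only [serR]; positivity
  have h1 := real_Iio_le a
  rw [NN_Ioi_eq ha, int_phi_series a n] at h1
  have h2 := phi_le_of_sum (a := a) hm hP
  have h3 := remainder_le ha n
  have hd : (0 : ℝ) < dfN n := by exact_mod_cast dfN_pos n
  have h4 : (∫ x in (0 : ℝ)..a, x ^ (2 * n + 2) * phi x) / dfN n ≤
      P * (a ^ (2 * n + 3) / (2 * n + 3)) / dfN n := by
    apply div_le_div_of_nonneg_right _ hd.le
    refine h3.trans ?_
    have : 0 ≤ a ^ (2 * n + 3) / (2 * (n : ℝ) + 3) := by positivity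
    gcongr
  have h5 := mul_le_mul_of_nonneg_right h2 hs
  linarith

lemma Phi1 : NN.real (Iio (4 / 15 : ℝ)) ≤ p1 := by
  refine (Phi_num (a := 4 / 15) (P := 3989422805 / 10000000000) (by norm_num) 4 8 (by norm_num)
    phi0_lt.le).trans ?_
  norm_num [serR, dfN, Finset.sum_range_succ, Nat.factorial, p1]

lemma Phi2 : NN.real (Iio (4 / 5 : ℝ)) ≤ p2 := by
  refine (Phi_num (a := 4 / 5) (P := 3989422805 / 10000000000) (by norm_num) 4 8 (by norm_num)
    phi0_lt.le).trans ?_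
  norm_num [serR, dfN, Finset.sum_range_succ, Nat.factorial, p2]

lemma Phi3 : NN.real (Iio (1 / 5 : ℝ)) ≤ 5793 / 10000 := by
  refine (Phi_num (a := 1 / 5) (P := 3989422805 / 10000000000) (by norm_num) 4 8 (by norm_num)
    phi0_lt.le).trans ?_
  norm_num [serR, dfN, Finset.sum_range_succ, Nat.factorial]

lemma Phi4 : NN.real (Iio (3 / 5 : ℝ)) ≤ 7258 / 10000 := by
  refine (Phi_num (a := 3 / 5) (P := 3989422805 / 10000000000) (by norm_num) 4 8 (by norm_num)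
    phi0_lt.le).trans ?_
  norm_num [serR, dfN, Finset.sum_range_succ, Nat.factorial]

/-- The product over the first `j + n` indices. -/
lemma prod_Phi_le {j n : ℕ} {ρ : ℕ → ℝ} {σ τ A B : ℝ} (hτ : 0 ≤ τ)
    (hA : NN.real (Iio (τ / 3)) ≤ A) (hB : NN.real (Iio τ) ≤ B)
    (hpos : ∀ l, l < j + n → 0 < ρ l)
    (h1 : ∀ l, l < j → 3 * σ < ρ l) (h2 : ∀ l, l < j + n → σ ≤ ρ l) :
    ∏ l ∈ Finset.range (j + n), NN.real (Iio (τ * (σ / ρ l))) ≤ A ^ j * B ^ n := by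
  rw [Finset.prod_range_add]
  have hA0 : 0 ≤ A := measureReal_nonneg.trans hA
  have hB0 : 0 ≤ B := measureReal_nonneg.trans hB
  have e1 : ∏ x ∈ Finset.range j, NN.real (Iio (τ * (σ / ρ x))) ≤ A ^ j := by
    calc ∏ x ∈ Finset.range j, NN.real (Iio (τ * (σ / ρ x)))
        ≤ ∏ _x ∈ Finset.range j, A := by
          refine Finset.prod_le_prod (fun _ _ => measureReal_nonneg) fun l hl => ?_
          have hl' := Finset.mem_range.mp hl
          refine le_trans (measureReal_mono (Iio_subset_Iio ?_)) hA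
          have hp := hpos l (by omega)
          have h3 := h1 l hl'
          have h4 : σ / ρ l ≤ 1 / 3 := by
            rw [div_le_iff₀ hp]
            linarith
          calc τ * (σ / ρ l) ≤ τ * (1 / 3) := by gcongr
            _ = τ / 3 := by ring
      _ = A ^ j := by simp
  have e2 : ∏ x ∈ Finset.range n, NN.real (Iio (τ * (σ / ρ (j + x)))) ≤ B ^ n := by
    calc ∏ x ∈ Finset.range n, NN.real (Iio (τ * (σ / ρ (j + x))))
        ≤ ∏ _x ∈ Finset.range n, B := by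
          refine Finset.prod_le_prod (fun _ _ => measureReal_nonneg) fun l hl => ?_
          have hl' := Finset.mem_range.mp hl
          refine le_trans (measureReal_mono (Iio_subset_Iio ?_)) hB
          have hp := hpos (j + l) (by omega)
          have h3 := h2 (j + l) (by omega)
          have h4 : σ / ρ (j + l) ≤ 1 := by
            rw [div_le_iff₀ hp]
            linarith
          calc τ * (σ / ρ (j + l)) ≤ τ * 1 := by gcongr
            _ = τ := by ring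
      _ = B ^ n := by simp
  exact mul_le_mul e1 e2 (Finset.prod_nonneg fun _ _ => measureReal_nonneg) (pow_nonneg hA0 _)

end Tail

open Tail in
/-- The numerical core. `hfail` says that the deletion criterion fails at every `j`
(see `crit_of_small` in `G18Step`). The conclusion is the smallness of the product. -/
theorem num_core {k : ℕ} (hk : 33 ≤ k) (ρ : ℕ → ℝ)
    (hanti : ∀ i, i + 1 < k → ρ (i + 1) ≤ ρ i) (hpos : ∀ i, i < k → 0 < ρ i)
    (hle : ∀ i, i < k → ρ i ≤ 2 / 3) (hsum : ∑ i ∈ Finset.range k, ρ i ^ 2 = 1)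
    (hfail : ∀ j, 3 ≤ j → j < k →
      (1413 / 100) ^ 2 * 3 * (ρ 1 * ρ 2) ^ 2 <
        ρ j ^ 2 * (4 * WW j (k - j) ^ 2 + (1413 / 100) ^ 2 * (4 / 3) * ((k - j : ℕ) : ℝ))) :
    2 * (27914 / 10000) * ((304 / 10000) * ∏ l ∈ Finset.range (k - 1),
          NN.real (Iio ((4 / 5) * (ρ (k - 1) / ρ l))) +
        (2030 / 10000) * ∏ l ∈ Finset.range (k - 1),
          NN.real (Iio ((3 / 5) * (ρ (k - 1) / ρ l)))) ≤
      (5984 / 10000) * ρ (k - 1) * (1 / 2 - (415 / 1000) * (1 + 2 / (k : ℝ))) := by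
  obtain ⟨j, n, hjn, hlt, hprd⟩ := tail_bound' hk hanti hpos hle hsum hfail
  have hk1 : k - 1 = j + n := by omega
  set σ := ρ (k - 1) with hσdef
  have hσ : 0 < σ := hpos _ (by omega)
  have hmono : ∀ l, l < j + n → σ ≤ ρ l := by
    intro l hl
    have h : ∀ m, l + m < k → ρ (l + m) ≤ ρ l := by
      intro m
      induction m with
      | zero => exact fun _ => le_rfl
      | succ m ih =>
        intro hm
        exact (hanti (l + m) (by omega)).trans (ih (by omega))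
    have e : l + (k - 1 - l) = k - 1 := by omega
    have := h (k - 1 - l) (by omega)
    rwa [e] at this
  have hposl : ∀ l, l < j + n → 0 < ρ l := fun l hl => hpos l (by omega)
  rw [hk1]
  have h8 := prod_Phi_le (j := j) (n := n) (ρ := ρ) (σ := σ) (τ := 4 / 5) (A := p1) (B := p2)
    (by norm_num) (by have := Phi1; norm_num at this ⊢; exact this) Phi2 hposl hlt hmono
  have h6 := prod_Phi_le (j := j) (n := n) (ρ := ρ) (σ := σ) (τ := 3 / 5) (A := 5793 / 10000)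
    (B := 7258 / 10000)
    (by norm_num) (by have := Phi3; norm_num at this ⊢; exact this) Phi4 hposl hlt hmono
  have hprd' : p1 ^ j * p2 ^ n ≤ CC * σ := hprd
  -- the second product is smaller by a fixed factor
  have hθ : ((5793 / 10000 : ℝ)) ^ j * (7258 / 10000) ^ n ≤
      (9573 / 10000) ^ 32 * (p1 ^ j * p2 ^ n) := by
    have e1 : (5793 / 10000 : ℝ) ^ j ≤ ((9573 / 10000) * p1) ^ j := by
      apply pow_le_pow_left₀ (by norm_num)
      unfold p1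
      norm_num
    have e2 : (7258 / 10000 : ℝ) ^ n ≤ ((9573 / 10000) * p2) ^ n := by
      apply pow_le_pow_left₀ (by norm_num)
      unfold p2
      norm_num
    have hp1 := p1_pos
    have hp2 := p2_pos
    have e3 : ((9573 / 10000 : ℝ)) ^ (j + n) ≤ (9573 / 10000) ^ 32 :=
      pow_le_pow_of_le_one (by norm_num) (by norm_num) (by omega)
    calc (5793 / 10000 : ℝ) ^ j * (7258 / 10000) ^ n
        ≤ ((9573 / 10000) * p1) ^ j * ((9573 / 10000) * p2) ^ n :=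
          mul_le_mul e1 e2 (by positivity) (by positivity)
      _ = (9573 / 10000) ^ (j + n) * (p1 ^ j * p2 ^ n) := by
          rw [mul_pow, mul_pow, pow_add]
          ring
      _ ≤ _ := by gcongr
  have hk33 : (33 : ℝ) ≤ k := by exact_mod_cast hk
  have hd : (598 / 10000 : ℝ) ≤ 1 / 2 - (415 / 1000) * (1 + 2 / (k : ℝ)) := by
    have : 2 / (k : ℝ) ≤ 2 / 33 := by
      apply div_le_div_of_nonneg_left (by norm_num) (by norm_num) hk33
    nlinarith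
  have hc : (9573 / 10000 : ℝ) ^ 32 ≤ 25 / 100 := by norm_num
  have hCC : CC = 285 / 10000 := rfl
  have hP0 : 0 ≤ p1 ^ j * p2 ^ n := by
    have hp1 := p1_pos
    have hp2 := p2_pos
    positivity
  have h6' : ∏ l ∈ Finset.range (j + n), NN.real (Iio ((3 / 5) * (σ / ρ l))) ≤
      (25 / 100) * (CC * σ) :=
    h6.trans (hθ.trans (mul_le_mul hc hprd' hP0 (by norm_num)))
  have h8' := h8.trans hprd'
  rw [hCC] at h6' h8'
  have hR : (5984 / 10000) * σ * (598 / 10000 : ℝ) ≤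
      (5984 / 10000) * σ * (1 / 2 - (415 / 1000) * (1 + 2 / (k : ℝ))) := by
    gcongr
  refine le_trans ?_ hR
  nlinarith

end

end Vale.Agent.Lib.P226
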