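import Mathlib
import Vale.Agent.Lib.P226.G14Main
import Vale.Agent.Lib.P226.G17Num

/-!
Single deletion: auxiliary steps at a maximizer.
-/

open MeasureTheory ProbabilityTheory Real Set Filter Topology
open scoped ENNReal NNReal RealInnerProductSpace

namespace Vale.Agent.Lib.P226

set_option linter.unusedSectionVars false

noncomputable section

variable {E : Type*} [NormedAddCommGroup E] [InnerProductSpace ℝ E] [FiniteDimensional ℝ E]
  [MeasurableSpace E] [BorelSpace E]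

/-- Norms of a maximizer beating the propeller are below `2/3` (same proof as `norm_le_of_opt`). -/
lemma norm_le_two_thirds {k : ℕ} [NeZero k] {S : Fin k → E} (hS : Opt S)
    (hV : (3 / 4) * √(2 / π) < VV S) (i : Fin k) : ‖S i‖ ≤ 2 / 3 := by
  have hφ := phi0_pos
  have hV' : (3 / 2) * phi0 < VV S := by rw [three_half_phi0]; exact hV
  have hVpos : 0 < VV S := by linarith
  by_cases h0 : S i = 0
  · rw [h0, norm_zero]; norm_num
  have hρ : 0 < ‖S i‖ := norm_pos_iff.mpr h0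
  have h1 : ∫ x in vorCell S i, ⟪S i, x⟫ ∂(stdGaussian E) = VV S * ‖S i‖ ^ 2 := by
    rw [opt_inner_cell hS hVpos i, real_inner_self_eq_norm_sq]
  have h2 : ∫ x in vorCell S i, ⟪S i, x⟫ ∂(stdGaussian E) ≤ ‖S i‖ * phi0 := by
    calc ∫ x in vorCell S i, ⟪S i, x⟫ ∂(stdGaussian E)
        ≤ ∫ x in vorCell S i, max (⟪S i, x⟫ - 0) 0 ∂(stdGaussian E) := by
          apply setIntegral_mono (integrable_inner_gauss _).integrableOn
            (integrable_max_inner _ _).integrableOn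
          intro x
          simp
      _ ≤ ∫ x, max (⟪S i, x⟫ - 0) 0 ∂(stdGaussian E) := by
          apply setIntegral_le_integral (integrable_max_inner _ _)
          filter_upwards with x using le_max_right _ _
      _ = ‖S i‖ * phi0 := integral_max_inner_zero _
  rw [h1] at h2
  have h3 : VV S * ‖S i‖ ≤ phi0 := by
    have : ‖S i‖ * (VV S * ‖S i‖) ≤ ‖S i‖ * phi0 := by nlinarith
    exact le_of_mul_le_mul_left this hρ
  have h4 : (3 / 2) * phi0 * ‖S i‖ ≤ phi0 := by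
    refine le_trans ?_ h3
    gcongr
  have h5 : (3 / 2) * ‖S i‖ ≤ 1 := by
    have : phi0 * ((3 / 2) * ‖S i‖) ≤ phi0 * 1 := by linarith
    exact le_of_mul_le_mul_left this hφ
  linarith

omit [FiniteDimensional ℝ E] [MeasurableSpace E] [BorelSpace E] in
private lemma Vf_comp_perm' {k : ℕ} [NeZero k] (T : Fin k → E) (σ : Equiv.Perm (Fin k)) (x : E) :
    Vf (T ∘ σ) x = Vf T x := by
  unfold Vf
  exact σ.iSup_comp (g := fun i => ⟪T i, x⟫)

private lemma VV_comp_perm' {k : ℕ} [NeZero k] (T : Fin k → E) (σ : Equiv.Perm (Fin k)) :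
    VV (T ∘ σ) = VV T := by
  unfold VV
  simp_rw [Vf_comp_perm']

omit [FiniteDimensional ℝ E] [MeasurableSpace E] [BorelSpace E] in
private lemma comp_perm_mem_SS' {k : ℕ} {T : Fin k → E} (hT : T ∈ (SS k : Set (Fin k → E)))
    (σ : Equiv.Perm (Fin k)) : T ∘ σ ∈ (SS k : Set (Fin k → E)) := by
  rw [mem_SS] at hT ⊢
  have h := Equiv.sum_comp σ (fun i => ‖T i‖ ^ 2)
  simp only [Function.comp]
  rw [h]
  exact hT

private lemma opt_comp_perm' {k : ℕ} [NeZero k] {T : Fin k → E} (hT : Opt T)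
    (σ : Equiv.Perm (Fin k)) : Opt (T ∘ σ) := by
  refine ⟨comp_perm_mem_SS' hT.mem σ, fun T' hT' => ?_⟩
  rw [VV_comp_perm']
  exact hT.max T' hT'

/-- Orthogonal vectors can be merged: `W = T` with `T i + T j` at `i`, `0` at `j` (as in
`opt_obtuse` with `ρ = 0`) is in `SS`, `VV W ≥ VV T`, so it is a maximizer with a zero vector; move
it to the end by a permutation (`opt_comp_perm`, `VV_comp_perm`) and use `zero_delete`. -/
theorem merge_step {m : ℕ} [NeZero m] (T : Fin (m + 1) → E) (hT : Opt T) (hV : 0 < VV T)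
    {i j : Fin (m + 1)} (hij : i ≠ j) (h0 : ⟪T i, T j⟫ = 0) :
    ∃ T' : Fin m → E, T' ∈ (SS m : Set (Fin m → E)) ∧ VV T ≤ VV T' := by
  have hsum := opt_sum_sq_eq hT hV
  set W : Fin (m + 1) → E :=
    fun l => T l + (if l = i then T j else 0) - (if l = j then T j else 0) with hW
  set c : Fin (m + 1) → Fin (m + 1) := fun l => if l = j then i else l with hc
  have hji : j ≠ i := hij.symm
  have hWi : W i = T i + T j := by simp [hW, hij]
  have hWj : W j = 0 := by simp [hW, hji]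
  have hWl : ∀ l, l ≠ i → l ≠ j → W l = T l := by
    intro l h1 h2
    simp [hW, h1, h2]
  have hD : ∑ l, ‖W l‖ ^ 2 = 1 := by
    have h1 : ∀ l, ‖W l‖ ^ 2 = ‖T l‖ ^ 2 + (if l = i then ‖T j‖ ^ 2 else 0)
        + (if l = j then -‖T j‖ ^ 2 else 0) := by
      intro l
      by_cases h1 : l = i
      · subst h1
        rw [hWi, norm_add_sq_real, h0]
        simp [hij]
      · by_cases h2 : l = j
        · subst h2
          rw [hWj]
          simp [hji]
        · rw [hWl l h1 h2]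
          simp [h1, h2]
    simp_rw [h1]
    rw [Finset.sum_add_distrib, Finset.sum_add_distrib, hsum]
    simp
  have hsumc : ∑ l, ⟪W (c l), T l⟫ = 1 := by
    have h1 : ∀ l, ⟪W (c l), T l⟫ = ‖T l‖ ^ 2 := by
      intro l
      by_cases h1 : l = i
      · subst h1
        have : c l = l := by simp [hc]
        rw [this, hWi, inner_add_left, real_inner_self_eq_norm_sq, real_inner_comm, h0, add_zero]
      · by_cases h2 : l = j
        · subst h2
          have : c l = i := by simp [hc]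
          rw [this, hWi, inner_add_left, real_inner_self_eq_norm_sq, h0, zero_add]
        · have : c l = l := by simp [hc, h2]
          rw [this, hWl l h1 h2, real_inner_self_eq_norm_sq]
    simp_rw [h1]
    exact hsum
  have hWmem : W ∈ (SS (m + 1) : Set (Fin (m + 1) → E)) := by
    rw [mem_SS]
    exact hD.le
  have h1 := sum_inner_le_VV (isPart_vorCell T) W c
  have h2 : ∑ l, ⟪W (c l), zz (vorCell T l)⟫ = VV T := by
    have : ∀ l, ⟪W (c l), zz (vorCell T l)⟫ = VV T * ⟪W (c l), T l⟫ := by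
      intro l
      rw [← opt_smul hT hV l, inner_smul_right]
    simp_rw [this]
    rw [← Finset.mul_sum, hsumc, mul_one]
  rw [h2] at h1
  have hWopt : Opt W := ⟨hWmem, fun T' hT' => (hT.max T' hT').trans h1⟩
  -- move the zero vector to the end
  set σ : Equiv.Perm (Fin (m + 1)) := Equiv.swap j (Fin.natAdd m 0) with hσ
  have hopt : Opt (W ∘ σ) := opt_comp_perm' hWopt σ
  have hVW : VV (W ∘ σ) = VV W := VV_comp_perm' W σ
  have hlast : (W ∘ σ) (Fin.natAdd m 0) = 0 := by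
    simp only [Function.comp, hσ, Equiv.swap_apply_right, hWj]
  obtain ⟨T', hT', hle⟩ := zero_delete (W ∘ σ) hopt (by rw [hVW]; linarith) hlast
  exact ⟨T', hT', by linarith⟩

/-- A gain of at most half the mass of the last vector allows the deletion (see the end of
`descent_step`, with `VV_succAbove` at `i = Fin.last m`). -/
theorem delete_of_gain {m : ℕ} [NeZero m] (T : Fin (m + 1) → E) (hT : Opt T) (hV : 0 < VV T)
    (hσ : ‖T (Fin.last m)‖ ^ 2 < 1)
    (hg : ∫ x, max (⟪T (Fin.last m), x⟫ - Vf (fun l : Fin m => T l.castSucc) x) 0 ∂(stdGaussian E) ≤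
      (VV T / 2) * ‖T (Fin.last m)‖ ^ 2) :
    ∃ T' : Fin m → E, T' ∈ (SS m : Set (Fin m → E)) ∧ VV T ≤ VV T' := by
  set σ := ‖T (Fin.last m)‖ with hσdef
  set w : Fin m → E := fun l => T l.castSucc with hw
  have hsum1 := opt_sum_sq_eq hT hV
  have hsum2 : ∑ j, ‖T j‖ ^ 2 = ∑ l, ‖w l‖ ^ 2 + σ ^ 2 :=
    Fin.sum_univ_castSucc (fun j => ‖T j‖ ^ 2)
  have hVT : VV T = VV w + ∫ x, max (⟪T (Fin.last m), x⟫ - Vf w x) 0 ∂(stdGaussian E) := by
    have := VV_succAbove T (Fin.last m)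
    simpa [hw, Fin.succAbove_last] using this
  have h1σ : 0 < 1 - σ ^ 2 := by linarith
  set ρ := √(1 - σ ^ 2) with hρ
  have hρpos : 0 < ρ := Real.sqrt_pos.mpr h1σ
  have hρsq : ρ ^ 2 = 1 - σ ^ 2 := Real.sq_sqrt h1σ.le
  refine ⟨fun l => ρ⁻¹ • w l, ?_, ?_⟩
  · rw [mem_SS]
    have : ∑ l, ‖ρ⁻¹ • w l‖ ^ 2 = (ρ⁻¹) ^ 2 * ∑ l, ‖w l‖ ^ 2 := by
      rw [Finset.mul_sum]
      apply Finset.sum_congr rfl
      intro l _
      rw [norm_smul, mul_pow, norm_inv, Real.norm_eq_abs, abs_of_pos hρpos]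
    rw [this]
    have h2 : ∑ l, ‖w l‖ ^ 2 = ρ ^ 2 := by
      rw [hρsq]
      linarith
    rw [h2]
    apply le_of_eq
    field_simp
  · rw [VV_smul w (inv_pos.mpr hρpos)]
    have h3 : VV T * (1 - σ ^ 2 / 2) ≤ VV w := by
      have e : VV T * (1 - σ ^ 2 / 2) = VV T - (VV T / 2) * σ ^ 2 := by ring
      rw [e]
      linarith
    have h4 : ρ ≤ 1 - σ ^ 2 / 2 := by
      have h5 : ρ ^ 2 ≤ (1 - σ ^ 2 / 2) ^ 2 := by
        rw [hρsq]
        nlinarith [sq_nonneg (σ ^ 2)]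
      exact (pow_le_pow_iff_left₀ hρpos.le (by nlinarith) two_ne_zero).1 h5
    rw [inv_mul_eq_div, le_div_iff₀ hρpos]
    calc VV T * ρ ≤ VV T * (1 - σ ^ 2 / 2) := by gcongr
      _ ≤ _ := h3

/-- The criterion holds when the norm at `j` is small. Route: `crit_real` from `GSound` with
`T = t = ρ j`, `n = k - j`, `Mb = n T²`, `P = Q = R = √n T`, `A1 = ρ 1`, `A2 = ρ 2`; then
`P + 3/4 j Q + 9/8 j R + 27/32 j² T = T * WW j n`, and `ρ 1 ² ≤ 4/9` turns `hsmall` into `hmain`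
and `hlt`. -/
theorem crit_of_small {k : ℕ} (ρ : ℕ → ℝ) (hanti : ∀ i, i + 1 < k → ρ (i + 1) ≤ ρ i)
    (hpos : ∀ i, i < k → 0 < ρ i) (hle : ∀ i, i < k → ρ i ≤ 2 / 3) {j : ℕ} (hj : 3 ≤ j)
    (hjk : j < k)
    (hsmall : ρ j ^ 2 * (4 * WW j (k - j) ^ 2 + (1413 / 100) ^ 2 * (4 / 3) * ((k - j : ℕ) : ℝ)) ≤
      (1413 / 100) ^ 2 * 3 * (ρ 1 * ρ 2) ^ 2) :
    PcCrit k ρ j := by
  set T := ρ j with hTdef
  have hTpos : 0 < T := hpos j hjk
  set n := k - j with hndef
  have hn1 : 1 ≤ n := by omega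
  have hnR : (1 : ℝ) ≤ n := by exact_mod_cast hn1
  have hn0 : (0 : ℝ) < n := by linarith
  have hmono : ∀ i, j ≤ i → i < k → ρ i ≤ T := by
    intro i hi hik
    induction i, hi using Nat.le_induction with
    | base => exact le_rfl
    | succ i hi ih => exact (hanti i hik).trans (ih (by omega))
  have hmem : ∀ i ∈ Finset.Ico j k, 0 < ρ i ∧ ρ i ≤ T := by
    intro i hi
    rw [Finset.mem_Ico] at hi
    exact ⟨hpos i hi.2, hmono i hi.1 hi.2⟩
  set M := pcM k ρ j with hM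
  have hMpos : 0 < M := by
    rw [hM]
    unfold pcM
    apply Finset.sum_pos
    · intro i hi
      exact pow_pos (hmem i hi).1 2
    · exact ⟨j, Finset.mem_Ico.mpr ⟨le_rfl, hjk⟩⟩
  have hMn : M ≤ n * T ^ 2 := by
    rw [hM]
    unfold pcM
    calc ∑ i ∈ Finset.Ico j k, ρ i ^ 2 ≤ ∑ _i ∈ Finset.Ico j k, T ^ 2 :=
          Finset.sum_le_sum fun i hi => by
            have := hmem i hi
            exact pow_le_pow_left₀ this.1.le this.2 2
      _ = n * T ^ 2 := by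
          rw [Finset.sum_const, Nat.card_Ico, nsmul_eq_mul]
  have hy3 : ∑ i ∈ Finset.Ico j k, ρ i ^ 3 ≤ T * M := by
    rw [hM]
    unfold pcM
    rw [Finset.mul_sum]
    refine Finset.sum_le_sum fun i hi => ?_
    have h1 := (hmem i hi).2
    have h2 := (hmem i hi).1
    have : ρ i ^ 3 = ρ i * ρ i ^ 2 := by ring
    rw [this]
    gcongr
  set s := √(n : ℝ) with hs
  have hs0 : 0 ≤ s := Real.sqrt_nonneg _
  have hss : s ^ 2 = n := Real.sq_sqrt hn0.le
  have hs1 : 1 ≤ s := by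
    rw [hs]
    exact Real.one_le_sqrt.mpr hnR
  have hρ1 : ρ 1 ^ 2 ≤ 4 / 9 := by
    have h1 := hle 1 (by omega)
    have h2 := hpos 1 (by omega)
    nlinarith
  have hρ2pos := hpos 2 (by omega)
  have hWW : WW j n = s * (1 + 15 / 8 * j) + 27 / 32 * (j : ℝ) ^ 2 := rfl
  have hjR : (3 : ℝ) ≤ j := by exact_mod_cast hj
  have hWWpos : 0 < WW j n := by
    rw [hWW]
    positivity
  set c : ℝ := (1413 / 100) ^ 2 with hc
  have hcpos : 0 < c := by rw [hc]; positivity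
  have hsmall' : T ^ 2 * (4 * WW j n ^ 2) + c * (4 / 3) * (n * T ^ 2) ≤
      c * 3 * (ρ 1 ^ 2 * ρ 2 ^ 2) := by
    have e1 : T ^ 2 * (4 * WW j n ^ 2) + c * (4 / 3) * (n * T ^ 2) =
        T ^ 2 * (4 * WW j n ^ 2 + c * (4 / 3) * (n : ℝ)) := by ring
    have e2 : c * 3 * (ρ 1 ^ 2 * ρ 2 ^ 2) = c * 3 * (ρ 1 * ρ 2) ^ 2 := by ring
    rw [e1, e2]
    exact hsmall
  have hpos1 : 0 < T ^ 2 * (4 * WW j n ^ 2) := by positivity
  have hρ2 : 0 ≤ ρ 2 ^ 2 := sq_nonneg _
  have hlt : n * T ^ 2 < ρ 2 ^ 2 := by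
    have h1 : c * 3 * (ρ 1 ^ 2 * ρ 2 ^ 2) ≤ c * 3 * ((4 / 9) * ρ 2 ^ 2) := by
      gcongr
    have h2 : c * (4 / 3) * (n * T ^ 2) < c * (4 / 3) * ρ 2 ^ 2 := by
      have e : c * 3 * ((4 / 9) * ρ 2 ^ 2) = c * (4 / 3) * ρ 2 ^ 2 := by ring
      linarith
    exact lt_of_mul_lt_mul_left h2 (by positivity)
  refine crit_real (j := j) (by omega) (T := T) (Mb := n * T ^ 2) (P := s * T) (Q := s * T)
    (R := s * T) (A1 := ρ 1) (A2 := ρ 2) (ρ1 := ρ 1) (ρ2 := ρ 2) (m := M)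
    (y3 := ∑ i ∈ Finset.Ico j k, ρ i ^ 3) (t := T)
    hMpos hMn le_rfl hTpos.le hy3 (by positivity) (by positivity) (by positivity)
    ?_ ?_ ?_ le_rfl (hpos 1 (by omega)).le le_rfl hρ2pos.le hlt ?_
  · rw [mul_pow, hss]
  · have : (s * T) ^ 3 = s * s ^ 2 * T ^ 3 := by ring
    rw [this, hss]
    have h1 : T * (n * T ^ 2) = (n : ℝ) * T ^ 3 := by ring
    rw [h1]
    have hT3 : 0 < T ^ 3 := by positivity
    have : (n : ℝ) ≤ s * n := by nlinarith
    exact mul_le_mul_of_nonneg_right this hT3.le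
  · have : (s * T) ^ 6 = (s ^ 2) ^ 3 * T ^ 6 := by ring
    rw [this, hss]
    have h1 : T ^ 4 * (n * T ^ 2) = (n : ℝ) * T ^ 6 := by ring
    rw [h1]
    have hT6 : 0 < T ^ 6 := by positivity
    have : (n : ℝ) ≤ (n : ℝ) ^ 3 := by nlinarith [mul_self_nonneg ((n : ℝ) - 1), sq_nonneg (n : ℝ)]
    gcongr
  · have e1 : s * T + 3 / 4 * (j : ℝ) * (s * T) + 9 / 8 * (j : ℝ) * (s * T) +
        27 / 32 * (j : ℝ) ^ 2 * T = T * WW j n := by
      rw [hWW]
      ring
    rw [e1]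
    have e2 : 4 * (T * WW j n) ^ 2 = T ^ 2 * (4 * WW j n ^ 2) := by ring
    rw [e2]
    have e3 : (1413 / 100 : ℝ) ^ 2 * (3 * (ρ 1 ^ 2 * (ρ 2 ^ 2 - n * T ^ 2))) =
        c * 3 * (ρ 1 ^ 2 * ρ 2 ^ 2) - c * 3 * ρ 1 ^ 2 * (n * T ^ 2) := by
      rw [hc]; ring
    rw [e3]
    have h1 : c * 3 * ρ 1 ^ 2 * (n * T ^ 2) ≤ c * (4 / 3) * (n * T ^ 2) := by
      have h2 : c * 3 * ρ 1 ^ 2 ≤ c * (4 / 3) := by
        have : c * 3 * ρ 1 ^ 2 ≤ c * 3 * (4 / 9) := by gcongr
        linarith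
      exact mul_le_mul_of_nonneg_right h2 (by positivity)
    have h3 : T ^ 2 * (4 * WW j n ^ 2) ≤ c * 3 * (ρ 1 ^ 2 * ρ 2 ^ 2) - c * (4 / 3) * (n * T ^ 2) :=
      le_sub_iff_add_le.mpr hsmall'
    exact h3.trans (sub_le_sub_left h1 _)

end

end Vale.Agent.Lib.P226
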