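import Mathlib
import Vale.Agent.Lib.P226.G18Misc
import Vale.Agent.Lib.P226.G16Gain
import Vale.Agent.Lib.P226.G16Prod

/-!
Single deletion: the induction step for `k ≥ 33`.
-/

open MeasureTheory ProbabilityTheory Real Set Filter Topology
open scoped ENNReal NNReal RealInnerProductSpace

namespace Vale.Agent.Lib.P226

set_option linter.unusedSectionVars false

noncomputable section

variable {E : Type*} [NormedAddCommGroup E] [InnerProductSpace ℝ E] [FiniteDimensional ℝ E]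
  [MeasurableSpace E] [BorelSpace E]

/-- The real inequality at the end of the single deletion. -/
lemma single_real {A S F₁ F₂ P₁ P₂ V σ m : ℝ} (hσ : 0 < σ) (hV : 5984 / 10000 ≤ V) (_hm : 0 < m)
    (hA : A ≤ (415 / 1000) * S + 2 * σ * ((304 / 10000) * F₁ + (2030 / 10000) * F₂))
    (hS : S ≤ V * σ ^ 2 * (1 + 2 / (m + 1)))
    (hF₁ : F₁ ≤ (27914 / 10000) * P₁) (hF₂ : F₂ ≤ (27914 / 10000) * P₂)
    (hP₁ : 0 ≤ P₁) (hP₂ : 0 ≤ P₂)
    (hnum : 2 * (27914 / 10000) * ((304 / 10000) * P₁ + (2030 / 10000) * P₂) ≤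
      (5984 / 10000) * σ * (1 / 2 - (415 / 1000) * (1 + 2 / (m + 1)))) :
    A ≤ (V / 2) * σ ^ 2 := by
  set d := 1 / 2 - (415 / 1000) * (1 + 2 / (m + 1)) with hd
  have hLHS : 0 ≤ 2 * (27914 / 10000) * ((304 / 10000) * P₁ + (2030 / 10000) * P₂) := by positivity
  have hd0 : 0 ≤ d := by
    by_contra hcon
    have h1 : d < 0 := not_le.mp hcon
    have h2 : (5984 / 10000) * σ * d < 0 := mul_neg_of_pos_of_neg (by positivity) h1
    linarith
  have h1 : 2 * σ * ((304 / 10000) * F₁ + (2030 / 10000) * F₂) ≤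
      σ * (2 * (27914 / 10000) * ((304 / 10000) * P₁ + (2030 / 10000) * P₂)) := by
    have : (304 / 10000) * F₁ + (2030 / 10000) * F₂ ≤
        (304 / 10000) * ((27914 / 10000) * P₁) + (2030 / 10000) * ((27914 / 10000) * P₂) := by
      gcongr
    nlinarith
  have h2 : σ * (2 * (27914 / 10000) * ((304 / 10000) * P₁ + (2030 / 10000) * P₂)) ≤
      σ * ((5984 / 10000) * σ * d) := by gcongr
  have h3 : σ * ((5984 / 10000) * σ * d) ≤ σ * (V * σ * d) := by gcongr
  have h4 : (415 / 1000) * S ≤ (415 / 1000) * (V * σ ^ 2 * (1 + 2 / (m + 1))) := by gcongr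
  have h5 : (415 / 1000) * (V * σ ^ 2 * (1 + 2 / (m + 1))) + σ * (V * σ * d) = (V / 2) * σ ^ 2 := by
    rw [hd]
    ring
  linarith

/-- The single deletion theorem. Route: `σ = ‖T last‖`, `u = σ⁻¹ • T last`, `w = T ∘ castSucc`:
`CellData` as in `descent_step`. `DD σ w u = vorCell T last`, so `opt_inner_cell` gives `hbar` of
`flux_eq` and `∫ φ(GG) = V σ` (`integral_DD`). `flux_eq` and `sum_cc_sq`:
`∑ c_r flux_r ≤ V σ² (1 + 2/(m+1))`. `gain_le_stair`, `F_le_prod`, `prod_beta` and `hnum` give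
gain `≤ (V/2) σ²`. Then `delete_of_gain`. -/
theorem single_delete {m : ℕ} [NeZero m] (T : Fin (m + 1) → E) (hT : Opt T)
    (hV : (5984 / 10000 : ℝ) ≤ VV T) (hT0 : ∀ i, T i ≠ 0)
    (hstrict : ∀ i j, i ≠ j → ⟪T i, T j⟫ < 0)
    (hnum : 2 * (27914 / 10000) * ((304 / 10000) * ∏ l : Fin m,
          NN.real (Iio ((4 / 5) * (‖T (Fin.last m)‖ / ‖T l.castSucc‖))) +
        (2030 / 10000) * ∏ l : Fin m,
          NN.real (Iio ((3 / 5) * (‖T (Fin.last m)‖ / ‖T l.castSucc‖)))) ≤
      (5984 / 10000) * ‖T (Fin.last m)‖ * (1 / 2 - (415 / 1000) * (1 + 2 / ((m : ℝ) + 1)))) :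
    ∃ T' : Fin m → E, T' ∈ (SS m : Set (Fin m → E)) ∧ VV T ≤ VV T' := by
  have hVpos : 0 < VV T := by linarith
  set σ := ‖T (Fin.last m)‖ with hσdef
  have hσpos : 0 < σ := norm_pos_iff.mpr (hT0 _)
  set u := σ⁻¹ • T (Fin.last m) with hu
  have hTu : σ • u = T (Fin.last m) := by
    rw [hu, smul_smul, mul_inv_cancel₀ hσpos.ne', one_smul]
  set w : Fin m → E := fun l => T l.castSucc with hw
  have hne : ∀ l : Fin m, (l.castSucc : Fin (m + 1)) ≠ Fin.last m := fun l =>
    (Fin.castSucc_lt_last l).ne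
  have hsum : ∑ l, w l + T (Fin.last m) = 0 := by
    have := opt_sum_zero hT hVpos
    rwa [Fin.sum_univ_castSucc] at this
  have hcell : CellData σ u w := by
    refine ⟨hσpos, norm_smul_inv_norm (hT0 _), ?_, ?_, ?_⟩
    · intro l
      rw [hu, inner_smul_right]
      exact mul_nonpos_of_nonneg_of_nonpos (by positivity) (hstrict _ _ (hne l)).le
    · rw [hTu]
      exact hsum
    · intro l r hlr
      exact (hstrict _ _ (fun h => hlr (Fin.castSucc_injective _ h))).le
  have hstrictw : ∀ l r, l ≠ r → ⟪w l, w r⟫ < 0 := fun l r hlr =>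
    hstrict _ _ (fun h => hlr (Fin.castSucc_injective _ h))
  have hDD : DD σ w u = vorCell T (Fin.last m) := by
    ext y
    simp only [DD, vorCell, Set.mem_ofPred_eq, hTu]
    constructor
    · intro h
      refine ⟨fun j => ?_, fun j hj => ?_⟩
      · induction j using Fin.lastCases with
        | last => exact le_rfl
        | cast l => exact (h l).le
      · obtain ⟨l, rfl⟩ := Fin.exists_castSucc_eq.2 hj.ne
        exact h l
    · intro h l
      exact h.2 _ (Fin.castSucc_lt_last l)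
  have hbar : ∀ a : E, ⟪a, u⟫ = 0 → ∫ y in DD σ w u, ⟪a, y⟫ ∂(stdGaussian E) = 0 := by
    intro a ha
    rw [hDD, opt_inner_cell hT hVpos, ← hTu, inner_smul_right, ha]
    ring
  have huu : ⟪u, u⟫ = 1 := inner_u_u hcell
  have hφ : ∫ x, phi (GG σ w u x) ∂(stdGaussian E) = VV T * σ := by
    rw [← integral_DD hcell, hDD, opt_inner_cell hT hVpos, ← hTu, inner_smul_right, huu]
    ring
  have hwne : ∀ l, w l ≠ 0 := fun l => hT0 _
  -- the flux sum
  have hmpos : (0 : ℝ) < m := by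
    have : 0 < m := NeZero.pos m
    exact_mod_cast this
  have hS : ∑ r, cc σ w u r * flux σ w u r ≤ VV T * σ ^ 2 * (1 + 2 / ((m : ℝ) + 1)) := by
    have h1 : ∀ r, cc σ w u r * flux σ w u r = VV T / (m + 1) * cc σ w u r ^ 2 := by
      intro r
      have h2 := flux_eq hcell hbar hstrictw r
      rw [hφ] at h2
      have hne' : ((m : ℝ) + 1) * σ ≠ 0 := by positivity
      have h3 : flux σ w u r = VV T * σ * cc σ w u r / ((m + 1) * σ) := by
        rw [eq_div_iff hne']
        exact h2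
      rw [h3]
      field_simp
    simp_rw [h1]
    rw [← Finset.mul_sum]
    have h2 := sum_cc_sq hcell
    have h3 : VV T / (m + 1) * ∑ r, cc σ w u r ^ 2 ≤ VV T / (m + 1) * ((m + 3) * σ ^ 2) := by
      gcongr
    refine h3.trans (le_of_eq ?_)
    field_simp
    ring
  have hF : ∀ t : ℝ, 0 ≤ t → (stdGaussian E).real {x | GG σ w u x < t} ≤
      (27914 / 10000) * ∏ l, NN.real (Iio (t * (σ / ‖w l‖))) := by
    intro t ht
    have h1 := F_le_prod hcell hwne ht
    have h2 := prod_beta hcell hwne ht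
    linarith
  have hgain := gain_le_stair hcell
  rw [hTu] at hgain
  have hP : ∀ t : ℝ, 0 ≤ ∏ l, NN.real (Iio (t * (σ / ‖w l‖))) := fun t =>
    Finset.prod_nonneg (fun _ _ => measureReal_nonneg)
  have hfin := single_real (m := m) hσpos hV hmpos hgain hS (hF _ (by norm_num)) (hF _ (by norm_num))
    (hP _) (hP _) hnum
  apply delete_of_gain T hT hVpos _ hfin
  have h1 := opt_sum_sq_eq hT hVpos
  rw [Fin.sum_univ_castSucc] at h1
  have h2 : 0 < ∑ l : Fin m, ‖T l.castSucc‖ ^ 2 :=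
    Finset.sum_pos (fun l _ => by
      have := norm_pos_iff.mpr (hT0 l.castSucc)
      positivity) ⟨0, Finset.mem_univ _⟩
  linarith

lemma five984_le : (5984 / 10000 : ℝ) ≤ (3 / 4) * √(2 / π) := by
  rw [← three_half_phi0]
  have := phi0_gt
  linarith

/-- The induction step for `k ≥ 33`. Route: as `step_aux` in `G14Main`, sort a maximizer in
`EN N`; zero vector: `zero_delete`; an orthogonal pair: `merge_step`; otherwise strictly obtuse
(`opt_obtuse`). With `ρ = rhoOf S`, `ρ i ≤ 2/3` (`norm_le_two_thirds`): if some `j ∈ [3,k)` has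
`hsmall` of `crit_of_small`, then `PcCrit` and `delete_of_crit`; else `num_core` gives `hnum`
(convert `∏` over `Fin m` to `Finset.range`), and `single_delete`, with `5984/10000 ≤ (3/4)√(2/π)`.
Conclude with `contra_of_delete`. -/
theorem step_large {k N : ℕ} (hk : 33 ≤ k) (hN : k ≤ N + 1) (IH : ∀ j, j < k → PP j) : PP k := by
  apply PP_of_EN hN
  intro _ S hS
  by_contra hcon
  push Not at hcon
  obtain ⟨τ, hτ⟩ := exists_sorted S
  have hopt : Opt (S ∘ τ) := opt_comp_perm hS τ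
  have hV : (3 / 4) * √(2 / π) < VV (S ∘ τ) := by
    rw [VV_comp_perm]
    exact hcon
  have hV0 : 0 < VV (S ∘ τ) := lt_of_le_of_lt (by positivity) hV
  generalize S ∘ τ = S' at hopt hV hV0 hτ
  -- a zero vector
  by_cases h0 : ∃ i, S' i = 0
  · obtain ⟨i, hi⟩ := h0
    obtain ⟨n, rfl⟩ : ∃ n, k = n + 1 := ⟨k - 1, by omega⟩
    have : NeZero n := ⟨by omega⟩
    have hlast : S' (Fin.natAdd n 0) = 0 := by
      have hle : i ≤ Fin.natAdd n 0 := by
        rw [Fin.le_def]
        simp only [Fin.val_natAdd, Fin.val_zero]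
        omega
      have h2 := hτ i _ hle
      rw [hi, norm_zero] at h2
      exact norm_le_zero_iff.mp h2
    obtain ⟨T', hT', hle⟩ := zero_delete S' hopt hV0 hlast
    exact contra_of_delete (by omega) IH T' hT' hle hV
  push Not at h0
  have hρlt : ∀ {i : ℕ} (h : i < k), rhoOf S' i = ‖S' ⟨i, h⟩‖ := fun h => rhoOf_lt S' h
  have hanti : ∀ i, i + 1 < k → rhoOf S' (i + 1) ≤ rhoOf S' i := by
    intro i hi
    rw [hρlt hi, hρlt (by omega : i < k)]
    apply hτ
    rw [Fin.le_def]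
    simp
  have hpos : ∀ i, i < k → 0 < rhoOf S' i := by
    intro i hi
    rw [hρlt hi]
    exact norm_pos_iff.mpr (h0 _)
  have hle : ∀ i, i < k → rhoOf S' i ≤ 2 / 3 := by
    intro i hi
    rw [hρlt hi]
    exact norm_le_two_thirds hopt hV _
  have hsum : ∑ i ∈ Finset.range k, rhoOf S' i ^ 2 = 1 := by
    rw [← opt_sum_sq_eq hopt hV0, Finset.sum_range]
    refine Finset.sum_congr rfl (fun i _ => ?_)
    rw [hρlt i.2]
  -- the criterion
  by_cases hcrit : ∃ j, 3 ≤ j ∧ j < k ∧ rhoOf S' j ^ 2 * (4 * WW j (k - j) ^ 2 +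
      (1413 / 100) ^ 2 * (4 / 3) * ((k - j : ℕ) : ℝ)) ≤ (1413 / 100) ^ 2 * 3 * (rhoOf S' 1 * rhoOf S' 2) ^ 2
  · obtain ⟨j, hj3, hjk, hsmall⟩ := hcrit
    have hc := crit_of_small (rhoOf S') hanti hpos hle hj3 hjk hsmall
    obtain ⟨r, rfl⟩ : ∃ r, k = j + r := ⟨k - j, by omega⟩
    have : NeZero j := ⟨by omega⟩
    have : NeZero r := ⟨by omega⟩
    obtain ⟨T', hT', hle'⟩ := delete_of_crit hj3 S' hopt hV hτ hc
    exact contra_of_delete (by omega) IH T' hT' hle' hV
  push Not at hcrit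
  obtain ⟨n, rfl⟩ : ∃ n, k = n + 1 := ⟨k - 1, by omega⟩
  have : NeZero n := ⟨by omega⟩
  -- an orthogonal pair
  by_cases horth : ∃ i j, i ≠ j ∧ ⟪S' i, S' j⟫ = 0
  · obtain ⟨i, j, hij, h00⟩ := horth
    obtain ⟨T', hT', hle'⟩ := merge_step S' hopt hV0 hij h00
    exact contra_of_delete (by omega) IH T' hT' hle' hV
  push Not at horth
  have hstrict : ∀ i j, i ≠ j → ⟪S' i, S' j⟫ < 0 := fun i j hij =>
    lt_of_le_of_ne (opt_obtuse hopt hV0 hij) (horth i j hij)
  have hnc := num_core hk (rhoOf S') hanti hpos hle hsum (fun j h3 hj => hcrit j h3 hj)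
  simp only [Nat.add_sub_cancel] at hnc
  have hρlast : rhoOf S' n = ‖S' (Fin.last n)‖ := hρlt (Nat.lt_succ_self n)
  have hρl : ∀ l : Fin n, rhoOf S' l = ‖S' l.castSucc‖ := fun l => hρlt (by omega)
  have hprod : ∀ t : ℝ, ∏ l ∈ Finset.range n, NN.real (Iio (t * (rhoOf S' n / rhoOf S' l))) =
      ∏ l : Fin n, NN.real (Iio (t * (‖S' (Fin.last n)‖ / ‖S' l.castSucc‖))) := by
    intro t
    rw [Finset.prod_range]
    refine Finset.prod_congr rfl (fun l _ => ?_)
    rw [hρlast, hρl]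
  rw [hprod, hprod, hρlast] at hnc
  have hnum := hnc
  push_cast at hnum
  obtain ⟨T', hT', hle'⟩ := single_delete S' hopt (five984_le.trans hV.le) h0 hstrict hnum
  exact contra_of_delete (by omega) IH T' hT' hle' hV

end

end Vale.Agent.Lib.P226
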