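import Mathlib
import Vale.Agent.Lib.P226.G18Misc

/-!
Single deletion for `k ≥ 16`: the group criterion with the exact roots of `n`.
-/

open MeasureTheory ProbabilityTheory Real Set Filter Topology

namespace Vale.Agent.Lib.P226

/-- `pU n / 1000 ≥ √n`, for `n ≤ 32`. -/
def pU (n : ℕ) : ℕ :=
  [0, 1000, 1415, 1733, 2000, 2237, 2450, 2646, 2829, 3000, 3163, 3317, 3465, 3606, 3742,
    3873, 4000, 4124, 4243, 4359, 4473, 4583, 4691, 4796, 4899, 5000, 5100, 5197, 5292, 5386,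
    5478, 5568, 5657].getD n 0

/-- `qU n / 1000 ≥ n^(1/3)`, for `n ≤ 32`. -/
def qU (n : ℕ) : ℕ :=
  [0, 1001, 1260, 1443, 1588, 1710, 1818, 1913, 2001, 2081, 2155, 2224, 2290, 2352, 2411,
    2467, 2520, 2572, 2621, 2669, 2715, 2759, 2803, 2844, 2885, 2925, 2963, 3001, 3037, 3073,
    3108, 3142, 3175].getD n 0

/-- `rU n / 1000 ≥ n^(1/6)`, for `n ≤ 32`. -/
def rU (n : ℕ) : ℕ :=
  [0, 1001, 1123, 1201, 1260, 1308, 1349, 1384, 1415, 1443, 1468, 1492, 1514, 1534, 1553,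
    1571, 1588, 1604, 1619, 1634, 1648, 1662, 1674, 1687, 1699, 1710, 1722, 1733, 1743, 1753,
    1763, 1773, 1782].getD n 0

/-- The coefficient of the criterion, scale `32000`. -/
def EUn (j n : ℕ) : ℕ := 32 * pU n + 24 * j * qU n + 36 * j * rU n + 27000 * j * j

lemma pU_sq : ∀ n < 33, 1 ≤ n → n * 10 ^ 6 ≤ pU n ^ 2 := by decide

lemma qU_cube : ∀ n < 33, 1 ≤ n → n * 10 ^ 9 ≤ qU n ^ 3 := by decide

lemma rU_six : ∀ n < 33, 1 ≤ n → n * 10 ^ 18 ≤ rU n ^ 6 := by decide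

noncomputable section

/-- The coefficient of the criterion: an upper bound of
`√n + (3/4) j n^(1/3) + (9/8) j n^(1/6) + (27/32) j²`. -/
def EU (j n : ℕ) : ℝ := (EUn j n : ℝ) / 32000

/-- The criterion holds when the norm at `j` is small. Same proof as `crit_of_small`, with
`P = (pU n/1000) T`, `Q = (qU n/1000) T`, `R = (rU n/1000) T` (by `decide`: `n * 10^6 ≤ pU n ^ 2`,
`n * 10^9 ≤ qU n ^ 3`, `n * 10^18 ≤ rU n ^ 6` for `1 ≤ n ≤ 32`). -/
theorem crit_of_small_E {k : ℕ} (ρ : ℕ → ℝ) (hanti : ∀ i, i + 1 < k → ρ (i + 1) ≤ ρ i)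
    (hpos : ∀ i, i < k → 0 < ρ i) (hle : ∀ i, i < k → ρ i ≤ 2 / 3) {j : ℕ} (hj : 3 ≤ j)
    (hjk : j < k) (hk32 : k - j ≤ 32)
    (hsmall : ρ j ^ 2 * (4 * EU j (k - j) ^ 2 + (1413 / 100) ^ 2 * (4 / 3) * ((k - j : ℕ) : ℝ)) ≤
      (1413 / 100) ^ 2 * 3 * (ρ 1 * ρ 2) ^ 2) :
    PcCrit k ρ j := by
  set T := ρ j with hTdef
  have hTpos : 0 < T := hpos j hjk
  set n := k - j with hndef
  have hn1 : 1 ≤ n := by omega
  have hnR : (1 : ℝ) ≤ n := by exact_mod_cast hn1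
  have hn0 : (0 : ℝ) < n := by linarith
  have hmono : ∀ i, j ≤ i → i < k → ρ i ≤ T := by
    intro i hi hik
    induction i, hi using Nat.le_induction with
    | base => exact le_rfl
    | succ i hi ih => exact (hanti i hik).trans (ih (by omega))
  have hmem : ∀ i ∈ Finset.Ico j k, 0 < ρ i ∧ ρ i ≤ T := by
    intro i hi
    rw [Finset.mem_Ico] at hi
    exact ⟨hpos i hi.2, hmono i hi.1 hi.2⟩
  set M := pcM k ρ j with hM
  have hMpos : 0 < M := by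
    rw [hM]
    unfold pcM
    apply Finset.sum_pos
    · intro i hi
      exact pow_pos (hmem i hi).1 2
    · exact ⟨j, Finset.mem_Ico.mpr ⟨le_rfl, hjk⟩⟩
  have hMn : M ≤ n * T ^ 2 := by
    rw [hM]
    unfold pcM
    calc ∑ i ∈ Finset.Ico j k, ρ i ^ 2 ≤ ∑ _i ∈ Finset.Ico j k, T ^ 2 :=
          Finset.sum_le_sum fun i hi => by
            have := hmem i hi
            exact pow_le_pow_left₀ this.1.le this.2 2
      _ = n * T ^ 2 := by
          rw [Finset.sum_const, Nat.card_Ico, nsmul_eq_mul]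
  have hy3 : ∑ i ∈ Finset.Ico j k, ρ i ^ 3 ≤ T * M := by
    rw [hM]
    unfold pcM
    rw [Finset.mul_sum]
    refine Finset.sum_le_sum fun i hi => ?_
    have h1 := (hmem i hi).2
    have h2 := (hmem i hi).1
    have : ρ i ^ 3 = ρ i * ρ i ^ 2 := by ring
    rw [this]
    gcongr
  have hρ1 : ρ 1 ^ 2 ≤ 4 / 9 := by
    have h1 := hle 1 (by omega)
    have h2 := hpos 1 (by omega)
    nlinarith
  have hρ2pos := hpos 2 (by omega)
  have hjR : (3 : ℝ) ≤ j := by exact_mod_cast hj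
  -- the three numerical roots
  set p : ℝ := (pU n : ℝ) / 1000 with hp
  set q : ℝ := (qU n : ℝ) / 1000 with hq
  set r : ℝ := (rU n : ℝ) / 1000 with hr
  have hp0 : 0 ≤ p := by rw [hp]; positivity
  have hq0 : 0 ≤ q := by rw [hq]; positivity
  have hr0 : 0 ≤ r := by rw [hr]; positivity
  have hpn : (n : ℝ) ≤ p ^ 2 := by
    have h := pU_sq n (by omega) hn1
    have h' : (n : ℝ) * 10 ^ 6 ≤ (pU n : ℝ) ^ 2 := by exact_mod_cast h
    rw [hp, div_pow]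
    rw [le_div_iff₀ (by norm_num)]
    norm_num at h' ⊢
    linarith
  have hqn : (n : ℝ) ≤ q ^ 3 := by
    have h := qU_cube n (by omega) hn1
    have h' : (n : ℝ) * 10 ^ 9 ≤ (qU n : ℝ) ^ 3 := by exact_mod_cast h
    rw [hq, div_pow]
    rw [le_div_iff₀ (by norm_num)]
    norm_num at h' ⊢
    linarith
  have hrn : (n : ℝ) ≤ r ^ 6 := by
    have h := rU_six n (by omega) hn1
    have h' : (n : ℝ) * 10 ^ 18 ≤ (rU n : ℝ) ^ 6 := by exact_mod_cast h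
    rw [hr, div_pow]
    rw [le_div_iff₀ (by norm_num)]
    norm_num at h' ⊢
    linarith
  have hEU : EU j n = p + 3 / 4 * j * q + 9 / 8 * j * r + 27 / 32 * (j : ℝ) ^ 2 := by
    rw [hp, hq, hr]
    unfold EU EUn
    push_cast
    ring
  have hEUpos : 0 < EU j n := by
    rw [hEU]
    positivity
  set c : ℝ := (1413 / 100) ^ 2 with hc
  have hcpos : 0 < c := by rw [hc]; positivity
  have hsmall' : T ^ 2 * (4 * EU j n ^ 2) + c * (4 / 3) * (n * T ^ 2) ≤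
      c * 3 * (ρ 1 ^ 2 * ρ 2 ^ 2) := by
    have e1 : T ^ 2 * (4 * EU j n ^ 2) + c * (4 / 3) * (n * T ^ 2) =
        T ^ 2 * (4 * EU j n ^ 2 + c * (4 / 3) * (n : ℝ)) := by ring
    have e2 : c * 3 * (ρ 1 ^ 2 * ρ 2 ^ 2) = c * 3 * (ρ 1 * ρ 2) ^ 2 := by ring
    rw [e1, e2]
    exact hsmall
  have hpos1 : 0 < T ^ 2 * (4 * EU j n ^ 2) := by positivity
  have hρ2 : 0 ≤ ρ 2 ^ 2 := sq_nonneg _
  have hlt : n * T ^ 2 < ρ 2 ^ 2 := by
    have h1 : c * 3 * (ρ 1 ^ 2 * ρ 2 ^ 2) ≤ c * 3 * ((4 / 9) * ρ 2 ^ 2) := by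
      gcongr
    have h2 : c * (4 / 3) * (n * T ^ 2) < c * (4 / 3) * ρ 2 ^ 2 := by
      have e : c * 3 * ((4 / 9) * ρ 2 ^ 2) = c * (4 / 3) * ρ 2 ^ 2 := by ring
      linarith
    exact lt_of_mul_lt_mul_left h2 (by positivity)
  refine crit_real (j := j) (by omega) (T := T) (Mb := n * T ^ 2) (P := p * T) (Q := q * T)
    (R := r * T) (A1 := ρ 1) (A2 := ρ 2) (ρ1 := ρ 1) (ρ2 := ρ 2) (m := M)
    (y3 := ∑ i ∈ Finset.Ico j k, ρ i ^ 3) (t := T)
    hMpos hMn le_rfl hTpos.le hy3 (by positivity) (by positivity) (by positivity)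
    ?_ ?_ ?_ le_rfl (hpos 1 (by omega)).le le_rfl hρ2pos.le hlt ?_
  · rw [mul_pow]
    gcongr
  · have e : (q * T) ^ 3 = q ^ 3 * T ^ 3 := by ring
    have h1 : T * (n * T ^ 2) = (n : ℝ) * T ^ 3 := by ring
    rw [e, h1]
    gcongr
  · have e : (r * T) ^ 6 = r ^ 6 * T ^ 6 := by ring
    have h1 : T ^ 4 * (n * T ^ 2) = (n : ℝ) * T ^ 6 := by ring
    rw [e, h1]
    gcongr
  · have e1 : p * T + 3 / 4 * (j : ℝ) * (q * T) + 9 / 8 * (j : ℝ) * (r * T) +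
        27 / 32 * (j : ℝ) ^ 2 * T = T * EU j n := by
      rw [hEU]
      ring
    rw [e1]
    have e2 : 4 * (T * EU j n) ^ 2 = T ^ 2 * (4 * EU j n ^ 2) := by ring
    rw [e2]
    have e3 : (1413 / 100 : ℝ) ^ 2 * (3 * (ρ 1 ^ 2 * (ρ 2 ^ 2 - n * T ^ 2))) =
        c * 3 * (ρ 1 ^ 2 * ρ 2 ^ 2) - c * 3 * ρ 1 ^ 2 * (n * T ^ 2) := by
      rw [hc]; ring
    rw [e3]
    have h1 : c * 3 * ρ 1 ^ 2 * (n * T ^ 2) ≤ c * (4 / 3) * (n * T ^ 2) := by
      have h2 : c * 3 * ρ 1 ^ 2 ≤ c * (4 / 3) := by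
        have : c * 3 * ρ 1 ^ 2 ≤ c * 3 * (4 / 9) := by gcongr
        linarith
      exact mul_le_mul_of_nonneg_right h2 (by positivity)
    have h3 : T ^ 2 * (4 * EU j n ^ 2) ≤ c * 3 * (ρ 1 ^ 2 * ρ 2 ^ 2) - c * (4 / 3) * (n * T ^ 2) :=
      le_sub_iff_add_le.mpr hsmall'
    exact h3.trans (sub_le_sub_left h1 _)

end

end Vale.Agent.Lib.P226
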