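import Mathlib
import Vale.Agent.Lib.P226.G16Prod

/-!
Single deletion for `k ≥ 16`: the product bound without the factor two, directly on the family `vv`.
-/

open MeasureTheory ProbabilityTheory Real Set Filter Topology
open scoped ENNReal NNReal RealInnerProductSpace

namespace Vale.Agent.Lib.P226

set_option linter.unusedSectionVars false

noncomputable section

variable {E : Type*} [NormedAddCommGroup E] [InnerProductSpace ℝ E] [FiniteDimensional ℝ E]
  [MeasurableSpace E] [BorelSpace E]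
variable {m : ℕ} [NeZero m] {σ : ℝ} {u : E} {w : Fin m → E}

namespace PhiBetaAux

/-- The polynomial lower bound of the density. -/
lemma phi_ge_poly (x : ℝ) : phi0 * (1 - x ^ 2 / 2) ≤ phi x := by
  rw [phi_eq]
  apply mul_le_mul_of_nonneg_left _ phi0_pos.le
  have := Real.add_one_le_exp (-x ^ 2 / 2)
  linarith

lemma Phi_37_ge : (66 / 100 : ℝ) ≤ NN.real (Iio (3 / 7 : ℝ)) := by
  rw [NN_Iio_eq (by norm_num)]
  have hc : Continuous phi := continuous_phi'
  have h1 : ∫ x in (0 : ℝ)..(3 / 7), phi0 * (1 - x ^ 2 / 2) ≤ ∫ x in (0 : ℝ)..(3 / 7), phi x := by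
    apply intervalIntegral.integral_mono_on (by norm_num)
    · exact (by fun_prop : Continuous fun x : ℝ => phi0 * (1 - x ^ 2 / 2)).intervalIntegrable _ _
    · exact hc.intervalIntegrable _ _
    · intro x _
      exact phi_ge_poly x
  have h2 : ∫ x in (0 : ℝ)..(3 / 7), phi0 * (1 - x ^ 2 / 2) = phi0 * (285 / 686) := by
    rw [intervalIntegral.integral_const_mul]
    congr 1
    rw [intervalIntegral.integral_sub (by simp) (by
      exact (by fun_prop : Continuous fun x : ℝ => x ^ 2 / 2).intervalIntegrable _ _)]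
    rw [intervalIntegral.integral_div, integral_pow]
    norm_num
  rw [h2] at h1
  have h3 := phi0_gt
  nlinarith

/-- The polynomial inequality for `r ≥ 7/5`. -/
lemma poly_one {β : ℝ} (h0 : 0 ≤ β) (h1 : β ≤ 1) :
    β ^ 2 * (1 + 9 / 5 * β + 27 / 50 * β ^ 2) ^ 2 ≤
      49 / 25 * ((1 + 9 / 5 * β + 27 / 50 * β ^ 2) ^ 2 - (1 + β) ^ 2) := by
  have h4 : β ^ 4 ≤ β ^ 2 := pow_le_pow_of_le_one h0 h1 (by norm_num)
  have h5 : β ^ 5 ≤ β ^ 1 := pow_le_pow_of_le_one h0 h1 (by norm_num)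
  have h6 : β ^ 6 ≤ β ^ 1 := pow_le_pow_of_le_one h0 h1 (by norm_num)
  have h3 : 0 ≤ β ^ 3 := by positivity
  have h2 : 0 ≤ β ^ 2 := by positivity
  linarith

/-- The polynomial inequality for `β ≤ 7/10`. -/
lemma poly_two {β : ℝ} (h0 : 0 ≤ β) (h1 : β ≤ 7 / 10) :
    β ^ 2 * (1 + 9 / 5 * β + 27 / 50 * β ^ 2) ^ 2 ≤
      1 * ((1 + 9 / 5 * β + 27 / 50 * β ^ 2) ^ 2 - (1 + β) ^ 2) := by
  have h2 : β ^ 2 ≤ 7 / 10 * β := by nlinarith
  have h3 : β ^ 3 ≤ 49 / 100 * β := by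
    have : β ^ 3 = β * β ^ 2 := by ring
    nlinarith
  have h4 : β ^ 4 ≤ 343 / 1000 * β := by
    have : β ^ 4 = β * β ^ 3 := by ring
    nlinarith
  have hQ : 0 ≤ 8 / 5 + 18 / 25 * β - 297 / 125 * β ^ 2 - 4131 / 2500 * β ^ 3 -
      729 / 2500 * β ^ 4 := by linarith
  have e : 1 * ((1 + 9 / 5 * β + 27 / 50 * β ^ 2) ^ 2 - (1 + β) ^ 2) -
      β ^ 2 * (1 + 9 / 5 * β + 27 / 50 * β ^ 2) ^ 2 = (1 + β) * β *
      (8 / 5 + 18 / 25 * β - 297 / 125 * β ^ 2 - 4131 / 2500 * β ^ 3 - 729 / 2500 * β ^ 4) := by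
    ring
  have : 0 ≤ (1 + β) * β *
      (8 / 5 + 18 / 25 * β - 297 / 125 * β ^ 2 - 4131 / 2500 * β ^ 3 - 729 / 2500 * β ^ 4) := by
    positivity
  linarith

lemma exp_42_ge : (152 / 100 : ℝ) ≤ rexp (42 / 100) := by
  have h51 := Real.sum_le_exp_of_nonneg (x := 42 / 100) (by norm_num) 4
  norm_num [Finset.sum_range_succ, Nat.factorial] at h51 ⊢
  linarith

/-- `exp (3/5)`. -/
lemma exp_35_le : rexp (3 / 5) ≤ 18222 / 10000 := by
  have h1 : rexp (3 / 5) ^ 5 = rexp 1 ^ 3 := by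
    rw [← Real.exp_nat_mul, ← Real.exp_nat_mul]
    norm_num
  have h2 := Real.exp_one_lt_d9
  by_contra hcon
  push Not at hcon
  have h3 : ((18222 : ℝ) / 10000) ^ 5 < rexp (3 / 5) ^ 5 :=
    pow_lt_pow_left₀ hcon (by norm_num) (by norm_num)
  rw [h1] at h3
  have h4 : rexp 1 ^ 3 ≤ (2.7182818286 : ℝ) ^ 3 :=
    pow_le_pow_left₀ (exp_pos _).le h2.le 3
  have h5 : ((18222 : ℝ) / 10000) ^ 5 < (2.7182818286 : ℝ) ^ 3 := h3.trans_le h4
  norm_num at h5

end PhiBetaAux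

/-- One-dimensional inequality. Write `y = t / r`, `z = t (1 + β) / √(r² - β²)`, `z ≥ y ≥ 0`.
Concavity of `Φ` on `[0, ∞)` and `y φ(y) ≤ Φ(y)/3` (as in `Phi_scale`) give
`Φ(z) ≤ Φ(y) (1 + (z/y - 1)/3)`; this is enough when `z/y - 1 ≤ 3 (exp (3β/5) - 1)`, which holds
unless `r < 7/5` and `β > 7/10`. There `y ≥ 3/7`, `Φ(y) ≥ 66/100`, `exp (3β/5) ≥ 152/100`, and `Φ(z) ≤ 1`.
(True constants: `.30` at `t = 4/5`, `.36` at `t = 3/5`.) -/
theorem Phi_beta {t r β : ℝ} (ht : 3 / 5 ≤ t) (ht1 : t ≤ 1) (hr : 1 ≤ r) (hβ0 : 0 ≤ β) (hβ1 : β ≤ 1)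
    (hβr : β < r) :
    NN.real (Iio (t * (1 + β) / √(r ^ 2 - β ^ 2))) ≤ NN.real (Iio (t / r)) * rexp (3 / 5 * β) := by
  have hr0 : 0 < r := by linarith
  have ht0 : 0 < t := by linarith
  have hd : 0 < r ^ 2 - β ^ 2 := by nlinarith
  set s := √(r ^ 2 - β ^ 2) with hs
  have hs0 : 0 < s := Real.sqrt_pos.mpr hd
  have hs2 : s ^ 2 = r ^ 2 - β ^ 2 := Real.sq_sqrt hd.le
  have hsr : s ≤ r := by
    have : s ^ 2 ≤ r ^ 2 := by nlinarith [sq_nonneg β]
    exact (pow_le_pow_iff_left₀ hs0.le hr0.le two_ne_zero).1 this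
  by_cases hcase : r < 7 / 5 ∧ 7 / 10 < β
  · -- the top case
    obtain ⟨h1, h2⟩ := hcase
    have hy : (3 / 7 : ℝ) ≤ t / r := by
      rw [le_div_iff₀ hr0]
      nlinarith
    have hmono : NN.real (Iio (3 / 7 : ℝ)) ≤ NN.real (Iio (t / r)) :=
      measureReal_mono (Iio_subset_Iio hy)
    have h3 := PhiBetaAux.Phi_37_ge
    have hle1 : NN.real (Iio (t * (1 + β) / s)) ≤ 1 := measureReal_le_one
    have hexp : (152 / 100 : ℝ) ≤ rexp (3 / 5 * β) := by
      have h4 : rexp (42 / 100) ≤ rexp (3 / 5 * β) := by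
        apply exp_le_exp.mpr
        linarith
      linarith [PhiBetaAux.exp_42_ge]
    have h6 : (0 : ℝ) ≤ NN.real (Iio (t / r)) := measureReal_nonneg
    have h7 : (66 / 100 : ℝ) ≤ NN.real (Iio (t / r)) := h3.trans hmono
    have h8 : (66 / 100 : ℝ) * (152 / 100) ≤ NN.real (Iio (t / r)) * rexp (3 / 5 * β) :=
      mul_le_mul h7 hexp (by norm_num) h6
    linarith
  · obtain ⟨A, hA⟩ : ∃ A : ℝ, A = 1 + 9 / 5 * β + 27 / 50 * β ^ 2 := ⟨_, rfl⟩
    have hA0 : 0 < A := by rw [hA]; positivity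
    have hA1 : 1 + β ≤ A := by rw [hA]; nlinarith [sq_nonneg β]
    have hmain : r * (1 + β) ≤ A * s := by
      have hsq : (r * (1 + β)) ^ 2 ≤ (A * s) ^ 2 := by
        rw [mul_pow, mul_pow, hs2]
        have hr2 : (1 : ℝ) ≤ r ^ 2 := by nlinarith
        have hnn : 0 ≤ A ^ 2 - (1 + β) ^ 2 := by nlinarith
        have hkey : β ^ 2 * A ^ 2 ≤ r ^ 2 * (A ^ 2 - (1 + β) ^ 2) := by
          by_cases hc : 7 / 5 ≤ r
          · have hr3 : (49 / 25 : ℝ) ≤ r ^ 2 := by nlinarith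
            have h9 : β ^ 2 * A ^ 2 ≤ 49 / 25 * (A ^ 2 - (1 + β) ^ 2) := by
              rw [hA]
              exact PhiBetaAux.poly_one hβ0 hβ1
            exact h9.trans (mul_le_mul_of_nonneg_right hr3 hnn)
          · have hb7 : β ≤ 7 / 10 := by
              by_contra hb
              exact hcase ⟨not_le.mp hc, not_le.mp hb⟩
            have h9 : β ^ 2 * A ^ 2 ≤ 1 * (A ^ 2 - (1 + β) ^ 2) := by
              rw [hA]
              exact PhiBetaAux.poly_two hβ0 hb7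
            exact h9.trans (mul_le_mul_of_nonneg_right hr2 hnn)
        linarith
      exact (pow_le_pow_iff_left₀ (by positivity) (by positivity) two_ne_zero).1 hsq
    set γ : ℝ := r * (1 + β) / s - 1 with hγ
    have hγ0 : 0 ≤ γ := by
      rw [hγ, sub_nonneg, le_div_iff₀ hs0]
      nlinarith [mul_nonneg hr0.le hβ0]
    have hγA : γ ≤ A - 1 := by
      rw [hγ]
      have : r * (1 + β) / s ≤ A := by
        rw [div_le_iff₀ hs0]
        exact hmain
      linarith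
    have hz : t * (1 + β) / s = t / r * (1 + γ) := by
      rw [hγ]
      field_simp
      ring
    rw [hz]
    have hy0 : 0 ≤ t / r := by positivity
    refine (Phi_scale hy0 hγ0).trans ?_
    apply mul_le_mul_of_nonneg_left _ measureReal_nonneg
    have hq := Real.quadratic_le_exp_of_nonneg (x := 3 / 5 * β) (by positivity)
    have : 1 + γ / 3 ≤ 1 + 3 / 5 * β + (3 / 5 * β) ^ 2 / 2 := by
      rw [hA] at hγA
      have e : (3 / 5 * β) ^ 2 / 2 = 9 / 50 * β ^ 2 := by ring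
      rw [e]
      linarith
    linarith

/-- The product bound. `{GG < t} = ⋂ l, {⟪vv l, x⟫ < t * cc l}` (`GG_lt_iff`); `prod_bound` on the
obtuse family `vv` (`vv_obt`); `vv l ≠ 0` because `⟪w l, w r⟫ < 0` for `r ≠ l` while
`vv l = 0` would give `⟪w l, w r⟫ = b_l b_r ≥ 0` (`inner_vv_vv`, `hm`); `‖vv l‖² = ‖w l‖² - b_l²`
(`norm_vv_sq`). Then `Phi_beta` with `r = ‖w l‖ / σ`, `β = b_l / σ`, `∑ β = 1` (`sum_bb`), and
`exp (3/5) ≤ 18222/10000`. -/
theorem F_le_prod_v (h : CellData σ u w) (hm : 2 ≤ m) (hs : ∀ l r, l ≠ r → ⟪w l, w r⟫ < 0)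
    (hσw : ∀ l, σ ≤ ‖w l‖) {t : ℝ} (ht : 3 / 5 ≤ t) (ht1 : t ≤ 1) :
    (stdGaussian E).real {x | GG σ w u x < t} ≤
      (18222 / 10000) * ∏ l, NN.real (Iio (t * (σ / ‖w l‖))) := by
  classical
  have hσ := h.hσ
  -- the normals do not vanish
  have hvne : ∀ l, vv w u l ≠ 0 := by
    intro l hl
    obtain ⟨r, hr⟩ : ∃ r : Fin m, l ≠ r := by
      haveI : Nontrivial (Fin m) := Fin.nontrivial_iff_two_le.mpr hm
      obtain ⟨r, hr⟩ := exists_ne l
      exact ⟨r, hr.symm⟩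
    have h1 := inner_vv_vv h l r
    rw [hl, inner_zero_left] at h1
    have h2 := hs l r hr
    have h3 := mul_nonneg (bb_nonneg h l) (bb_nonneg h r)
    linarith
  have hvpos : ∀ l, 0 < ‖vv w u l‖ := fun l => norm_pos_iff.mpr (hvne l)
  -- the section as an intersection
  have hset : {x | GG σ w u x < t} =
      ⋂ l ∈ (Finset.univ : Finset (Fin m)), {x | ⟪vv w u l, x⟫ < cc σ w u l * t} := by
    ext x
    simp only [Set.mem_ofPred_eq, mem_iInter, Finset.mem_univ, true_imp_iff]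
    exact GG_lt_iff h x t
  -- the measure of one half space
  have hone : ∀ l, stdGaussian E {x | ⟪vv w u l, x⟫ < cc σ w u l * t} =
      NN (Iio (t * cc σ w u l / ‖vv w u l‖)) := by
    intro l
    have h1 := measure_inner (E := E) (vv w u l) (S := Iio (cc σ w u l * t)) measurableSet_Iio
    simp only [mem_Iio] at h1
    rw [h1]
    congr 1
    ext s
    simp only [Set.mem_ofPred_eq, mem_Iio]
    rw [lt_div_iff₀ (hvpos l), mul_comm s, mul_comm t]
  have hup : stdGaussian E {x | GG σ w u x < t} ≤ ∏ l, NN (Iio (t * cc σ w u l / ‖vv w u l‖)) := by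
    rw [hset]
    refine (prod_bound Finset.univ (vv w u) (fun l => cc σ w u l * t)
      (fun i _ j _ hij => vv_obt h hij)).trans (le_of_eq ?_)
    exact Finset.prod_congr rfl (fun l _ => hone l)
  have hfin : ∏ l, NN (Iio (t * cc σ w u l / ‖vv w u l‖)) ≠ ⊤ :=
    ENNReal.prod_ne_top (fun l _ => measure_ne_top _ _)
  have hupR : (stdGaussian E).real {x | GG σ w u x < t} ≤
      ∏ l, NN.real (Iio (t * cc σ w u l / ‖vv w u l‖)) := by
    have h3 := ENNReal.toReal_mono hfin hup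
    rw [ENNReal.toReal_prod] at h3
    exact h3
  -- one factor
  have hfac : ∀ l, NN.real (Iio (t * cc σ w u l / ‖vv w u l‖)) ≤
      NN.real (Iio (t * (σ / ‖w l‖))) * rexp (3 / 5 * (bb w u l / σ)) := by
    intro l
    have hwpos : 0 < ‖w l‖ := hσ.trans_le (hσw l)
    have hb0 := bb_nonneg h l
    have hbn := norm_vv_sq h l
    have hbr : bb w u l < ‖w l‖ := by
      have h1 : 0 < ‖vv w u l‖ ^ 2 := by have := hvpos l; positivity
      rw [hbn] at h1
      nlinarith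
    have hr : (1 : ℝ) ≤ ‖w l‖ / σ := by
      rw [le_div_iff₀ hσ]
      linarith [hσw l]
    have hβ0 : 0 ≤ bb w u l / σ := div_nonneg hb0 hσ.le
    have hβ1 : bb w u l / σ ≤ 1 := by
      rw [div_le_one hσ]
      exact bb_le h l
    have hβr : bb w u l / σ < ‖w l‖ / σ := by
      exact div_lt_div_of_pos_right hbr hσ
    have hB := Phi_beta ht ht1 hr hβ0 hβ1 hβr
    have e1 : √((‖w l‖ / σ) ^ 2 - (bb w u l / σ) ^ 2) = ‖vv w u l‖ / σ := by
      have e2 : (‖w l‖ / σ) ^ 2 - (bb w u l / σ) ^ 2 = (‖vv w u l‖ / σ) ^ 2 := by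
        rw [div_pow, div_pow, div_pow, hbn]
        ring
      rw [e2]
      exact Real.sqrt_sq (by have := hvpos l; positivity)
    rw [e1] at hB
    have e3 : t * (1 + bb w u l / σ) / (‖vv w u l‖ / σ) = t * cc σ w u l / ‖vv w u l‖ := by
      unfold cc
      have := hvpos l
      field_simp
    have e4 : t / (‖w l‖ / σ) = t * (σ / ‖w l‖) := by
      field_simp
    rw [e3, e4] at hB
    exact hB
  have h2 : ∏ l, NN.real (Iio (t * cc σ w u l / ‖vv w u l‖)) ≤
      ∏ l, (NN.real (Iio (t * (σ / ‖w l‖))) * rexp (3 / 5 * (bb w u l / σ))) :=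
    Finset.prod_le_prod (fun l _ => measureReal_nonneg) (fun l _ => hfac l)
  rw [Finset.prod_mul_distrib, ← Real.exp_sum] at h2
  have e2 : ∑ l, 3 / 5 * (bb w u l / σ) = 3 / 5 := by
    rw [← Finset.mul_sum, ← Finset.sum_div, sum_bb h, div_self hσ.ne', mul_one]
  rw [e2] at h2
  have h3 : 0 ≤ ∏ l, NN.real (Iio (t * (σ / ‖w l‖))) :=
    Finset.prod_nonneg (fun l _ => measureReal_nonneg)
  calc _ ≤ _ := hupR
    _ ≤ _ := h2
    _ ≤ (∏ l, NN.real (Iio (t * (σ / ‖w l‖)))) * (18222 / 10000) :=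
        mul_le_mul_of_nonneg_left PhiBetaAux.exp_35_le h3
    _ = _ := mul_comm _ _

end

end Vale.Agent.Lib.P226
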