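import Mathlib
import Vale.Agent.Lib.P226.G16Gain

/-!
Single deletion for `k ≥ 16`: a finer staircase for `HH`.
-/

open MeasureTheory ProbabilityTheory Real Set Filter Topology
open scoped ENNReal NNReal RealInnerProductSpace

namespace Vale.Agent.Lib.P226

set_option linter.unusedSectionVars false

noncomputable section

variable {E : Type*} [NormedAddCommGroup E] [InnerProductSpace ℝ E] [FiniteDimensional ℝ E]
  [MeasurableSpace E] [BorelSpace E]
variable {m : ℕ} [NeZero m] {σ : ℝ} {u : E} {w : Fin m → E}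

private lemma exp_upper_aux {y u : ℝ} (hy0 : 0 ≤ y) (hy1 : y ≤ 1) (n : ℕ) (hn : 0 < n)
    (h : ∑ m ∈ Finset.range n, y ^ m / (m.factorial : ℝ) + y ^ n * ((n + 1 : ℕ) / (n.factorial * n)) ≤ u) :
    rexp y ≤ u := by
  have := Real.exp_bound' hy0 hy1 hn
  refine this.trans ?_
  refine le_trans (le_of_eq ?_) h
  push_cast
  ring

/-- Generic form of the lower bounds for `phi`. -/
private lemma phi_ge_of {a y U L : ℝ} (ha : a ^ 2 / 2 = y) (hU0 : 0 < U) (h1 : rexp y ≤ U)
    (hL : L ≤ (3989422804 / 10000000000 : ℝ) * U⁻¹) : L ≤ phi a := by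
  rw [phi_eq]
  have h2 : rexp (-a ^ 2 / 2) = (rexp y)⁻¹ := by
    rw [← Real.exp_neg]; congr 1; rw [← ha]; ring
  rw [h2]
  have h3 : U⁻¹ ≤ (rexp y)⁻¹ := inv_anti₀ (exp_pos _) h1
  have h4 := phi0_gt
  have h6 : (3989422804 / 10000000000 : ℝ) * U⁻¹ ≤ phi0 * (rexp y)⁻¹ :=
    mul_le_mul h4.le h3 (inv_nonneg.mpr hU0.le) phi0_pos.le
  exact hL.trans h6

private lemma phi_1_ge : (24196 / 100000 : ℝ) ≤ phi 1 := by
  apply phi_ge_of (y := 1 / 2) (U := 164873 / 100000) (by norm_num) (by norm_num)
  · apply exp_upper_aux (by norm_num) (by norm_num) 9 (by norm_num)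
    norm_num [Finset.sum_range_succ, Nat.factorial]
  · norm_num

private lemma phi_25_ge : (36826 / 100000 : ℝ) ≤ phi (2 / 5) := by
  apply phi_ge_of (y := 2 / 25) (U := 108329 / 100000) (by norm_num) (by norm_num)
  · apply exp_upper_aux (by norm_num) (by norm_num) 6 (by norm_num)
    norm_num [Finset.sum_range_succ, Nat.factorial]
  · norm_num

private lemma phi_15_ge : (39103 / 100000 : ℝ) ≤ phi (1 / 5) := by
  apply phi_ge_of (y := 1 / 50) (U := 102021 / 100000) (by norm_num) (by norm_num)
  · apply exp_upper_aux (by norm_num) (by norm_num) 5 (by norm_num)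
    norm_num [Finset.sum_range_succ, Nat.factorial]
  · norm_num

private lemma HH_1_le : HH (1 : ℝ) ≤ 83316 / 1000000 := by
  have h := HH_le_hhU (a := 1) (by norm_num) 12 12 (by norm_num)
  have h2 : hhU 1 12 12 ≤ 83316 / 1000000 := by decide +kernel
  have h3 : ((hhU 1 12 12 : ℚ) : ℝ) ≤ ((83316 / 1000000 : ℚ) : ℝ) := by exact_mod_cast h2
  have e : (((1 : ℚ)) : ℝ) = 1 := by norm_num
  rw [e] at h
  refine h.trans (h3.trans (le_of_eq ?_))
  norm_num

private lemma HH_25_le : HH (2 / 5 : ℝ) ≤ 23044 / 100000 := by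
  have h := HH_le_hhU (a := 2 / 5) (by norm_num) 12 12 (by norm_num)
  have h2 : hhU (2 / 5) 12 12 ≤ 23044 / 100000 := by decide +kernel
  have h3 : ((hhU (2 / 5) 12 12 : ℚ) : ℝ) ≤ ((23044 / 100000 : ℚ) : ℝ) := by exact_mod_cast h2
  have e : (((2 / 5 : ℚ)) : ℝ) = 2 / 5 := by norm_num
  rw [e] at h
  refine h.trans (h3.trans (le_of_eq ?_))
  norm_num

private lemma HH_15_le : HH (1 / 5 : ℝ) ≤ 30690 / 100000 := by
  have h := HH_le_hhU (a := 1 / 5) (by norm_num) 12 12 (by norm_num)
  have h2 : hhU (1 / 5) 12 12 ≤ 30690 / 100000 := by decide +kernel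
  have h3 : ((hhU (1 / 5) 12 12 : ℚ) : ℝ) ≤ ((30690 / 100000 : ℚ) : ℝ) := by exact_mod_cast h2
  have e : (((1 / 5 : ℚ)) : ℝ) = 1 / 5 := by norm_num
  rw [e] at h
  refine h.trans (h3.trans (le_of_eq ?_))
  norm_num

/-- One step of the staircase. -/
private lemma stair_step {τ e κ G : ℝ} (hτ : 0 ≤ τ) (hG : τ ≤ G) (he : 0 ≤ e)
    (h : HH τ ≤ e + κ * phi τ) : HH G ≤ κ * phi G + e := by
  have hp := phi_pos G
  have h3 := HH_ratio hτ hG
  have hB : 0 < phi τ := phi_pos _
  have h8 : HH G * phi τ ≤ (e + κ * phi G) * phi τ := by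
    have h9 : HH τ * phi G ≤ (e + κ * phi τ) * phi G :=
      mul_le_mul_of_nonneg_right h hp.le
    nlinarith [mul_le_mul_of_nonneg_left (phi_anti hτ hG) he]
  have h10 := le_of_mul_le_mul_right h8 hB
  linarith

/-- Five steps, `κ = 3444/10000 ≥ h(1) = .34432`. Same proof as `HH_stair`: on `[τ, τ')` use
`HH_ratio (a := τ)`, `phi_anti`, and the numbers `HH τ ≤ (partial sum of e) + κ φ τ`
(`HH_le_hhU` and rational lower bounds of `phi τ`, `τ = 1, 4/5, 3/5, 2/5, 1/5`; at `τ = 0` use
`HH_le_phi0`-style bound and `phi0_lt`). Slacks are about `5e-5`. -/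
theorem HH_stair5 {G : ℝ} (hG : 0 ≤ G) :
    HH G ≤ (3444 / 10000) * phi G + (205 / 10000) * (if G < 1 then 1 else 0) +
      (335 / 10000) * (if G < 4 / 5 then 1 else 0) + (497 / 10000) * (if G < 3 / 5 then 1 else 0) +
      (686 / 10000) * (if G < 2 / 5 then 1 else 0) + (893 / 10000) * (if G < 1 / 5 then 1 else 0) := by
  by_cases h5 : G < 1 / 5
  · have h4 : G < 2 / 5 := by linarith
    have h3 : G < 3 / 5 := by linarith
    have h2 : G < 4 / 5 := by linarith
    have h1 : G < 1 := by linarith
    simp only [h1, h2, h3, h4, h5, if_true]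
    have a1 := HH_le_phi G hG
    have a2 := phi_le_phi0 G
    have a3 := phi0_lt
    nlinarith
  simp only [h5, if_false]
  have h5' := not_lt.mp h5
  by_cases h4 : G < 2 / 5
  · have h3 : G < 3 / 5 := by linarith
    have h2 : G < 4 / 5 := by linarith
    have h1 : G < 1 := by linarith
    simp only [h1, h2, h3, h4, if_true]
    have := stair_step (τ := 1 / 5) (e := 1723 / 10000) (κ := 3444 / 10000) (G := G)
      (by norm_num) h5' (by norm_num) (by linarith [HH_15_le, phi_15_ge])
    linarith
  simp only [h4, if_false]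
  have h4' := not_lt.mp h4
  by_cases h3 : G < 3 / 5
  · have h2 : G < 4 / 5 := by linarith
    have h1 : G < 1 := by linarith
    simp only [h1, h2, h3, if_true]
    have := stair_step (τ := 2 / 5) (e := 1037 / 10000) (κ := 3444 / 10000) (G := G)
      (by norm_num) h4' (by norm_num) (by linarith [HH_25_le, phi_25_ge])
    linarith
  simp only [h3, if_false]
  have h3' := not_lt.mp h3
  by_cases h2 : G < 4 / 5
  · have h1 : G < 1 := by linarith
    simp only [h1, h2, if_true]
    have := stair_step (τ := 3 / 5) (e := 540 / 10000) (κ := 3444 / 10000) (G := G)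
      (by norm_num) h3' (by norm_num) (by linarith [HH_35_le, phi_35_ge])
    linarith
  simp only [h2, if_false]
  have h2' := not_lt.mp h2
  by_cases h1 : G < 1
  · simp only [h1, if_true]
    have := stair_step (τ := 4 / 5) (e := 205 / 10000) (κ := 3444 / 10000) (G := G)
      (by norm_num) h2' (by norm_num) (by linarith [HH_45_le, phi_45_ge])
    linarith
  simp only [h1, if_false]
  have h1' := not_lt.mp h1
  have := stair_step (τ := 1) (e := 0) (κ := 3444 / 10000) (G := G)
    (by norm_num) h1' (by norm_num) (by linarith [HH_1_le, phi_1_ge])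
  linarith

/-- The gain from `HH_stair5`: same proof as `gain_le_stair`. -/
theorem gain_le_stair5 (h : CellData σ u w) :
    ∫ y, max (⟪σ • u, y⟫ - Vf w y) 0 ∂(stdGaussian E) ≤
      (3444 / 10000) * ∑ r, cc σ w u r * flux σ w u r +
      2 * σ * ((205 / 10000) * (stdGaussian E).real {x | GG σ w u x < 1} +
        (335 / 10000) * (stdGaussian E).real {x | GG σ w u x < 4 / 5} +
        (497 / 10000) * (stdGaussian E).real {x | GG σ w u x < 3 / 5} +
        (686 / 10000) * (stdGaussian E).real {x | GG σ w u x < 2 / 5} +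
        (893 / 10000) * (stdGaussian E).real {x | GG σ w u x < 1 / 5}) := by
  refine (gain_le_cells h).trans ?_
  set A : ℝ → Fin m → ℝ := fun t r => ∫ x in vorCell (gg σ w u) r,
    (if GG σ w u x < t then (1 : ℝ) else 0) ∂(stdGaussian E) with hA
  have hA0 : ∀ t r, 0 ≤ A t r := fun t r => integral_nonneg fun x => by
    by_cases hx : GG σ w u x < t <;> simp [hx]
  have hcell : ∀ r, ∫ x in vorCell (gg σ w u) r, HH (GG σ w u x) ∂(stdGaussian E) ≤
      (3444 / 10000) * flux σ w u r + (205 / 10000) * A 1 r + (335 / 10000) * A (4 / 5) r +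
        (497 / 10000) * A (3 / 5) r + (686 / 10000) * A (2 / 5) r + (893 / 10000) * A (1 / 5) r := by
    intro r
    have i0 : Integrable (fun x => phi (GG σ w u x)) (stdGaussian E) := integrable_phi_GG σ w u
    have i1 := integrable_ite_GG (σ := σ) (w := w) (u := u) (E := E) 1
    have i2 := integrable_ite_GG (σ := σ) (w := w) (u := u) (E := E) (4 / 5)
    have i3 := integrable_ite_GG (σ := σ) (w := w) (u := u) (E := E) (3 / 5)
    have i4 := integrable_ite_GG (σ := σ) (w := w) (u := u) (E := E) (2 / 5)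
    have i5 := integrable_ite_GG (σ := σ) (w := w) (u := u) (E := E) (1 / 5)
    have e : (3444 / 10000) * flux σ w u r + (205 / 10000) * A 1 r + (335 / 10000) * A (4 / 5) r +
        (497 / 10000) * A (3 / 5) r + (686 / 10000) * A (2 / 5) r + (893 / 10000) * A (1 / 5) r =
        ∫ x in vorCell (gg σ w u) r, ((3444 / 10000) * phi (GG σ w u x) +
          (205 / 10000) * (if GG σ w u x < 1 then (1 : ℝ) else 0) +
          (335 / 10000) * (if GG σ w u x < 4 / 5 then (1 : ℝ) else 0) +
          (497 / 10000) * (if GG σ w u x < 3 / 5 then (1 : ℝ) else 0) +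
          (686 / 10000) * (if GG σ w u x < 2 / 5 then (1 : ℝ) else 0) +
          (893 / 10000) * (if GG σ w u x < 1 / 5 then (1 : ℝ) else 0)) ∂(stdGaussian E) := by
      have sa : ∀ {f g : E → ℝ} (c : ℝ), Integrable f (stdGaussian E) →
          Integrable g (stdGaussian E) →
          ∫ x in vorCell (gg σ w u) r, (f x + c * g x) ∂(stdGaussian E) =
            ∫ x in vorCell (gg σ w u) r, f x ∂(stdGaussian E) +
              c * ∫ x in vorCell (gg σ w u) r, g x ∂(stdGaussian E) := by
        intro f g c hf hg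
        rw [integral_add hf.integrableOn (hg.const_mul c).integrableOn, integral_const_mul]
      have j0 := i0.const_mul (3444 / 10000 : ℝ)
      have j1 : Integrable (fun x => (3444 / 10000) * phi (GG σ w u x) +
          (205 / 10000) * (if GG σ w u x < 1 then (1 : ℝ) else 0)) (stdGaussian E) :=
        j0.add (i1.const_mul (205 / 10000 : ℝ))
      have j2 : Integrable (fun x => (3444 / 10000) * phi (GG σ w u x) +
          (205 / 10000) * (if GG σ w u x < 1 then (1 : ℝ) else 0) +
          (335 / 10000) * (if GG σ w u x < 4 / 5 then (1 : ℝ) else 0)) (stdGaussian E) :=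
        j1.add (i2.const_mul (335 / 10000 : ℝ))
      have j3 : Integrable (fun x => (3444 / 10000) * phi (GG σ w u x) +
          (205 / 10000) * (if GG σ w u x < 1 then (1 : ℝ) else 0) +
          (335 / 10000) * (if GG σ w u x < 4 / 5 then (1 : ℝ) else 0) +
          (497 / 10000) * (if GG σ w u x < 3 / 5 then (1 : ℝ) else 0)) (stdGaussian E) :=
        j2.add (i3.const_mul (497 / 10000 : ℝ))
      have j4 : Integrable (fun x => (3444 / 10000) * phi (GG σ w u x) +
          (205 / 10000) * (if GG σ w u x < 1 then (1 : ℝ) else 0) +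
          (335 / 10000) * (if GG σ w u x < 4 / 5 then (1 : ℝ) else 0) +
          (497 / 10000) * (if GG σ w u x < 3 / 5 then (1 : ℝ) else 0) +
          (686 / 10000) * (if GG σ w u x < 2 / 5 then (1 : ℝ) else 0)) (stdGaussian E) :=
        j3.add (i4.const_mul (686 / 10000 : ℝ))
      rw [sa (893 / 10000) j4 i5, sa (686 / 10000) j3 i4, sa (497 / 10000) j2 i3,
        sa (335 / 10000) j1 i2, sa (205 / 10000) j0 i1, integral_const_mul]
      rfl
    rw [e]
    refine setIntegral_mono (integrable_HH_GG h).integrableOn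
      ((((((i0.const_mul _).add (i1.const_mul _)).add (i2.const_mul _)).add
        (i3.const_mul _)).add (i4.const_mul _)).add (i5.const_mul _)).integrableOn fun x => ?_
    exact HH_stair5 (GG_nonneg h x)
  have hsum : ∀ t, ∑ r, A t r = (stdGaussian E).real {x | GG σ w u x < t} :=
    fun t => sum_cell_sublevel t
  have hterm : ∀ r, cc σ w u r * ∫ x in vorCell (gg σ w u) r, HH (GG σ w u x) ∂(stdGaussian E) ≤
      (3444 / 10000) * (cc σ w u r * flux σ w u r) +
        2 * σ * ((205 / 10000) * A 1 r + (335 / 10000) * A (4 / 5) r +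
        (497 / 10000) * A (3 / 5) r + (686 / 10000) * A (2 / 5) r + (893 / 10000) * A (1 / 5) r) := by
    intro r
    have hc1 := cc_pos h r
    have hc2 := cc_le h r
    have h1 := mul_le_mul_of_nonneg_left (hcell r) hc1.le
    have h2 : cc σ w u r * ((205 / 10000) * A 1 r + (335 / 10000) * A (4 / 5) r +
        (497 / 10000) * A (3 / 5) r + (686 / 10000) * A (2 / 5) r + (893 / 10000) * A (1 / 5) r) ≤
        2 * σ * ((205 / 10000) * A 1 r + (335 / 10000) * A (4 / 5) r +
        (497 / 10000) * A (3 / 5) r + (686 / 10000) * A (2 / 5) r + (893 / 10000) * A (1 / 5) r) := by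
      apply mul_le_mul_of_nonneg_right hc2
      have := hA0 1 r
      have := hA0 (4 / 5) r
      have := hA0 (3 / 5) r
      have := hA0 (2 / 5) r
      have := hA0 (1 / 5) r
      positivity
    nlinarith
  refine (Finset.sum_le_sum fun r _ => hterm r).trans (le_of_eq ?_)
  simp only [Finset.sum_add_distrib, ← Finset.mul_sum, hsum]

end

end Vale.Agent.Lib.P226
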