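import Mathlib
import Vale.Agent.Lib.P226.G19Crit

/-!
Single deletion for `16 ≤ k ≤ 32`: the numerical core, from a finite certificate.
-/

open MeasureTheory ProbabilityTheory Real Set Filter Topology

namespace Vale.Agent.Lib.P226

noncomputable section

/-- The numerical core for `16 ≤ k ≤ 32`. `hfail` says that `crit_of_small_E` does not apply at
any `j`. Products over the first `k - 1` norms, as in `num_core`. -/
theorem num_mid {k : ℕ} (hk : 16 ≤ k) (hk2 : k ≤ 32) (ρ : ℕ → ℝ)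
    (hanti : ∀ i, i + 1 < k → ρ (i + 1) ≤ ρ i) (hpos : ∀ i, i < k → 0 < ρ i)
    (hle : ∀ i, i < k → ρ i ≤ 2 / 3) (hsum : ∑ i ∈ Finset.range k, ρ i ^ 2 = 1)
    (hfail : ∀ j, 3 ≤ j → j < k →
      (1413 / 100) ^ 2 * 3 * (ρ 1 * ρ 2) ^ 2 <
        ρ j ^ 2 * (4 * EU j (k - j) ^ 2 + (1413 / 100) ^ 2 * (4 / 3) * ((k - j : ℕ) : ℝ))) :
    2 * ((18222 / 10000) *
          ((205 / 10000) * ∏ l ∈ Finset.range (k - 1), NN.real (Iio (1 * (ρ (k - 1) / ρ l))) +
           (335 / 10000) * ∏ l ∈ Finset.range (k - 1), NN.real (Iio ((4 / 5) * (ρ (k - 1) / ρ l))) +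
           (497 / 10000) * ∏ l ∈ Finset.range (k - 1), NN.real (Iio ((3 / 5) * (ρ (k - 1) / ρ l)))) +
        (27914 / 10000) *
          ((686 / 10000) * ∏ l ∈ Finset.range (k - 1), NN.real (Iio ((2 / 5) * (ρ (k - 1) / ρ l))) +
           (893 / 10000) * ∏ l ∈ Finset.range (k - 1), NN.real (Iio ((1 / 5) * (ρ (k - 1) / ρ l))))) ≤
      (5984 / 10000) * ρ (k - 1) *
        (1 / 2 * (1 + 1 / ((k : ℝ) - 1)) - (3444 / 10000) * (1 + 2 / (k : ℝ))) := by
  sorry

end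

end Vale.Agent.Lib.P226
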