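import Mathlib
import Vale.Agent.Lib.P226.G18Step
import Vale.Agent.Lib.P226.G19Stair
import Vale.Agent.Lib.P226.G19Prod
import Vale.Agent.Lib.P226.G20Mid

/-!
Single deletion: the induction step for `16 ≤ k ≤ 32`.
-/

open MeasureTheory ProbabilityTheory Real Set Filter Topology
open scoped ENNReal NNReal RealInnerProductSpace

namespace Vale.Agent.Lib.P226

set_option linter.unusedSectionVars false

noncomputable section

variable {E : Type*} [NormedAddCommGroup E] [InnerProductSpace ℝ E] [FiniteDimensional ℝ E]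
  [MeasurableSpace E] [BorelSpace E]

/-- The deletion with recentering: `T' l = ρ⁻¹ • (T l + (1/m) • T last)` has squared norm sum one for
`ρ² = 1 - σ² (1 + 1/m)` (using `opt_sum_zero`), and the same `VV` as `w` before scaling, because
the mean of the linear form vanishes (as in `deletion_step`). -/
theorem delete_of_gain2 {m : ℕ} [NeZero m] (T : Fin (m + 1) → E) (hT : Opt T) (hV : 0 < VV T)
    (hσ : ‖T (Fin.last m)‖ ^ 2 * (1 + 1 / (m : ℝ)) < 1)
    (hg : ∫ x, max (⟪T (Fin.last m), x⟫ - Vf (fun l : Fin m => T l.castSucc) x) 0 ∂(stdGaussian E) ≤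
      (VV T / 2) * ‖T (Fin.last m)‖ ^ 2 * (1 + 1 / (m : ℝ))) :
    ∃ T' : Fin m → E, T' ∈ (SS m : Set (Fin m → E)) ∧ VV T ≤ VV T' := by
  set σ := ‖T (Fin.last m)‖ with hσdef
  set w : Fin m → E := fun l => T l.castSucc with hw
  have hsum1 := opt_sum_sq_eq hT hV
  have hsum2 : ∑ j, ‖T j‖ ^ 2 = ∑ l, ‖w l‖ ^ 2 + σ ^ 2 :=
    Fin.sum_univ_castSucc (fun j => ‖T j‖ ^ 2)
  have hVT : VV T = VV w + ∫ x, max (⟪T (Fin.last m), x⟫ - Vf w x) 0 ∂(stdGaussian E) := by
    have := VV_succAbove T (Fin.last m)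
    simpa [hw, Fin.succAbove_last] using this
  have hm0 : (0 : ℝ) < m := by
    have : 0 < m := NeZero.pos m
    exact_mod_cast this
  have hsum0 : ∑ l, w l + T (Fin.last m) = 0 := by
    have := opt_sum_zero hT hV
    rwa [Fin.sum_univ_castSucc] at this
  set a := σ ^ 2 * (1 + 1 / (m : ℝ)) with ha
  have h1a : 0 < 1 - a := by linarith
  set c : ℝ := (m : ℝ)⁻¹ with hc
  set e := T (Fin.last m) with he
  have heσ : ‖e‖ = σ := rfl
  set W : Fin m → E := fun p => w p + c • e with hW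
  have hVW : VV W = VV w := VV_add_const w (c • e)
  have hnormW : ∑ p, ‖W p‖ ^ 2 = 1 - a := by
    have h1 : ∀ p, ‖W p‖ ^ 2 = ‖w p‖ ^ 2 + 2 * c * ⟪w p, e⟫ + c ^ 2 * σ ^ 2 := by
      intro p
      rw [hW]
      simp only
      rw [norm_add_sq_real, inner_smul_right, norm_smul, mul_pow, Real.norm_eq_abs, sq_abs, heσ]
      ring
    simp_rw [h1]
    rw [Finset.sum_add_distrib, Finset.sum_add_distrib, ← Finset.mul_sum, ← sum_inner]
    have h2 : ∑ i, w i = -e := eq_neg_of_add_eq_zero_left hsum0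
    rw [h2, inner_neg_left, real_inner_self_eq_norm_sq, heσ]
    simp only [Finset.sum_const, Finset.card_univ, Fintype.card_fin, nsmul_eq_mul]
    have h3 : (m : ℝ) * c = 1 := by rw [hc]; field_simp
    have h4 : (m : ℝ) * (c ^ 2 * σ ^ 2) = c * σ ^ 2 := by
      calc (m : ℝ) * (c ^ 2 * σ ^ 2) = ((m : ℝ) * c) * (c * σ ^ 2) := by ring
        _ = c * σ ^ 2 := by rw [h3, one_mul]
    have h5 : ∑ x, ‖w x‖ ^ 2 = 1 - σ ^ 2 := by linarith
    rw [h4, ha, hc, h5]
    field_simp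
    ring
  set ρ := √(1 - a) with hρ
  have hρpos : 0 < ρ := Real.sqrt_pos.mpr h1a
  have hρsq : ρ ^ 2 = 1 - a := Real.sq_sqrt h1a.le
  refine ⟨fun p => ρ⁻¹ • W p, ?_, ?_⟩
  · rw [mem_SS]
    have : ∑ p, ‖ρ⁻¹ • W p‖ ^ 2 = (ρ⁻¹) ^ 2 * ∑ p, ‖W p‖ ^ 2 := by
      rw [Finset.mul_sum]
      apply Finset.sum_congr rfl
      intro p _
      rw [norm_smul, mul_pow, norm_inv, Real.norm_eq_abs, abs_of_pos hρpos]
    rw [this, hnormW, ← hρsq]
    apply le_of_eq
    field_simp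
  · rw [VV_smul W (inv_pos.mpr hρpos), hVW]
    have hg' : ∫ x, max (⟪e, x⟫ - Vf w x) 0 ∂(stdGaussian E) ≤ (VV T / 2) * a := by
      rw [ha]
      linarith
    have h3 : VV T * (1 - a / 2) ≤ VV w := by
      have e1 : VV T * (1 - a / 2) = VV T - (VV T / 2) * a := by ring
      rw [e1]
      linarith
    have h4 : ρ ≤ 1 - a / 2 := by
      have h5 : ρ ^ 2 ≤ (1 - a / 2) ^ 2 := by
        rw [hρsq]
        nlinarith [sq_nonneg a]
      exact (pow_le_pow_iff_left₀ hρpos.le (by linarith) two_ne_zero).1 h5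
    rw [inv_mul_eq_div, le_div_iff₀ hρpos]
    calc VV T * ρ ≤ VV T * (1 - a / 2) := by gcongr
      _ ≤ _ := h3

/-- The real inequality at the end of the single deletion, with the new constants. -/
lemma single_real2 {A S F₁ F₂ F₃ F₄ F₅ P₁ P₂ P₃ P₄ P₅ V σ m : ℝ} (hσ : 0 < σ)
    (hV : 5984 / 10000 ≤ V)
    (hA : A ≤ (3444 / 10000) * S + 2 * σ * ((205 / 10000) * F₁ + (335 / 10000) * F₂ +
      (497 / 10000) * F₃ + (686 / 10000) * F₄ + (893 / 10000) * F₅))
    (hS : S ≤ V * σ ^ 2 * (1 + 2 / (m + 1)))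
    (hF₁ : F₁ ≤ (18222 / 10000) * P₁) (hF₂ : F₂ ≤ (18222 / 10000) * P₂)
    (hF₃ : F₃ ≤ (18222 / 10000) * P₃) (hF₄ : F₄ ≤ (27914 / 10000) * P₄)
    (hF₅ : F₅ ≤ (27914 / 10000) * P₅)
    (hP₁ : 0 ≤ P₁) (hP₂ : 0 ≤ P₂) (hP₃ : 0 ≤ P₃) (hP₄ : 0 ≤ P₄) (hP₅ : 0 ≤ P₅)
    (hnum : 2 * ((18222 / 10000) * ((205 / 10000) * P₁ + (335 / 10000) * P₂ + (497 / 10000) * P₃) +
        (27914 / 10000) * ((686 / 10000) * P₄ + (893 / 10000) * P₅)) ≤
      (5984 / 10000) * σ * (1 / 2 * (1 + 1 / m) - (3444 / 10000) * (1 + 2 / (m + 1)))) :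
    A ≤ (V / 2) * σ ^ 2 * (1 + 1 / m) := by
  set d := 1 / 2 * (1 + 1 / m) - (3444 / 10000) * (1 + 2 / (m + 1)) with hd
  set L := 2 * ((18222 / 10000) * ((205 / 10000) * P₁ + (335 / 10000) * P₂ + (497 / 10000) * P₃) +
        (27914 / 10000) * ((686 / 10000) * P₄ + (893 / 10000) * P₅)) with hL
  have hLHS : 0 ≤ L := by positivity
  have hd0 : 0 ≤ d := by
    by_contra hcon
    have h1 : d < 0 := not_le.mp hcon
    have h2 : (5984 / 10000) * σ * d < 0 := mul_neg_of_pos_of_neg (by positivity) h1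
    linarith
  have h1 : 2 * σ * ((205 / 10000) * F₁ + (335 / 10000) * F₂ +
      (497 / 10000) * F₃ + (686 / 10000) * F₄ + (893 / 10000) * F₅) ≤ σ * L := by
    have : (205 / 10000) * F₁ + (335 / 10000) * F₂ +
      (497 / 10000) * F₃ + (686 / 10000) * F₄ + (893 / 10000) * F₅ ≤ L / 2 := by
      rw [hL]
      linarith
    nlinarith
  have h2 : σ * L ≤ σ * ((5984 / 10000) * σ * d) := by gcongr
  have h3 : σ * ((5984 / 10000) * σ * d) ≤ σ * (V * σ * d) := by gcongr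
  have h4 : (3444 / 10000) * S ≤ (3444 / 10000) * (V * σ ^ 2 * (1 + 2 / (m + 1))) := by gcongr
  have h5 : (3444 / 10000) * (V * σ ^ 2 * (1 + 2 / (m + 1))) + σ * (V * σ * d) =
      (V / 2) * σ ^ 2 * (1 + 1 / m) := by
    rw [hd]
    ring
  linarith

/-- The single deletion theorem with the new constants: same route as `single_delete`, with
`gain_le_stair5`, `F_le_prod_v` for `t = 1, 4/5, 3/5`, `F_le_prod` and `prod_beta` for
`t = 2/5, 1/5`, and `delete_of_gain2`. The last vector is a smallest one (`hσw`). -/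
theorem single_delete2 {m : ℕ} [NeZero m] (hm : 2 ≤ m) (T : Fin (m + 1) → E) (hT : Opt T)
    (hV : (5984 / 10000 : ℝ) ≤ VV T) (hT0 : ∀ i, T i ≠ 0)
    (hstrict : ∀ i j, i ≠ j → ⟪T i, T j⟫ < 0)
    (hσw : ∀ l : Fin m, ‖T (Fin.last m)‖ ≤ ‖T l.castSucc‖)
    (hnum : 2 * ((18222 / 10000) *
          ((205 / 10000) * ∏ l : Fin m, NN.real (Iio (1 * (‖T (Fin.last m)‖ / ‖T l.castSucc‖))) +
           (335 / 10000) * ∏ l : Fin m, NN.real (Iio ((4 / 5) * (‖T (Fin.last m)‖ / ‖T l.castSucc‖))) +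
           (497 / 10000) * ∏ l : Fin m, NN.real (Iio ((3 / 5) * (‖T (Fin.last m)‖ / ‖T l.castSucc‖)))) +
        (27914 / 10000) *
          ((686 / 10000) * ∏ l : Fin m, NN.real (Iio ((2 / 5) * (‖T (Fin.last m)‖ / ‖T l.castSucc‖))) +
           (893 / 10000) * ∏ l : Fin m, NN.real (Iio ((1 / 5) * (‖T (Fin.last m)‖ / ‖T l.castSucc‖))))) ≤
      (5984 / 10000) * ‖T (Fin.last m)‖ *
        (1 / 2 * (1 + 1 / (m : ℝ)) - (3444 / 10000) * (1 + 2 / ((m : ℝ) + 1)))) :
    ∃ T' : Fin m → E, T' ∈ (SS m : Set (Fin m → E)) ∧ VV T ≤ VV T' := by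
  have hVpos : 0 < VV T := by linarith
  set σ := ‖T (Fin.last m)‖ with hσdef
  have hσpos : 0 < σ := norm_pos_iff.mpr (hT0 _)
  set u := σ⁻¹ • T (Fin.last m) with hu
  have hTu : σ • u = T (Fin.last m) := by
    rw [hu, smul_smul, mul_inv_cancel₀ hσpos.ne', one_smul]
  set w : Fin m → E := fun l => T l.castSucc with hw
  have hne : ∀ l : Fin m, (l.castSucc : Fin (m + 1)) ≠ Fin.last m := fun l =>
    (Fin.castSucc_lt_last l).ne
  have hsum : ∑ l, w l + T (Fin.last m) = 0 := by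
    have := opt_sum_zero hT hVpos
    rwa [Fin.sum_univ_castSucc] at this
  have hcell : CellData σ u w := by
    refine ⟨hσpos, norm_smul_inv_norm (hT0 _), ?_, ?_, ?_⟩
    · intro l
      rw [hu, inner_smul_right]
      exact mul_nonpos_of_nonneg_of_nonpos (by positivity) (hstrict _ _ (hne l)).le
    · rw [hTu]
      exact hsum
    · intro l r hlr
      exact (hstrict _ _ (fun h => hlr (Fin.castSucc_injective _ h))).le
  have hstrictw : ∀ l r, l ≠ r → ⟪w l, w r⟫ < 0 := fun l r hlr =>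
    hstrict _ _ (fun h => hlr (Fin.castSucc_injective _ h))
  have hDD : DD σ w u = vorCell T (Fin.last m) := by
    ext y
    simp only [DD, vorCell, Set.mem_ofPred_eq, hTu]
    constructor
    · intro h
      refine ⟨fun j => ?_, fun j hj => ?_⟩
      · induction j using Fin.lastCases with
        | last => exact le_rfl
        | cast l => exact (h l).le
      · obtain ⟨l, rfl⟩ := Fin.exists_castSucc_eq.2 hj.ne
        exact h l
    · intro h l
      exact h.2 _ (Fin.castSucc_lt_last l)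
  have hbar : ∀ a : E, ⟪a, u⟫ = 0 → ∫ y in DD σ w u, ⟪a, y⟫ ∂(stdGaussian E) = 0 := by
    intro a ha
    rw [hDD, opt_inner_cell hT hVpos, ← hTu, inner_smul_right, ha]
    ring
  have huu : ⟪u, u⟫ = 1 := inner_u_u hcell
  have hφ : ∫ x, phi (GG σ w u x) ∂(stdGaussian E) = VV T * σ := by
    rw [← integral_DD hcell, hDD, opt_inner_cell hT hVpos, ← hTu, inner_smul_right, huu]
    ring
  have hwne : ∀ l, w l ≠ 0 := fun l => hT0 _
  -- the flux sum
  have hmpos : (0 : ℝ) < m := by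
    have : 0 < m := NeZero.pos m
    exact_mod_cast this
  have hS : ∑ r, cc σ w u r * flux σ w u r ≤ VV T * σ ^ 2 * (1 + 2 / ((m : ℝ) + 1)) := by
    have h1 : ∀ r, cc σ w u r * flux σ w u r = VV T / (m + 1) * cc σ w u r ^ 2 := by
      intro r
      have h2 := flux_eq hcell hbar hstrictw r
      rw [hφ] at h2
      have hne' : ((m : ℝ) + 1) * σ ≠ 0 := by positivity
      have h3 : flux σ w u r = VV T * σ * cc σ w u r / ((m + 1) * σ) := by
        rw [eq_div_iff hne']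
        exact h2
      rw [h3]
      field_simp
    simp_rw [h1]
    rw [← Finset.mul_sum]
    have h2 := sum_cc_sq hcell
    have h3 : VV T / (m + 1) * ∑ r, cc σ w u r ^ 2 ≤ VV T / (m + 1) * ((m + 3) * σ ^ 2) := by
      gcongr
    refine h3.trans (le_of_eq ?_)
    field_simp
    ring
  have hF : ∀ t : ℝ, 0 ≤ t → (stdGaussian E).real {x | GG σ w u x < t} ≤
      (27914 / 10000) * ∏ l, NN.real (Iio (t * (σ / ‖w l‖))) := by
    intro t ht
    have h1 := F_le_prod hcell hwne ht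
    have h2 := prod_beta hcell hwne ht
    linarith
  have hF' : ∀ t : ℝ, 3 / 5 ≤ t → t ≤ 1 → (stdGaussian E).real {x | GG σ w u x < t} ≤
      (18222 / 10000) * ∏ l, NN.real (Iio (t * (σ / ‖w l‖))) := fun t h1 h2 =>
    F_le_prod_v hcell hm hstrictw hσw h1 h2
  have hgain := gain_le_stair5 hcell
  rw [hTu] at hgain
  have hP : ∀ t : ℝ, 0 ≤ ∏ l, NN.real (Iio (t * (σ / ‖w l‖))) := fun t =>
    Finset.prod_nonneg (fun _ _ => measureReal_nonneg)
  have hfin := single_real2 (m := m) hσpos hV hgain hS (hF' 1 (by norm_num) le_rfl)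
    (hF' (4 / 5) (by norm_num) (by norm_num)) (hF' (3 / 5) le_rfl (by norm_num))
    (hF _ (by norm_num)) (hF _ (by norm_num))
    (hP _) (hP _) (hP _) (hP _) (hP _) hnum
  apply delete_of_gain2 T hT hVpos _ hfin
  have h1 := opt_sum_sq_eq hT hVpos
  rw [Fin.sum_univ_castSucc] at h1
  have h2 : ∑ _l : Fin m, σ ^ 2 ≤ ∑ l : Fin m, ‖T l.castSucc‖ ^ 2 :=
    Finset.sum_le_sum (fun l _ => pow_le_pow_left₀ hσpos.le (hσw l) 2)
  rw [Finset.sum_const, Finset.card_univ, Fintype.card_fin, nsmul_eq_mul] at h2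
  have hm2 : (2 : ℝ) ≤ m := by exact_mod_cast hm
  have h3 : ((m : ℝ) + 1) * σ ^ 2 ≤ 1 := by
    linarith
  have h4 : σ ^ 2 * (1 + 1 / (m : ℝ)) = ((m : ℝ) + 1) * σ ^ 2 / m := by
    field_simp
  rw [h4, div_lt_one hmpos]
  linarith

/-- The induction step for `16 ≤ k ≤ 32`: same proof as `step_large`, with `crit_of_small_E`,
`num_mid`, `single_delete2`. -/
theorem step_mid {k N : ℕ} (hk : 16 ≤ k) (hk2 : k ≤ 32) (hN : k ≤ N + 1) (IH : ∀ j, j < k → PP j) :
    PP k := by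
  apply PP_of_EN hN
  intro _ S hS
  by_contra hcon
  push Not at hcon
  obtain ⟨τ, hτ⟩ := exists_sorted S
  have hopt : Opt (S ∘ τ) := opt_comp_perm hS τ
  have hV : (3 / 4) * √(2 / π) < VV (S ∘ τ) := by
    rw [VV_comp_perm]
    exact hcon
  have hV0 : 0 < VV (S ∘ τ) := lt_of_le_of_lt (by positivity) hV
  generalize S ∘ τ = S' at hopt hV hV0 hτ
  -- a zero vector
  by_cases h0 : ∃ i, S' i = 0
  · obtain ⟨i, hi⟩ := h0
    obtain ⟨n, rfl⟩ : ∃ n, k = n + 1 := ⟨k - 1, by omega⟩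
    have : NeZero n := ⟨by omega⟩
    have hlast : S' (Fin.natAdd n 0) = 0 := by
      have hle : i ≤ Fin.natAdd n 0 := by
        rw [Fin.le_def]
        simp only [Fin.val_natAdd, Fin.val_zero]
        omega
      have h2 := hτ i _ hle
      rw [hi, norm_zero] at h2
      exact norm_le_zero_iff.mp h2
    obtain ⟨T', hT', hle⟩ := zero_delete S' hopt hV0 hlast
    exact contra_of_delete (by omega) IH T' hT' hle hV
  push Not at h0
  have hρlt : ∀ {i : ℕ} (h : i < k), rhoOf S' i = ‖S' ⟨i, h⟩‖ := fun h => rhoOf_lt S' h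
  have hanti : ∀ i, i + 1 < k → rhoOf S' (i + 1) ≤ rhoOf S' i := by
    intro i hi
    rw [hρlt hi, hρlt (by omega : i < k)]
    apply hτ
    rw [Fin.le_def]
    simp
  have hpos : ∀ i, i < k → 0 < rhoOf S' i := by
    intro i hi
    rw [hρlt hi]
    exact norm_pos_iff.mpr (h0 _)
  have hle : ∀ i, i < k → rhoOf S' i ≤ 2 / 3 := by
    intro i hi
    rw [hρlt hi]
    exact norm_le_two_thirds hopt hV _
  have hsum : ∑ i ∈ Finset.range k, rhoOf S' i ^ 2 = 1 := by
    rw [← opt_sum_sq_eq hopt hV0, Finset.sum_range]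
    refine Finset.sum_congr rfl (fun i _ => ?_)
    rw [hρlt i.2]
  -- the criterion
  by_cases hcrit : ∃ j, 3 ≤ j ∧ j < k ∧ rhoOf S' j ^ 2 * (4 * EU j (k - j) ^ 2 +
      (1413 / 100) ^ 2 * (4 / 3) * ((k - j : ℕ) : ℝ)) ≤ (1413 / 100) ^ 2 * 3 * (rhoOf S' 1 * rhoOf S' 2) ^ 2
  · obtain ⟨j, hj3, hjk, hsmall⟩ := hcrit
    have hc := crit_of_small_E (rhoOf S') hanti hpos hle hj3 hjk (by omega) hsmall
    obtain ⟨r, rfl⟩ : ∃ r, k = j + r := ⟨k - j, by omega⟩
    have : NeZero j := ⟨by omega⟩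
    have : NeZero r := ⟨by omega⟩
    obtain ⟨T', hT', hle'⟩ := delete_of_crit hj3 S' hopt hV hτ hc
    exact contra_of_delete (by omega) IH T' hT' hle' hV
  push Not at hcrit
  obtain ⟨n, rfl⟩ : ∃ n, k = n + 1 := ⟨k - 1, by omega⟩
  have : NeZero n := ⟨by omega⟩
  -- an orthogonal pair
  by_cases horth : ∃ i j, i ≠ j ∧ ⟪S' i, S' j⟫ = 0
  · obtain ⟨i, j, hij, h00⟩ := horth
    obtain ⟨T', hT', hle'⟩ := merge_step S' hopt hV0 hij h00
    exact contra_of_delete (by omega) IH T' hT' hle' hV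
  push Not at horth
  have hstrict : ∀ i j, i ≠ j → ⟪S' i, S' j⟫ < 0 := fun i j hij =>
    lt_of_le_of_ne (opt_obtuse hopt hV0 hij) (horth i j hij)
  have hnc := num_mid hk hk2 (rhoOf S') hanti hpos hle hsum (fun j h3 hj => hcrit j h3 hj)
  simp only [Nat.add_sub_cancel] at hnc
  have hρlast : rhoOf S' n = ‖S' (Fin.last n)‖ := hρlt (Nat.lt_succ_self n)
  have hρl : ∀ l : Fin n, rhoOf S' l = ‖S' l.castSucc‖ := fun l => hρlt (by omega)
  have hprod : ∀ t : ℝ, ∏ l ∈ Finset.range n, NN.real (Iio (t * (rhoOf S' n / rhoOf S' l))) =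
      ∏ l : Fin n, NN.real (Iio (t * (‖S' (Fin.last n)‖ / ‖S' l.castSucc‖))) := by
    intro t
    rw [Finset.prod_range]
    refine Finset.prod_congr rfl (fun l _ => ?_)
    rw [hρlast, hρl]
  rw [hprod, hprod, hprod, hprod, hprod, hρlast] at hnc
  have hnum := hnc
  push_cast at hnum
  rw [add_sub_cancel_right] at hnum
  have hσw : ∀ l : Fin n, ‖S' (Fin.last n)‖ ≤ ‖S' l.castSucc‖ := fun l =>
    hτ l.castSucc (Fin.last n) (Fin.le_last _)
  obtain ⟨T', hT', hle'⟩ := single_delete2 (by omega) S' hopt (five984_le.trans hV.le) h0 hstrict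
    hσw hnum
  exact contra_of_delete (by omega) IH T' hT' hle' hV

end

end Vale.Agent.Lib.P226
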