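import Mathlib
import Vale.Agent.Lib.P226.G18Step

/-!
Single deletion below 33: the class check over the ratios `ρ l / σ`.

A class records, for a finite list of ratio levels, the first index where the profile falls below
the level. The checker `dfs` runs over all classes (with pruning); for every class it finds
a contradiction with the failure of the deletion criterion `PcCrit`, or with the total mass.
-/

open MeasureTheory ProbabilityTheory Real Set

namespace Vale.Agent.Lib.P226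

namespace SD

/-! ### The data -/

def stTL : List ℚ := [9/10, 4/5, 7/10, 3/5, 1/2, 2/5, 3/10, 1/5]
def stAL : List ℚ := [203/20000, 141/10000, 891/50000, 2197/100000, 331/12500, 1567/50000, 1823/50000, 1781/20000]
def lvRL : List ℚ := [8, 4, 2, 7/5, 1]
def tabL : List (List ℚ) := [
  [136197/250000, 147253/250000, 336823/500000, 739843/1000000, 815941/1000000],
  [539829/1000000, 579261/1000000, 655423/1000000, 716147/1000000, 394073/500000],
  [33429/62500, 284731/500000, 19901/31250, 86433/125000, 379019/500000],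
  [264947/500000, 559619/1000000, 617913/1000000, 166471/250000, 181437/250000],
  [524919/1000000, 27487/50000, 149677/250000, 639509/1000000, 86433/125000],
  [25997/50000, 539829/1000000, 579261/1000000, 612453/1000000, 655423/1000000],
  [257479/500000, 264947/500000, 559619/1000000, 584839/1000000, 617913/1000000],
  [254987/500000, 25997/50000, 539829/1000000, 348/625, 579261/1000000]
]
def yTabL : List ℚ := [0, 1, 1123/1000, 1201/1000, 63/50, 327/250, 1349/1000, 173/125, 283/200, 1443/1000, 367/250, 373/250, 757/500, 767/500, 1553/1000, 1571/1000, 397/250, 401/250, 1619/1000, 817/500, 206/125, 831/500, 837/500, 1687/1000, 1699/1000, 171/100, 861/500, 1733/1000, 1743/1000, 1753/1000, 1763/1000, 1773/1000, 891/500, 1791/1000, 9/5, 1809/1000, 909/500, 913/500, 917/500, 921/500, 37/20]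


def stQ : ℕ := 8
def stC : ℚ := 38 / 100
def stT (i : ℕ) : ℚ := stTL.getD i 0
def stA (i : ℕ) : ℚ := stAL.getD i 0
def stF (_ : ℕ) : ℚ := 27914 / 10000
def lvR (s : ℕ) : ℚ := lvRL.getD s 1
def lastS : ℕ := 4
def tab (i s : ℕ) : ℚ := (tabL.getD i []).getD s 1
def yOf (x : ℚ) : ℚ := yTabL.getD ((x.num / (x.den : ℤ)).toNat + 1) 0

/-! ### The checker -/

def sumQ : ℕ → (ℕ → ℚ) → ℚ
  | 0, _ => 0
  | n + 1, f => sumQ n f + f n

def prodP (i k : ℕ) : ℕ → List (ℕ × ℕ) → ℚ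
  | prev, [] => tab i lastS ^ (k - 1 - prev)
  | prev, e :: rest => tab i e.2 ^ (e.1 - prev) * prodP i k e.1 rest

def dk (k : ℕ) : ℚ := 1 / 2 * (1 + 1 / ((k : ℚ) - 1)) - stC * (1 + 2 / (k : ℚ))

def roundUp (x : ℚ) : ℚ := (((x.num * 1000000000) / (x.den : ℤ) + 1 : ℤ) : ℚ) / 1000000000

def xBar (k : ℕ) (L : List (ℕ × ℕ)) : ℚ :=
  roundUp (2 * sumQ stQ (fun i => stF i * stA i * prodP i k 0 L) / ((5984 / 10000) * dk k))

def tauS (k : ℕ) : List (ℕ × ℕ) → ℚ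
  | [] => 0
  | [e] => lvR e.2 ^ 2 * ((k - 1 - e.1 : ℕ) : ℚ) + 1
  | e :: e' :: rest => lvR e.2 ^ 2 * ((e'.1 - e.1 : ℕ) : ℚ) + tauS k (e' :: rest)

def massOK (k : ℕ) (x : ℚ) : List (ℕ × ℕ) → Bool
  | [] => false
  | e :: r => decide (e.1 ≤ 2) && decide (tauS k (e :: r) * x ^ 2 < 1 - 4 / 9 * (e.1 : ℚ))

def pairOK (k : ℕ) (x : ℚ) (L1 L2 : List (ℕ × ℕ)) : Bool :=
  match L1, L2 with
  | e1 :: r1, e2 :: r2 =>
    let J1 : ℚ := e1.1
    let J2 : ℚ := e2.1
    let T := tauS k (e1 :: r1) * x ^ 2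
    let t2 := tauS k (e2 :: r2)
    let Mb := t2 * x ^ 2
    let r := lvR e2.2
    let a0 := (1 / 9 - T) / (J1 - 2)
    let v := (5 / 9 - T) / (J1 - 1)
    let val := min (4 / 9 * (a0 - Mb)) (v * (v - Mb))
    let y := yOf (t2 / r ^ 2)
    let W := y ^ 3 + 3 / 4 * J2 * y ^ 2 + 9 / 8 * J2 * y + 27 / 32 * J2 ^ 2
    decide (3 ≤ e1.1) && decide (3 ≤ e2.1) && decide (e2.1 < k) && decide (T < 1 / 9) &&
      decide (0 < val) && decide (0 ≤ y) && decide (t2 ≤ r ^ 2 * y ^ 6) &&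
      decide (4 * (r * x * W) ^ 2 ≤ (1413 / 100) ^ 2 * 3 * val)
  | _, _ => false

def anySuf (f : List (ℕ × ℕ) → Bool) : List (ℕ × ℕ) → Bool
  | [] => false
  | e :: r => f (e :: r) || anySuf f r

def check (k : ℕ) (L : List (ℕ × ℕ)) : Bool :=
  let x := xBar k L
  anySuf (massOK k x) L || anySuf (fun L1 => anySuf (pairOK k x L1) L) L

def lastJ : ℕ → List (ℕ × ℕ) → ℕ
  | p, [] => p
  | _, e :: r => lastJ e.1 r

def dfs (k : ℕ) : List ℕ → List (ℕ × ℕ) → Bool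
  | [], L => check k L
  | s :: rest, L => check k L ||
      (List.range' (lastJ 0 L) (k - lastJ 0 L)).all (fun j => dfs k rest (L ++ [(j, s)]))

/-! ### Upper bounds for the normal distribution function, rational form -/

/-- The rational upper bound for the normal distribution function. -/
def phiU (a : ℚ) (n m : ℕ) : ℚ :=
  1 / 2 + (3989422805 / 10000000000) / expQ (a ^ 2 / 2) m * serQ a n +
    (3989422805 / 10000000000) * (a ^ (2 * n + 3) / (2 * n + 3)) / dfN n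

lemma Phi_le_phiU {a : ℚ} (ha : 0 ≤ a) (n m : ℕ) (hm : 0 < m) :
    NN.real (Iio (a : ℝ)) ≤ (phiU a n m : ℚ) := by
  have ha' : (0 : ℝ) ≤ a := by exact_mod_cast ha
  have h := Tail.Phi_num (a := (a : ℝ)) (P := 3989422805 / 10000000000) ha' n m hm phi0_lt.le
  refine h.trans (le_of_eq ?_)
  unfold phiU expQ
  push_cast
  rw [serQ_cast]

lemma tab_ok_q : ∀ i, i < stQ → ∀ s, s < 5 → phiU (stT i / lvR s) 5 8 ≤ tab i s := by
  decide +kernel

lemma lvR_pos (s : ℕ) : 0 < lvR s := by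
  unfold lvR lvRL
  match s with
  | 0 => norm_num
  | 1 => norm_num
  | 2 => norm_num
  | 3 => norm_num
  | 4 => norm_num
  | n + 5 => simp

lemma lvR_one_le (s : ℕ) : 1 ≤ lvR s := by
  unfold lvR lvRL
  match s with
  | 0 => norm_num
  | 1 => norm_num
  | 2 => norm_num
  | 3 => norm_num
  | 4 => norm_num
  | n + 5 => simp

lemma stT_nonneg (i : ℕ) (hi : i < stQ) : 0 ≤ stT i := by
  unfold stQ at hi
  interval_cases i <;> norm_num [stT, stTL]

lemma tab_ok (i : ℕ) (hi : i < stQ) (s : ℕ) :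
    NN.real (Iio ((stT i : ℝ) / (lvR s : ℝ))) ≤ (tab i s : ℝ) := by
  by_cases hs : s < 5
  · have h1 := tab_ok_q i hi s hs
    have h0 : 0 ≤ stT i / lvR s := div_nonneg (stT_nonneg i hi) (lvR_pos s).le
    have h2 := Phi_le_phiU h0 5 8 (by norm_num)
    have h3 : ((phiU (stT i / lvR s) 5 8 : ℚ) : ℝ) ≤ (tab i s : ℝ) := by exact_mod_cast h1
    have e : ((stT i / lvR s : ℚ) : ℝ) = (stT i : ℝ) / (lvR s : ℝ) := by push_cast; ring
    rw [e] at h2
    exact h2.trans h3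
  · have h1 : tab i s = 1 := by
      unfold tab
      have hlen : (tabL.getD i []).length ≤ s := by
        unfold stQ at hi
        have : (tabL.getD i []).length = 5 := by
          interval_cases i <;> rfl
        omega
      rw [List.getD_eq_default _ _ hlen]
    rw [h1]
    push_cast
    exact measureReal_le_one

/-! ### Soundness -/

/-- The profile. -/
structure Prof (k : ℕ) (ρ : ℕ → ℝ) : Prop where
  hk : 4 ≤ k
  anti : ∀ i, i + 1 < k → ρ (i + 1) ≤ ρ i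
  pos : ∀ i, i < k → 0 < ρ i
  le : ∀ i, i < k → ρ i ≤ 2 / 3
  sum : ∑ i ∈ Finset.range k, ρ i ^ 2 = 1

/-- What a class says about the profile. -/
def Sat (k : ℕ) (ρ : ℕ → ℝ) : ℕ → List (ℕ × ℕ) → Prop
  | prev, [] => prev ≤ k - 1
  | prev, e :: r => prev ≤ e.1 ∧ e.1 ≤ k - 1 ∧
      (∀ l, prev ≤ l → l < e.1 → (lvR e.2 : ℝ) * ρ (k - 1) < ρ l) ∧
      (∀ l, e.1 ≤ l → l < k → ρ l ≤ (lvR e.2 : ℝ) * ρ (k - 1)) ∧ Sat k ρ e.1 r

variable {k : ℕ} {ρ : ℕ → ℝ}

lemma Prof.mono (h : Prof k ρ) {a b : ℕ} (hab : a ≤ b) (hb : b < k) : ρ b ≤ ρ a := by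
  induction b, hab using Nat.le_induction with
  | base => exact le_rfl
  | succ b hb' ih => exact (h.anti b hb).trans (ih (by omega))

lemma Prof.sig_pos (h : Prof k ρ) : 0 < ρ (k - 1) := h.pos _ (by have := h.hk; omega)

lemma Prof.sig_le (h : Prof k ρ) {l : ℕ} (hl : l < k) : ρ (k - 1) ≤ ρ l :=
  h.mono (by omega) (by have := h.hk; omega)

lemma Phi_mono {a b : ℝ} (hab : a ≤ b) : NN.real (Iio a) ≤ NN.real (Iio b) :=
  measureReal_mono (Iio_subset_Iio hab)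

lemma factor_le (h : Prof k ρ) {i l s : ℕ} (hi : i < stQ) (hl : l < k)
    (hlt : (lvR s : ℝ) * ρ (k - 1) ≤ ρ l) :
    NN.real (Iio ((stT i : ℝ) * (ρ (k - 1) / ρ l))) ≤ (tab i s : ℝ) := by
  refine le_trans (Phi_mono ?_) (tab_ok i hi s)
  have hp := h.pos l hl
  have hr : (0 : ℝ) < lvR s := by exact_mod_cast lvR_pos s
  have ht : (0 : ℝ) ≤ stT i := by exact_mod_cast stT_nonneg i hi
  rw [div_eq_mul_inv (stT i : ℝ)]
  apply mul_le_mul_of_nonneg_left _ ht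
  rw [div_le_iff₀ hp]
  have e : ρ (k - 1) = (lvR s : ℝ)⁻¹ * ((lvR s : ℝ) * ρ (k - 1)) := by
    field_simp
  rw [e]
  exact mul_le_mul_of_nonneg_left hlt (inv_pos.mpr hr).le

lemma tab_nonneg (i s : ℕ) (hi : i < stQ) : (0 : ℝ) ≤ (tab i s : ℝ) :=
  measureReal_nonneg.trans (tab_ok i hi s)

lemma lvR_last : lvR lastS = 1 := rfl

lemma prod_le_pow' {s : Finset ℕ} {f : ℕ → ℝ} {c : ℝ} (h0 : ∀ l ∈ s, 0 ≤ f l)
    (h : ∀ l ∈ s, f l ≤ c) : ∏ l ∈ s, f l ≤ c ^ s.card := by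
  calc ∏ l ∈ s, f l ≤ ∏ _l ∈ s, c := Finset.prod_le_prod h0 h
    _ = c ^ s.card := by simp

lemma prodP_bound (h : Prof k ρ) {i : ℕ} (hi : i < stQ) :
    ∀ (L : List (ℕ × ℕ)) (prev : ℕ), Sat k ρ prev L →
      ∏ l ∈ Finset.Ico prev (k - 1), NN.real (Iio ((stT i : ℝ) * (ρ (k - 1) / ρ l))) ≤
        (prodP i k prev L : ℝ) := by
  intro L
  induction L with
  | nil =>
    intro prev hS
    simp only [prodP]
    push_cast
    have hcard : (Finset.Ico prev (k - 1)).card = k - 1 - prev := by simp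
    rw [← hcard]
    refine prod_le_pow' (fun _ _ => measureReal_nonneg) (fun l hl => ?_)
    rw [Finset.mem_Ico] at hl
    refine factor_le h hi (by omega) ?_
    rw [lvR_last]
    push_cast
    rw [one_mul]
    exact h.sig_le (by omega)
  | cons e r ih =>
    intro prev hS
    obtain ⟨h1, h2, h3, _, h5⟩ := hS
    simp only [prodP]
    push_cast
    rw [← Finset.prod_Ico_consecutive _ h1 h2]
    have hP0 : ∀ l, 0 ≤ NN.real (Iio ((stT i : ℝ) * (ρ (k - 1) / ρ l))) :=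
      fun _ => measureReal_nonneg
    refine mul_le_mul ?_ (ih e.1 h5) (Finset.prod_nonneg fun _ _ => hP0 _)
      (pow_nonneg (tab_nonneg i e.2 hi) _)
    have hcard : (Finset.Ico prev e.1).card = e.1 - prev := by simp
    rw [← hcard]
    refine prod_le_pow' (fun _ _ => measureReal_nonneg) (fun l hl => ?_)
    rw [Finset.mem_Ico] at hl
    exact factor_le h hi (by omega) (h3 l hl.1 hl.2).le

lemma sum_sq_le (h : Prof k ρ) {a b : ℕ} {c : ℝ} (_hc : 0 ≤ c) (hb : b ≤ k)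
    (hl : ∀ l, a ≤ l → l < b → ρ l ≤ c) :
    ∑ i ∈ Finset.Ico a b, ρ i ^ 2 ≤ ((b - a : ℕ) : ℝ) * c ^ 2 := by
  have h1 : ∑ i ∈ Finset.Ico a b, ρ i ^ 2 ≤ ∑ _i ∈ Finset.Ico a b, c ^ 2 := by
    refine Finset.sum_le_sum fun i hi => ?_
    rw [Finset.mem_Ico] at hi
    exact pow_le_pow_left₀ (h.pos i (by omega)).le (hl i hi.1 hi.2) 2
  refine h1.trans (le_of_eq ?_)
  rw [Finset.sum_const, Nat.card_Ico, nsmul_eq_mul]

lemma tau_bound (h : Prof k ρ) :
    ∀ (r : List (ℕ × ℕ)) (e : ℕ × ℕ) (prev : ℕ), Sat k ρ prev (e :: r) →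
      ∑ i ∈ Finset.Ico e.1 k, ρ i ^ 2 ≤ (tauS k (e :: r) : ℝ) * ρ (k - 1) ^ 2 := by
  have hσ := h.sig_pos
  have hk := h.hk
  intro r
  induction r with
  | nil =>
    intro e prev hS
    obtain ⟨_, h2, _, h4, _⟩ := hS
    simp only [tauS]
    push_cast
    have hr : (0 : ℝ) < lvR e.2 := by exact_mod_cast lvR_pos e.2
    have e1 : ∑ i ∈ Finset.Ico e.1 k, ρ i ^ 2 =
        ∑ i ∈ Finset.Ico e.1 (k - 1), ρ i ^ 2 + ρ (k - 1) ^ 2 := by
      have : k = (k - 1) + 1 := by omega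
      conv_lhs => rw [this]
      rw [Finset.sum_Ico_succ_top h2]
    rw [e1]
    have h5 := sum_sq_le h (a := e.1) (b := k - 1) (c := (lvR e.2 : ℝ) * ρ (k - 1)) (by positivity)
      (by omega) (fun l hl1 hl2 => h4 l hl1 (by omega))
    rw [mul_pow] at h5
    have e2 : ((k - 1 - e.1 : ℕ) : ℝ) * ((lvR e.2 : ℝ) ^ 2 * ρ (k - 1) ^ 2) =
        (lvR e.2 : ℝ) ^ 2 * ((k - 1 - e.1 : ℕ) : ℝ) * ρ (k - 1) ^ 2 := by ring
    rw [e2] at h5
    nlinarith
  | cons e' r' ih =>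
    intro e prev hS
    obtain ⟨_, h2, _, h4, h5⟩ := hS
    have h6 := ih e' e.1 h5
    obtain ⟨h7, h8, _, _, _⟩ := h5
    simp only [tauS]
    push_cast
    have hr : (0 : ℝ) < lvR e.2 := by exact_mod_cast lvR_pos e.2
    rw [← Finset.sum_Ico_consecutive _ h7 (by omega : e'.1 ≤ k)]
    have h9 := sum_sq_le h (a := e.1) (b := e'.1) (c := (lvR e.2 : ℝ) * ρ (k - 1)) (by positivity)
      (by omega) (fun l hl1 hl2 => h4 l hl1 (by omega))
    rw [mul_pow] at h9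
    have e2 : ((e'.1 - e.1 : ℕ) : ℝ) * ((lvR e.2 : ℝ) ^ 2 * ρ (k - 1) ^ 2) =
        (lvR e.2 : ℝ) ^ 2 * ((e'.1 - e.1 : ℕ) : ℝ) * ρ (k - 1) ^ 2 := by ring
    rw [e2] at h9
    nlinarith

lemma split_sum (h : Prof k ρ) {J : ℕ} (hJ : J ≤ k) :
    ∑ i ∈ Finset.range J, ρ i ^ 2 + ∑ i ∈ Finset.Ico J k, ρ i ^ 2 = 1 := by
  rw [← h.sum, Finset.range_eq_Ico, Finset.range_eq_Ico]
  exact Finset.sum_Ico_consecutive _ (by omega) hJ

lemma sq_le_four_ninths (h : Prof k ρ) {i : ℕ} (hi : i < k) : ρ i ^ 2 ≤ 4 / 9 := by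
  have := pow_le_pow_left₀ (h.pos i hi).le (h.le i hi) 2
  norm_num at this ⊢
  exact this

/-- The mass check gives a contradiction. -/
lemma mass_sound (h : Prof k ρ) {x : ℚ} (hx : ρ (k - 1) < (x : ℝ)) {e : ℕ × ℕ}
    {r : List (ℕ × ℕ)} {prev : ℕ} (hS : Sat k ρ prev (e :: r))
    (hc : massOK k x (e :: r) = true) : False := by
  simp only [massOK, Bool.and_eq_true, decide_eq_true_eq] at hc
  obtain ⟨h1, h2⟩ := hc
  have hσ := h.sig_pos
  have hk := h.hk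
  have h3 := tau_bound h r e prev hS
  have he : e.1 ≤ k - 1 := hS.2.1
  have h4 := split_sum h (J := e.1) (by omega)
  have h5 : ∑ i ∈ Finset.range e.1, ρ i ^ 2 ≤ (e.1 : ℝ) * (4 / 9) := by
    have : ∑ i ∈ Finset.range e.1, ρ i ^ 2 ≤ ∑ _i ∈ Finset.range e.1, (4 / 9 : ℝ) :=
      Finset.sum_le_sum fun i hi => sq_le_four_ninths h (by
        rw [Finset.mem_range] at hi; omega)
    refine this.trans (le_of_eq ?_)
    simp
  have hτ : (0 : ℝ) ≤ (tauS k (e :: r) : ℝ) := by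
    have h6 : 0 ≤ ∑ i ∈ Finset.Ico e.1 k, ρ i ^ 2 := Finset.sum_nonneg fun _ _ => sq_nonneg _
    have h7 : 0 < ρ (k - 1) ^ 2 := by positivity
    by_contra hcon
    push Not at hcon
    nlinarith
  have h6 : (tauS k (e :: r) : ℝ) * ρ (k - 1) ^ 2 ≤ (tauS k (e :: r) : ℝ) * (x : ℝ) ^ 2 := by
    apply mul_le_mul_of_nonneg_left _ hτ
    exact pow_le_pow_left₀ hσ.le hx.le 2
  have h7 : ((tauS k (e :: r) * x ^ 2 : ℚ) : ℝ) < ((1 - 4 / 9 * (e.1 : ℚ) : ℚ) : ℝ) := by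
    exact_mod_cast h2
  push_cast at h7
  linarith

/-- The lower bound for the product of the two middle norms. -/
lemma ab_lower {a b T Mb D v a0 val : ℝ} (hD : 1 ≤ D) (hav : a0 = (1 / 9 - T) / D)
    (hv : v = (5 / 9 - T) / (D + 1))
    (ha0 : a0 ≤ a) (hab : a ≤ b) (hb : 5 / 9 - T - D * a ≤ b)
    (h1 : val ≤ 4 / 9 * (a0 - Mb)) (h2 : val ≤ v * (v - Mb)) (hval : 0 < val)
    (hT : T < 1 / 9) : val ≤ b * (a - Mb) := by
  have hDpos : 0 < D := by linarith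
  have hD1 : 0 < D + 1 := by linarith
  have ha0' : D * a0 = 1 / 9 - T := by
    rw [hav]
    field_simp
  have hv' : (D + 1) * v = 5 / 9 - T := by
    rw [hv]
    field_simp
  have hvpos : 0 < v := by
    rw [hv]
    apply div_pos _ hD1
    linarith
  have hvM : Mb < v := by
    by_contra hcon
    push Not at hcon
    have : v * (v - Mb) ≤ 0 := mul_nonpos_of_nonneg_of_nonpos hvpos.le (by linarith)
    linarith
  have ha0M : Mb < a0 := by linarith
  have haM : 0 < a - Mb := by linarith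
  rcases le_or_gt v a with hva | hva
  · have h3 : v ≤ b := hva.trans hab
    have h4 : v * (v - Mb) ≤ b * (a - Mb) :=
      mul_le_mul h3 (by linarith) (by linarith) (by linarith)
    linarith
  · -- concavity
    have hgap : 0 < v - a0 := by linarith
    have h5 : (5 / 9 - T - D * a) * (a - Mb) ≤ b * (a - Mb) :=
      mul_le_mul_of_nonneg_right hb haM.le
    have hid : (v - a0) * ((5 / 9 - T - D * a) * (a - Mb)) =
        (v - a) * (4 / 9 * (a0 - Mb)) + (a - a0) * (v * (v - Mb)) +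
          D * (a - a0) * (v - a) * (v - a0) := by
      have e1 : 5 / 9 - T = (D + 1) * v := hv'.symm
      have e2 : (4 : ℝ) / 9 = (D + 1) * v - D * a0 := by
        rw [ha0', hv']
        ring
      rw [e1, e2]
      ring
    have h6 : (v - a) * val ≤ (v - a) * (4 / 9 * (a0 - Mb)) :=
      mul_le_mul_of_nonneg_left h1 (by linarith)
    have h7 : (a - a0) * val ≤ (a - a0) * (v * (v - Mb)) :=
      mul_le_mul_of_nonneg_left h2 (by linarith)
    have h8 : 0 ≤ D * (a - a0) * (v - a) * (v - a0) := by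
      have : 0 ≤ a - a0 := by linarith
      have : 0 ≤ v - a := by linarith
      positivity
    have h9 : (v - a0) * val ≤ (v - a0) * ((5 / 9 - T - D * a) * (a - Mb)) := by
      rw [hid]
      nlinarith
    have h10 := le_of_mul_le_mul_left h9 hgap
    linarith

/-- The pair check gives the deletion criterion. -/
lemma pair_sound (h : Prof k ρ) {x : ℚ} (hx : ρ (k - 1) < (x : ℝ)) {e1 e2 : ℕ × ℕ}
    {r1 r2 : List (ℕ × ℕ)} {p1 p2 : ℕ} (hS1 : Sat k ρ p1 (e1 :: r1)) (hS2 : Sat k ρ p2 (e2 :: r2))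
    (hc : pairOK k x (e1 :: r1) (e2 :: r2) = true) : PcCrit k ρ e2.1 := by
  simp only [pairOK, Bool.and_eq_true, decide_eq_true_eq] at hc
  obtain ⟨⟨⟨⟨⟨⟨⟨hJ1, hJ2⟩, hJ2k⟩, hT⟩, hval⟩, hy0⟩, hy⟩, hmain⟩ := hc
  set t1 := tauS k (e1 :: r1) with ht1
  set t2 := tauS k (e2 :: r2) with ht2
  set Tq := t1 * x ^ 2 with hTq
  set Mq := t2 * x ^ 2 with hMq
  set rq := lvR e2.2 with hrq
  set a0q := (1 / 9 - Tq) / ((e1.1 : ℚ) - 2) with ha0q
  set vq := (5 / 9 - Tq) / ((e1.1 : ℚ) - 1) with hvq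
  set valq := min (4 / 9 * (a0q - Mq)) (vq * (vq - Mq)) with hvalq
  set y := yOf (t2 / rq ^ 2) with hyq
  set Wq := y ^ 3 + 3 / 4 * (e2.1 : ℚ) * y ^ 2 + 9 / 8 * (e2.1 : ℚ) * y + 27 / 32 * (e2.1 : ℚ) ^ 2
    with hWq
  have hσ := h.sig_pos
  have hk := h.hk
  have hσ2 : 0 < ρ (k - 1) ^ 2 := by positivity
  have he1 : e1.1 ≤ k - 1 := hS1.2.1
  set σ := ρ (k - 1) with hσdef
  set X : ℝ := (x : ℝ) with hX
  have hXpos : 0 < X := hσ.trans hx
  have hτ1 := tau_bound h r1 e1 p1 hS1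
  have hτ2 := tau_bound h r2 e2 p2 hS2
  rw [← ht1] at hτ1
  rw [← ht2] at hτ2
  have hnn : ∀ J, 0 ≤ ∑ i ∈ Finset.Ico J k, ρ i ^ 2 := fun J =>
    Finset.sum_nonneg fun _ _ => sq_nonneg _
  have ht1R : (0 : ℝ) ≤ (t1 : ℝ) := by
    by_contra hcon
    push Not at hcon
    have := hnn e1.1
    nlinarith
  have ht2R : (0 : ℝ) ≤ (t2 : ℝ) := by
    by_contra hcon
    push Not at hcon
    have := hnn e2.1
    nlinarith
  have hσX : σ ^ 2 ≤ X ^ 2 := pow_le_pow_left₀ hσ.le hx.le 2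
  -- real versions of the rational quantities
  set T : ℝ := (Tq : ℝ) with hTR
  set Mb : ℝ := (Mq : ℝ) with hMbR
  have hTeq : T = (t1 : ℝ) * X ^ 2 := by rw [hTR, hTq]; push_cast; rfl
  have hMeq : Mb = (t2 : ℝ) * X ^ 2 := by rw [hMbR, hMq]; push_cast; rfl
  have hT' : T < 1 / 9 := by
    have h3 : ((Tq : ℚ) : ℝ) < ((1 / 9 : ℚ) : ℝ) := Rat.cast_lt.mpr hT
    have e : ((1 / 9 : ℚ) : ℝ) = 1 / 9 := by norm_num
    rw [e] at h3
    exact h3
  -- the masses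
  have hM1 : ∑ i ∈ Finset.Ico e1.1 k, ρ i ^ 2 ≤ T := by
    rw [hTeq]
    exact hτ1.trans (mul_le_mul_of_nonneg_left hσX ht1R)
  have hM2 : ∑ i ∈ Finset.Ico e2.1 k, ρ i ^ 2 ≤ Mb := by
    rw [hMeq]
    exact hτ2.trans (mul_le_mul_of_nonneg_left hσX ht2R)
  -- the mass constraints
  set a := ρ 2 ^ 2 with ha
  set b := ρ 1 ^ 2 with hb
  have hsplit := split_sum h (J := e1.1) (by omega)
  have hJ1R : (3 : ℝ) ≤ (e1.1 : ℝ) := by exact_mod_cast hJ1
  have hrange : ∑ i ∈ Finset.range e1.1, ρ i ^ 2 =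
      ρ 0 ^ 2 + ρ 1 ^ 2 + ∑ i ∈ Finset.Ico 2 e1.1, ρ i ^ 2 := by
    rw [Finset.range_eq_Ico, ← Finset.sum_Ico_consecutive _ (by omega : 0 ≤ 2) (by omega : 2 ≤ e1.1)]
    have e : Finset.Ico 0 2 = ({0, 1} : Finset ℕ) := by decide
    rw [e, Finset.sum_pair (by norm_num)]
  have hmid : ∑ i ∈ Finset.Ico 2 e1.1, ρ i ^ 2 ≤ ((e1.1 : ℝ) - 2) * a := by
    have h2 := sum_sq_le h (a := 2) (b := e1.1) (c := ρ 2) (h.pos 2 (by omega)).le (by omega)
      (fun l hl1 hl2 => h.mono hl1 (by omega))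
    have e : ((e1.1 - 2 : ℕ) : ℝ) = (e1.1 : ℝ) - 2 := by
      rw [Nat.cast_sub (by omega)]
      norm_num
    rw [e] at h2
    exact h2
  have hs0 := sq_le_four_ninths h (i := 0) (by omega)
  have hs1 := sq_le_four_ninths h (i := 1) (by omega)
  have hba : a ≤ b := pow_le_pow_left₀ (h.pos 2 (by omega)).le
    (h.mono (by norm_num) (by omega)) 2
  set D : ℝ := (e1.1 : ℝ) - 2 with hD
  have hD1 : 1 ≤ D := by rw [hD]; linarith
  have hm1 : 1 / 9 - T ≤ D * a := by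
    rw [hrange] at hsplit
    linarith
  have hm2 : 5 / 9 - T - D * a ≤ b := by
    rw [hrange] at hsplit
    linarith
  -- the value
  have ha0R : ((a0q : ℚ) : ℝ) = (1 / 9 - T) / D := by
    rw [ha0q, hD, hTR]
    push_cast
    ring
  have hvR : ((vq : ℚ) : ℝ) = (5 / 9 - T) / (D + 1) := by
    rw [hvq, hD, hTR]
    push_cast
    ring
  set val : ℝ := (valq : ℝ) with hvalR
  have hval' : 0 < val := by
    rw [hvalR]
    exact_mod_cast hval
  have hv1 : val ≤ 4 / 9 * (((a0q : ℚ) : ℝ) - Mb) := by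
    have : valq ≤ 4 / 9 * (a0q - Mq) := min_le_left _ _
    have h3 : ((valq : ℚ) : ℝ) ≤ ((4 / 9 * (a0q - Mq) : ℚ) : ℝ) := by exact_mod_cast this
    push_cast at h3
    exact h3
  have hv2 : val ≤ ((vq : ℚ) : ℝ) * (((vq : ℚ) : ℝ) - Mb) := by
    have : valq ≤ vq * (vq - Mq) := min_le_right _ _
    have h3 : ((valq : ℚ) : ℝ) ≤ ((vq * (vq - Mq) : ℚ) : ℝ) := by exact_mod_cast this
    push_cast at h3
    exact h3
  have ha0a : ((a0q : ℚ) : ℝ) ≤ a := by
    rw [ha0R, div_le_iff₀ (by linarith)]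
    linarith
  have hlow := ab_lower hD1 ha0R hvR ha0a hba hm2 hv1 hv2 hval' hT'
  have hMlt : Mb < a := by
    have h3 : 0 < 4 / 9 * (((a0q : ℚ) : ℝ) - Mb) := lt_of_lt_of_le hval' hv1
    linarith
  -- apply crit_real
  have hJ2R : (0 : ℝ) < (e2.1 : ℝ) := by
    have : 0 < e2.1 := by omega
    exact_mod_cast this
  have hrpos : (0 : ℝ) < (rq : ℝ) := by
    rw [hrq]
    exact_mod_cast lvR_pos e2.2
  have hy0R : (0 : ℝ) ≤ (y : ℝ) := by exact_mod_cast hy0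
  have hyR : (t2 : ℝ) ≤ (rq : ℝ) ^ 2 * (y : ℝ) ^ 6 := by exact_mod_cast hy
  have hJmem : e2.1 ∈ Finset.Ico e2.1 k := Finset.mem_Ico.mpr ⟨le_rfl, hJ2k⟩
  have hρJ2 : ρ e2.1 ≤ (rq : ℝ) * σ := hS2.2.2.2.1 e2.1 le_rfl hJ2k
  have hρ_le : ∀ i ∈ Finset.Ico e2.1 k, 0 < ρ i ∧ ρ i ≤ ρ e2.1 := by
    intro i hi
    rw [Finset.mem_Ico] at hi
    exact ⟨h.pos i hi.2, h.mono hi.1 hi.2⟩
  unfold PcCrit
  have hmpos : 0 < pcM k ρ e2.1 := by
    unfold pcM
    exact Finset.sum_pos (fun i hi => pow_pos (hρ_le i hi).1 2) ⟨_, hJmem⟩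
  have hTT : (rq : ℝ) * X = (rq : ℝ) * X := rfl
  refine crit_real (j := e2.1) (by omega) (T := (rq : ℝ) * X) (Mb := Mb)
    (P := (y : ℝ) ^ 3 * ((rq : ℝ) * X)) (Q := (y : ℝ) ^ 2 * ((rq : ℝ) * X))
    (R := (y : ℝ) * ((rq : ℝ) * X)) (A1 := ρ 1) (A2 := ρ 2) (ρ1 := ρ 1) (ρ2 := ρ 2)
    (m := pcM k ρ e2.1) (y3 := ∑ i ∈ Finset.Ico e2.1 k, ρ i ^ 3) (t := ρ e2.1)
    hmpos hM2 ?_ (h.pos _ hJ2k).le ?_ (by positivity) (by positivity) (by positivity) ?_ ?_ ?_
    le_rfl (h.pos 1 (by omega)).le le_rfl (h.pos 2 (by omega)).le hMlt ?_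
  · -- t ≤ T
    refine hρJ2.trans ?_
    exact mul_le_mul_of_nonneg_left hx.le hrpos.le
  · -- y3 ≤ t m
    unfold pcM
    rw [Finset.mul_sum]
    refine Finset.sum_le_sum fun i hi => ?_
    have h1 := hρ_le i hi
    have e : ρ i ^ 3 = ρ i * ρ i ^ 2 := by ring
    rw [e]
    exact mul_le_mul_of_nonneg_right h1.2 (sq_nonneg _)
  · -- P
    rw [hMeq]
    have e : ((y : ℝ) ^ 3 * ((rq : ℝ) * X)) ^ 2 = ((rq : ℝ) ^ 2 * (y : ℝ) ^ 6) * X ^ 2 := by ring
    rw [e]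
    exact mul_le_mul_of_nonneg_right hyR (sq_nonneg _)
  · -- Q
    rw [hMeq]
    have e : ((y : ℝ) ^ 2 * ((rq : ℝ) * X)) ^ 3 =
        ((rq : ℝ) * X) * (((rq : ℝ) ^ 2 * (y : ℝ) ^ 6) * X ^ 2) := by ring
    rw [e]
    apply mul_le_mul_of_nonneg_left _ (by positivity)
    exact mul_le_mul_of_nonneg_right hyR (sq_nonneg _)
  · -- R
    rw [hMeq]
    have e : ((y : ℝ) * ((rq : ℝ) * X)) ^ 6 =
        ((rq : ℝ) * X) ^ 4 * (((rq : ℝ) ^ 2 * (y : ℝ) ^ 6) * X ^ 2) := by ring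
    rw [e]
    apply mul_le_mul_of_nonneg_left _ (by positivity)
    exact mul_le_mul_of_nonneg_right hyR (sq_nonneg _)
  · -- main
    have h3 : (4 * ((rq : ℝ) * X * (Wq : ℝ)) ^ 2) ≤ (1413 / 100) ^ 2 * 3 * val := by
      have h4 : ((4 * (rq * x * Wq) ^ 2 : ℚ) : ℝ) ≤ (((1413 / 100) ^ 2 * 3 * valq : ℚ) : ℝ) := by
        exact_mod_cast hmain
      push_cast at h4
      exact h4
    have e : (y : ℝ) ^ 3 * ((rq : ℝ) * X) + 3 / 4 * (e2.1 : ℝ) * ((y : ℝ) ^ 2 * ((rq : ℝ) * X)) +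
        9 / 8 * (e2.1 : ℝ) * ((y : ℝ) * ((rq : ℝ) * X)) + 27 / 32 * (e2.1 : ℝ) ^ 2 * ((rq : ℝ) * X) =
        (rq : ℝ) * X * (Wq : ℝ) := by
      rw [hWq]
      push_cast
      ring
    rw [e]
    refine h3.trans ?_
    have h5 : (1413 / 100 : ℝ) ^ 2 * 3 * val ≤ (1413 / 100) ^ 2 * 3 * (b * (a - Mb)) :=
      mul_le_mul_of_nonneg_left hlow (by norm_num)
    refine h5.trans (le_of_eq ?_)
    ring

lemma anySuf_sound {f : List (ℕ × ℕ) → Bool} :
    ∀ (L : List (ℕ × ℕ)) (prev : ℕ), anySuf f L = true → Sat k ρ prev L →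
      ∃ e r p, f (e :: r) = true ∧ Sat k ρ p (e :: r) := by
  intro L
  induction L with
  | nil =>
    intro prev h _
    simp [anySuf] at h
  | cons e r ih =>
    intro prev h hS
    simp only [anySuf, Bool.or_eq_true] at h
    rcases h with h | h
    · exact ⟨e, r, prev, h, hS⟩
    · exact ih e.1 h hS.2.2.2.2

lemma sumQ_cast (n : ℕ) (f : ℕ → ℚ) :
    ((sumQ n f : ℚ) : ℝ) = ∑ i ∈ Finset.range n, (f i : ℝ) := by
  induction n with
  | zero => simp [sumQ]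
  | succ n ih =>
    simp only [sumQ]
    rw [Finset.sum_range_succ]
    push_cast
    rw [ih]

lemma le_roundUp (x : ℚ) : x ≤ roundUp x := by
  unfold roundUp
  have hd : (0 : ℤ) < (x.den : ℤ) := by exact_mod_cast x.den_pos
  have h1 := Int.lt_ediv_add_one_mul_self (x.num * 1000000000) hd
  set q : ℤ := (x.num * 1000000000) / (x.den : ℤ) with hq
  have h2 : ((x.num * 1000000000 : ℤ) : ℚ) ≤ (((q + 1) * (x.den : ℤ) : ℤ) : ℚ) := by
    exact_mod_cast h1.le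
  push_cast at h2
  have hd' : (0 : ℚ) < (x.den : ℚ) := by exact_mod_cast x.den_pos
  have h3 : x = (x.num : ℚ) / (x.den : ℚ) := (Rat.num_div_den x).symm
  rw [le_div_iff₀ (by norm_num)]
  conv_lhs => rw [h3]
  rw [div_mul_eq_mul_div, div_le_iff₀ hd']
  push_cast
  exact h2

/-- The final inequality. -/
def Final (k : ℕ) (ρ : ℕ → ℝ) : Prop :=
  2 * ∑ i ∈ Finset.range stQ, ((stF i * stA i : ℚ) : ℝ) * ∏ l ∈ Finset.range (k - 1),
      NN.real (Iio ((stT i : ℝ) * (ρ (k - 1) / ρ l))) ≤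
    (5984 / 10000) * ρ (k - 1) * ((dk k : ℚ) : ℝ)

lemma stFA_nonneg (i : ℕ) : 0 ≤ stF i * stA i := by
  have h1 : 0 ≤ stF i := by unfold stF; norm_num
  have h2 : 0 ≤ stA i := by
    unfold stA
    match i with
    | 0 => norm_num [stAL]
    | 1 => norm_num [stAL]
    | 2 => norm_num [stAL]
    | 3 => norm_num [stAL]
    | 4 => norm_num [stAL]
    | 5 => norm_num [stAL]
    | 6 => norm_num [stAL]
    | 7 => norm_num [stAL]
    | n + 8 => simp [stAL]
  exact mul_nonneg h1 h2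

/-- A lower bound for the smallest norm gives the final inequality. -/
lemma final_of_ge (h : Prof k ρ) (hd : 0 < dk k) {L : List (ℕ × ℕ)} (hS : Sat k ρ 0 L)
    (hx : ((xBar k L : ℚ) : ℝ) ≤ ρ (k - 1)) : Final k ρ := by
  unfold Final
  have hdR : (0 : ℝ) < (dk k : ℝ) := by exact_mod_cast hd
  have h1 : 2 * sumQ stQ (fun i => stF i * stA i * prodP i k 0 L) / ((5984 / 10000) * dk k) ≤
      xBar k L := le_roundUp _
  have h2 : ((2 * sumQ stQ (fun i => stF i * stA i * prodP i k 0 L) /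
      ((5984 / 10000) * dk k) : ℚ) : ℝ) ≤ ((xBar k L : ℚ) : ℝ) := by exact_mod_cast h1
  have h3 : (0 : ℝ) < (5984 / 10000) * (dk k : ℝ) := by positivity
  rw [Rat.cast_div, div_le_iff₀ (by push_cast; exact h3)] at h2
  push_cast at h2
  rw [sumQ_cast] at h2
  push_cast at h2
  have h4 : ∀ i ∈ Finset.range stQ, ((stF i * stA i : ℚ) : ℝ) * ∏ l ∈ Finset.range (k - 1),
      NN.real (Iio ((stT i : ℝ) * (ρ (k - 1) / ρ l))) ≤
      (stF i : ℝ) * (stA i : ℝ) * (prodP i k 0 L : ℝ) := by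
    intro i hi
    rw [Finset.mem_range] at hi
    have h5 := prodP_bound h hi L 0 hS
    rw [← Finset.range_eq_Ico] at h5
    have h6 : (0 : ℝ) ≤ ((stF i * stA i : ℚ) : ℝ) := by exact_mod_cast stFA_nonneg i
    have h7 := mul_le_mul_of_nonneg_left h5 h6
    refine h7.trans (le_of_eq ?_)
    push_cast
    ring
  have h8 := Finset.sum_le_sum h4
  have h9 : (5984 / 10000 : ℝ) * ρ (k - 1) * (dk k : ℝ) =
      ρ (k - 1) * ((5984 / 10000) * (dk k : ℝ)) := by ring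
  rw [h9]
  have h10 : ((xBar k L : ℚ) : ℝ) * ((5984 / 10000) * (dk k : ℝ)) ≤
      ρ (k - 1) * ((5984 / 10000) * (dk k : ℝ)) :=
    mul_le_mul_of_nonneg_right hx h3.le
  linarith

lemma check_sound (h : Prof k ρ) (hd : 0 < dk k)
    (hno : ∀ j, 3 ≤ j → j < k → ¬ PcCrit k ρ j) {L : List (ℕ × ℕ)} (hS : Sat k ρ 0 L)
    (hc : check k L = true) : Final k ρ := by
  by_cases hx : ((xBar k L : ℚ) : ℝ) ≤ ρ (k - 1)
  · exact final_of_ge h hd hS hx
  · exfalso
    push Not at hx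
    simp only [check, Bool.or_eq_true] at hc
    rcases hc with hc | hc
    · obtain ⟨e, r, p, h1, h2⟩ := anySuf_sound L 0 hc hS
      exact mass_sound h hx h2 h1
    · obtain ⟨e1, r1, p1, h1, h2⟩ := anySuf_sound L 0 hc hS
      obtain ⟨e2, r2, p2, h3, h4⟩ := anySuf_sound L 0 h1 hS
      have h5 := pair_sound h hx h2 h4 h3
      have h6 : 3 ≤ e2.1 ∧ e2.1 < k := by
        simp only [pairOK, Bool.and_eq_true, decide_eq_true_eq] at h3
        exact ⟨h3.1.1.1.1.1.1.2, h3.1.1.1.1.1.2⟩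
      exact hno _ h6.1 h6.2 h5

lemma lastJ_le : ∀ (L : List (ℕ × ℕ)) (prev : ℕ), Sat k ρ prev L → lastJ prev L ≤ k - 1 := by
  intro L
  induction L with
  | nil => intro prev hS; exact hS
  | cons e r ih =>
    intro prev hS
    exact ih e.1 hS.2.2.2.2

lemma sat_append : ∀ (L : List (ℕ × ℕ)) (prev : ℕ) (j s : ℕ), Sat k ρ prev L →
    lastJ prev L ≤ j → j ≤ k - 1 →
    (∀ l, lastJ prev L ≤ l → l < j → (lvR s : ℝ) * ρ (k - 1) < ρ l) →
    (∀ l, j ≤ l → l < k → ρ l ≤ (lvR s : ℝ) * ρ (k - 1)) →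
    Sat k ρ prev (L ++ [(j, s)]) := by
  intro L
  induction L with
  | nil =>
    intro prev j s hS h1 h2 h3 h4
    exact ⟨h1, h2, h3, h4, h2⟩
  | cons e r ih =>
    intro prev j s hS h1 h2 h3 h4
    obtain ⟨a1, a2, a3, a4, a5⟩ := hS
    exact ⟨a1, a2, a3, a4, ih e.1 j s a5 h1 h2 h3 h4⟩

/-- Soundness of the search. -/
theorem dfs_sound (h : Prof k ρ) (hd : 0 < dk k)
    (hno : ∀ j, 3 ≤ j → j < k → ¬ PcCrit k ρ j) :
    ∀ (lv : List ℕ) (L : List (ℕ × ℕ)), Sat k ρ 0 L → dfs k lv L = true → Final k ρ := by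
  intro lv
  have hσ := h.sig_pos
  have hk := h.hk
  induction lv with
  | nil =>
    intro L hS hc
    exact check_sound h hd hno hS hc
  | cons s rest ih =>
    intro L hS hc
    simp only [dfs, Bool.or_eq_true, List.all_eq_true] at hc
    rcases hc with hc | hc
    · exact check_sound h hd hno hS hc
    · set p := lastJ 0 L with hp
      have hpk : p ≤ k - 1 := lastJ_le L 0 hS
      set r : ℝ := (lvR s : ℝ) with hr
      have hr1 : 1 ≤ r := by
        rw [hr]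
        exact_mod_cast lvR_one_le s
      have hex : ∃ j, p ≤ j ∧ ρ j ≤ r * ρ (k - 1) := ⟨k - 1, hpk, by nlinarith⟩
      classical
      set j := Nat.find hex with hj
      obtain ⟨hj1, hj2⟩ := Nat.find_spec hex
      have hjk : j ≤ k - 1 := Nat.find_min' hex ⟨hpk, by nlinarith⟩
      have hmem : j ∈ List.range' p (k - p) := by
        rw [List.mem_range'_1]
        omega
      refine ih _ ?_ (hc j hmem)
      refine sat_append L 0 j s hS hj1 hjk ?_ ?_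
      · intro l hl1 hl2
        have := Nat.find_min hex hl2
        push Not at this
        exact this hl1
      · intro l hl1 hl2
        exact (h.mono hl1 hl2).trans hj2

end SD

end Vale.Agent.Lib.P226
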