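import Mathlib
import Vale.Agent.Lib.P226.G22Class

/-!
Single deletion below 33: a staircase with many steps and the recentred deletion.
-/

open MeasureTheory ProbabilityTheory Real Set Filter Topology
open scoped ENNReal NNReal RealInnerProductSpace

namespace Vale.Agent.Lib.P226

set_option linter.unusedSectionVars false

noncomputable section

variable {E : Type*} [NormedAddCommGroup E] [InnerProductSpace ℝ E] [FiniteDimensional ℝ E]
  [MeasurableSpace E] [BorelSpace E]

/-! ### The staircase in one variable -/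

lemma HH_step {t e c G : ℝ} (ht : 0 ≤ t) (he : 0 ≤ e) (h : HH t ≤ e + c * phi t) (hG : t ≤ G) :
    HH G ≤ e + c * phi G := by
  have h3 := HH_ratio ht hG
  have h4 := phi_anti ht hG
  have hp := phi_pos G
  have hB : 0 < phi t := phi_pos t
  have h8 : HH G * phi t ≤ (e + c * phi G) * phi t := by
    have h9 : HH t * phi G ≤ (e + c * phi t) * phi G := mul_le_mul_of_nonneg_right h hp.le
    have h10 : e * phi G ≤ e * phi t := mul_le_mul_of_nonneg_left h4 he
    nlinarith
  exact le_of_mul_le_mul_right h8 hB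

/-- The staircase from its values at the steps. -/
theorem HH_stair_gen {q : ℕ} {a t : ℕ → ℝ} {c : ℝ} (ha : ∀ i, 0 ≤ a i) (ht : ∀ i, i < q → 0 ≤ t i)
    (h1 : ∀ i, i < q → HH (t i) ≤ (∑ j ∈ Finset.range i, a j) + c * phi (t i))
    (hc : c ≤ 1) (h2 : (1 - c) * phi0 ≤ ∑ j ∈ Finset.range q, a j) {G : ℝ} (hG : 0 ≤ G) :
    HH G ≤ c * phi G + ∑ i ∈ Finset.range q, a i * (if G < t i then 1 else 0) := by
  classical
  have hex : ∃ n, n = q ∨ (n < q ∧ t n ≤ G) := ⟨q, Or.inl rfl⟩
  set n := Nat.find hex with hn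
  have hspec := Nat.find_spec hex
  have hmin : ∀ i, i < n → G < t i ∧ i < q := by
    intro i hi
    have h3 := Nat.find_min hex hi
    push Not at h3
    have hnq : n ≤ q := Nat.find_min' hex (Or.inl rfl)
    have hiq : i < q := by omega
    exact ⟨(h3.2 hiq), hiq⟩
  have hnq : n ≤ q := Nat.find_min' hex (Or.inl rfl)
  have hlow : ∑ j ∈ Finset.range n, a j ≤
      ∑ i ∈ Finset.range q, a i * (if G < t i then 1 else 0) := by
    have h3 : ∑ j ∈ Finset.range n, a j =
        ∑ i ∈ Finset.range n, a i * (if G < t i then 1 else 0) := by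
      refine Finset.sum_congr rfl fun i hi => ?_
      rw [Finset.mem_range] at hi
      simp [(hmin i hi).1]
    rw [h3]
    apply Finset.sum_le_sum_of_subset_of_nonneg
    · exact Finset.range_subset_range.mpr hnq
    · intro i _ _
      have := ha i
      by_cases h : G < t i <;> simp [h, this]
  have hmain : HH G ≤ (∑ j ∈ Finset.range n, a j) + c * phi G := by
    rcases hspec with h3 | ⟨h3, h4⟩
    · have h3' : n = q := h3
      rw [h3']
      have h5 := HH_le_phi G hG
      have h6 := phi_le_phi0 G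
      have h7 : (1 - c) * phi G ≤ (1 - c) * phi0 := mul_le_mul_of_nonneg_left h6 (by linarith)
      nlinarith
    · exact HH_step (ht n h3) (Finset.sum_nonneg fun i _ => ha i) (h1 n h3) h4
  linarith

/-- Rational lower bound for the density. -/
def phiL (a : ℚ) (n : ℕ) : ℚ :=
  (3989422804 / 10000000000) /
    (expQ (a ^ 2 / 2) n + (a ^ 2 / 2) ^ n * ((n + 1 : ℕ) / ((n.factorial : ℚ) * n)))

lemma phiL_le {a : ℚ} (ha1 : a ^ 2 / 2 ≤ 1) (n : ℕ) (hn : 0 < n) :
    (phiL a n : ℝ) ≤ phi (a : ℝ) := by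
  set y : ℝ := (a : ℝ) ^ 2 / 2 with hy
  have hy0 : 0 ≤ y := by positivity
  have hy1 : y ≤ 1 := by
    have : ((a ^ 2 / 2 : ℚ) : ℝ) ≤ ((1 : ℚ) : ℝ) := by exact_mod_cast ha1
    push_cast at this
    exact this
  have h1 := Real.exp_bound' hy0 hy1 hn
  unfold phiL expQ
  push_cast
  rw [← hy, phi_eq]
  have hexp : rexp (-(a : ℝ) ^ 2 / 2) = (rexp y)⁻¹ := by
    rw [← Real.exp_neg, hy]
    congr 1
    ring
  rw [hexp]
  have hepos : 0 < rexp y := exp_pos y
  set U : ℝ := ∑ m ∈ Finset.range n, y ^ m / (m.factorial : ℝ) +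
    y ^ n * (((n : ℝ) + 1) / ((n.factorial : ℝ) * n)) with hU
  have h2 : rexp y ≤ U := by
    rw [hU]
    refine h1.trans (le_of_eq ?_)
    ring
  have hUpos : 0 < U := hepos.trans_le h2
  rw [div_le_iff₀ hUpos]
  have h3 := phi0_gt
  have h4 : (rexp y)⁻¹ * U ≥ 1 := by
    rw [ge_iff_le, inv_mul_eq_div, le_div_iff₀ hepos]
    linarith
  nlinarith [phi0_pos]

namespace SD

/-- The numerical facts behind the staircase. -/
lemma stair_num : ∀ i, i < stQ →
    hhU (stT i) 12 12 ≤ sumQ i stA + stC * phiL (stT i) 10 := by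
  decide +kernel

lemma stair_end : (1 - stC) * (3989422805 / 10000000000) ≤ sumQ stQ stA := by
  decide +kernel

lemma stT_sq (i : ℕ) (hi : i < stQ) : stT i ^ 2 / 2 ≤ 1 := by
  unfold stQ at hi
  interval_cases i <;> norm_num [stT, stTL]

lemma stA_nonneg (i : ℕ) : 0 ≤ stA i := by
  unfold stA
  match i with
  | 0 => norm_num [stAL]
  | 1 => norm_num [stAL]
  | 2 => norm_num [stAL]
  | 3 => norm_num [stAL]
  | 4 => norm_num [stAL]
  | 5 => norm_num [stAL]
  | 6 => norm_num [stAL]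
  | 7 => norm_num [stAL]
  | n + 8 => simp [stAL]

/-- The staircase. -/
theorem HH_stair8 {G : ℝ} (hG : 0 ≤ G) :
    HH G ≤ (stC : ℝ) * phi G +
      ∑ i ∈ Finset.range stQ, (stA i : ℝ) * (if G < (stT i : ℝ) then 1 else 0) := by
  refine HH_stair_gen (fun i => by exact_mod_cast stA_nonneg i)
    (fun i hi => by exact_mod_cast stT_nonneg i hi) ?_ ?_ ?_ hG
  · intro i hi
    have h1 := HH_le_hhU (stT_nonneg i hi) 12 12 (by norm_num)
    have h2 := stair_num i hi
    have h3 : ((hhU (stT i) 12 12 : ℚ) : ℝ) ≤ ((sumQ i stA + stC * phiL (stT i) 10 : ℚ) : ℝ) := by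
      exact_mod_cast h2
    push_cast at h3
    rw [sumQ_cast] at h3
    have h4 := phiL_le (stT_sq i hi) 10 (by norm_num)
    have h5 : (0 : ℝ) ≤ (stC : ℝ) := by norm_num [stC]
    have h6 := mul_le_mul_of_nonneg_left h4 h5
    linarith
  · norm_num [stC]
  · have h1 : (((1 - stC) * (3989422805 / 10000000000) : ℚ) : ℝ) ≤ ((sumQ stQ stA : ℚ) : ℝ) := by
      exact_mod_cast stair_end
    rw [sumQ_cast] at h1
    push_cast at h1
    have h2 := phi0_lt
    have h3 : (0 : ℝ) ≤ 1 - (stC : ℝ) := by norm_num [stC]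
    have h4 := mul_le_mul_of_nonneg_left h2.le h3
    linarith

end SD

/-! ### The gain with a general staircase -/

variable {m : ℕ} [NeZero m] {σ : ℝ} {u : E} {w : Fin m → E}

theorem gain_le_stairGen (h : CellData σ u w) {c : ℝ} (q : ℕ) (a t : ℕ → ℝ) (ha : ∀ i, 0 ≤ a i)
    (hst : ∀ G : ℝ, 0 ≤ G →
      HH G ≤ c * phi G + ∑ i ∈ Finset.range q, a i * (if G < t i then 1 else 0)) :
    ∫ y, max (⟪σ • u, y⟫ - Vf w y) 0 ∂(stdGaussian E) ≤
      c * ∑ r, cc σ w u r * flux σ w u r +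
      2 * σ * ∑ i ∈ Finset.range q, a i * (stdGaussian E).real {x | GG σ w u x < t i} := by
  refine (gain_le_cells h).trans ?_
  set A : ℕ → Fin m → ℝ := fun i r => ∫ x in vorCell (gg σ w u) r,
    (if GG σ w u x < t i then (1 : ℝ) else 0) ∂(stdGaussian E) with hA
  have hA0 : ∀ i r, 0 ≤ A i r := fun i r => integral_nonneg fun x => by
    by_cases hx : GG σ w u x < t i <;> simp [hx]
  have hi2 : ∀ i, Integrable (fun x => if GG σ w u x < t i then (1 : ℝ) else 0) (stdGaussian E) :=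
    fun i => integrable_ite_GG (σ := σ) (w := w) (u := u) (E := E) (t i)
  have hi1 : Integrable (fun x => phi (GG σ w u x)) (stdGaussian E) := integrable_phi_GG σ w u
  have hcell : ∀ r, ∫ x in vorCell (gg σ w u) r, HH (GG σ w u x) ∂(stdGaussian E) ≤
      c * flux σ w u r + ∑ i ∈ Finset.range q, a i * A i r := by
    intro r
    have e : c * flux σ w u r + ∑ i ∈ Finset.range q, a i * A i r =
        ∫ x in vorCell (gg σ w u) r, (c * phi (GG σ w u x) +
          ∑ i ∈ Finset.range q, a i * (if GG σ w u x < t i then (1 : ℝ) else 0))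
            ∂(stdGaussian E) := by
      rw [integral_add (hi1.const_mul _).integrableOn
        (integrable_finsetSum _ fun i _ => (hi2 i).const_mul _).integrableOn,
        integral_const_mul, integral_finsetSum _ fun i _ => ((hi2 i).const_mul _).integrableOn]
      congr 1
      refine Finset.sum_congr rfl fun i _ => ?_
      rw [integral_const_mul]
    rw [e]
    refine setIntegral_mono (integrable_HH_GG h).integrableOn
      ((hi1.const_mul _).add (integrable_finsetSum _ fun i _ => (hi2 i).const_mul _)).integrableOn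
      fun x => ?_
    exact hst _ (GG_nonneg h x)
  have hsum : ∀ i, ∑ r, A i r = (stdGaussian E).real {x | GG σ w u x < t i} := fun i =>
    sum_cell_sublevel _
  have hterm : ∀ r, cc σ w u r * ∫ x in vorCell (gg σ w u) r, HH (GG σ w u x) ∂(stdGaussian E) ≤
      c * (cc σ w u r * flux σ w u r) + 2 * σ * ∑ i ∈ Finset.range q, a i * A i r := by
    intro r
    have hc1 := cc_pos h r
    have hc2 := cc_le h r
    have h1 := mul_le_mul_of_nonneg_left (hcell r) hc1.le
    have h3 : 0 ≤ ∑ i ∈ Finset.range q, a i * A i r :=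
      Finset.sum_nonneg fun i _ => mul_nonneg (ha i) (hA0 i r)
    have h2 := mul_le_mul_of_nonneg_right hc2 h3
    nlinarith
  refine (Finset.sum_le_sum fun r _ => hterm r).trans (le_of_eq ?_)
  rw [Finset.sum_add_distrib, ← Finset.mul_sum, ← Finset.mul_sum]
  congr 2
  rw [Finset.sum_comm]
  refine Finset.sum_congr rfl fun i _ => ?_
  rw [← Finset.mul_sum, hsum]

/-! ### The recentred deletion -/

/-- A gain of at most half the mass of the last vector, with the factor `1 + 1/m`, allows the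
deletion: translate the remaining vectors by `(1/m) T_last`, so that their sum is zero again. -/
theorem delete_of_gain' {m : ℕ} [NeZero m] (T : Fin (m + 1) → E) (hT : Opt T) (hV : 0 < VV T)
    (hσ : ‖T (Fin.last m)‖ ^ 2 * (1 + 1 / (m : ℝ)) < 1)
    (hg : ∫ x, max (⟪T (Fin.last m), x⟫ - Vf (fun l : Fin m => T l.castSucc) x) 0 ∂(stdGaussian E) ≤
      (VV T / 2) * (‖T (Fin.last m)‖ ^ 2 * (1 + 1 / (m : ℝ)))) :
    ∃ T' : Fin m → E, T' ∈ (SS m : Set (Fin m → E)) ∧ VV T ≤ VV T' := by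
  have hm : (0 : ℝ) < m := by
    have : 0 < m := NeZero.pos m
    exact_mod_cast this
  set σ := ‖T (Fin.last m)‖ with hσdef
  set z := T (Fin.last m) with hz
  set w : Fin m → E := fun l => T l.castSucc with hw
  set w' : Fin m → E := fun l => w l + (1 / (m : ℝ)) • z with hw'
  have hsum1 := opt_sum_sq_eq hT hV
  have hsum2 : ∑ j, ‖T j‖ ^ 2 = ∑ l, ‖w l‖ ^ 2 + σ ^ 2 :=
    Fin.sum_univ_castSucc (fun j => ‖T j‖ ^ 2)
  have hsum0 : ∑ l, w l + z = 0 := by
    have := opt_sum_zero hT hV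
    rwa [Fin.sum_univ_castSucc] at this
  have hVT : VV T = VV w + ∫ x, max (⟪z, x⟫ - Vf w x) 0 ∂(stdGaussian E) := by
    have := VV_succAbove T (Fin.last m)
    simpa [hw, hz, Fin.succAbove_last] using this
  -- the translated vectors
  have hVf : ∀ x, Vf w' x = Vf w x + (1 / (m : ℝ)) * ⟪z, x⟫ := by
    intro x
    unfold Vf
    have : ∀ l, ⟪w' l, x⟫ = ⟪w l, x⟫ + (1 / (m : ℝ)) * ⟪z, x⟫ := by
      intro l
      rw [hw', inner_add_left, inner_smul_left]
      simp
    simp_rw [this]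
    have hne : Nonempty (Fin m) := ⟨0⟩
    rw [ciSup_add _]
    · exact Finite.bddAbove_range _
  have hVw' : VV w' = VV w := by
    unfold VV
    simp_rw [hVf]
    rw [integral_add (integrable_Vf w) ((integrable_inner_gauss z).const_mul _),
      integral_const_mul, integral_inner_gauss]
    simp
  have hnorm : ∑ l, ‖w' l‖ ^ 2 = 1 - σ ^ 2 * (1 + 1 / (m : ℝ)) := by
    have h1 : ∀ l, ‖w' l‖ ^ 2 = ‖w l‖ ^ 2 + 2 * (1 / (m : ℝ)) * ⟪w l, z⟫ +
        (1 / (m : ℝ)) ^ 2 * σ ^ 2 := by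
      intro l
      rw [hw', norm_add_sq_real, inner_smul_right, norm_smul, mul_pow, Real.norm_eq_abs, sq_abs]
      ring
    simp_rw [h1]
    rw [Finset.sum_add_distrib, Finset.sum_add_distrib, ← Finset.mul_sum, ← sum_inner]
    have h2 : ∑ l, w l = -z := by
      rw [eq_neg_iff_add_eq_zero]
      exact hsum0
    rw [h2, inner_neg_left, real_inner_self_eq_norm_sq, Finset.sum_const, Finset.card_univ,
      Fintype.card_fin, nsmul_eq_mul]
    have h3 : ∑ l, ‖w l‖ ^ 2 = 1 - σ ^ 2 := by linarith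
    rw [h3]
    field_simp
    ring
  set X := σ ^ 2 * (1 + 1 / (m : ℝ)) with hX
  have hX0 : 0 ≤ X := by positivity
  have h1σ : 0 < 1 - X := by linarith
  set ρ := √(1 - X) with hρ
  have hρpos : 0 < ρ := Real.sqrt_pos.mpr h1σ
  have hρsq : ρ ^ 2 = 1 - X := Real.sq_sqrt h1σ.le
  refine ⟨fun l => ρ⁻¹ • w' l, ?_, ?_⟩
  · rw [mem_SS]
    have : ∑ l, ‖ρ⁻¹ • w' l‖ ^ 2 = (ρ⁻¹) ^ 2 * ∑ l, ‖w' l‖ ^ 2 := by
      rw [Finset.mul_sum]
      apply Finset.sum_congr rfl
      intro l _
      rw [norm_smul, mul_pow, norm_inv, Real.norm_eq_abs, abs_of_pos hρpos]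
    rw [this, hnorm, ← hρsq]
    apply le_of_eq
    field_simp
  · rw [VV_smul w' (inv_pos.mpr hρpos), hVw']
    have h3 : VV T * (1 - X / 2) ≤ VV w := by
      have e : VV T * (1 - X / 2) = VV T - (VV T / 2) * X := by ring
      rw [e]
      linarith
    have h4 : ρ ≤ 1 - X / 2 := by
      have h5 : ρ ^ 2 ≤ (1 - X / 2) ^ 2 := by
        rw [hρsq]
        nlinarith [sq_nonneg X]
      exact (pow_le_pow_iff_left₀ hρpos.le (by nlinarith) two_ne_zero).1 h5
    rw [inv_mul_eq_div, le_div_iff₀ hρpos]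
    calc VV T * ρ ≤ VV T * (1 - X / 2) := by gcongr
      _ ≤ _ := h3

/-! ### The single deletion with the staircase -/

open SD in
/-- The real inequality at the end of the single deletion. -/
lemma single_real8 {A S σ V X P0 d c Y : ℝ} (hσ : 0 < σ) (hV : 5984 / 10000 ≤ V)
    (hA : A ≤ c * S + σ * P0) (hc : 0 ≤ c) (hS : S ≤ V * σ ^ 2 * X)
    (hP : P0 ≤ (5984 / 10000) * σ * d) (hP0 : 0 ≤ P0) (hd : d = 1 / 2 * (1 + Y) - c * X) :
    A ≤ (V / 2) * (σ ^ 2 * (1 + Y)) := by
  have hd0 : 0 ≤ d := by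
    by_contra hcon
    have h1 : d < 0 := not_le.mp hcon
    have h2 : (5984 / 10000) * σ * d < 0 := mul_neg_of_pos_of_neg (by positivity) h1
    linarith
  have h2 : σ * P0 ≤ σ * ((5984 / 10000) * σ * d) := mul_le_mul_of_nonneg_left hP hσ.le
  have h3 : σ * ((5984 / 10000) * σ * d) ≤ σ * (V * σ * d) := by gcongr
  have h4 : c * S ≤ c * (V * σ ^ 2 * X) := mul_le_mul_of_nonneg_left hS hc
  have h5 : c * (V * σ ^ 2 * X) + σ * (V * σ * d) = (V / 2) * (σ ^ 2 * (1 + Y)) := by
    rw [hd]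
    ring
  linarith

open SD in
/-- The single deletion theorem with the staircase `HH_stair8`. -/
theorem single_delete8 {m : ℕ} [NeZero m] (T : Fin (m + 1) → E) (hT : Opt T)
    (hV : (5984 / 10000 : ℝ) ≤ VV T) (hT0 : ∀ i, T i ≠ 0)
    (hstrict : ∀ i j, i ≠ j → ⟪T i, T j⟫ < 0)
    (hσ1 : ‖T (Fin.last m)‖ ^ 2 * (1 + 1 / (m : ℝ)) < 1)
    (hnum : 2 * ∑ i ∈ Finset.range stQ, ((stF i * stA i : ℚ) : ℝ) * ∏ l : Fin m,
        NN.real (Iio ((stT i : ℝ) * (‖T (Fin.last m)‖ / ‖T l.castSucc‖))) ≤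
      (5984 / 10000) * ‖T (Fin.last m)‖ * ((dk (m + 1) : ℚ) : ℝ)) :
    ∃ T' : Fin m → E, T' ∈ (SS m : Set (Fin m → E)) ∧ VV T ≤ VV T' := by
  have hVpos : 0 < VV T := by linarith
  set σ := ‖T (Fin.last m)‖ with hσdef
  have hσpos : 0 < σ := norm_pos_iff.mpr (hT0 _)
  set u := σ⁻¹ • T (Fin.last m) with hu
  have hTu : σ • u = T (Fin.last m) := by
    rw [hu, smul_smul, mul_inv_cancel₀ hσpos.ne', one_smul]
  set w : Fin m → E := fun l => T l.castSucc with hw
  have hne : ∀ l : Fin m, (l.castSucc : Fin (m + 1)) ≠ Fin.last m := fun l =>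
    (Fin.castSucc_lt_last l).ne
  have hsum : ∑ l, w l + T (Fin.last m) = 0 := by
    have := opt_sum_zero hT hVpos
    rwa [Fin.sum_univ_castSucc] at this
  have hcell : CellData σ u w := by
    refine ⟨hσpos, norm_smul_inv_norm (hT0 _), ?_, ?_, ?_⟩
    · intro l
      rw [hu, inner_smul_right]
      exact mul_nonpos_of_nonneg_of_nonpos (by positivity) (hstrict _ _ (hne l)).le
    · rw [hTu]
      exact hsum
    · intro l r hlr
      exact (hstrict _ _ (fun h => hlr (Fin.castSucc_injective _ h))).le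
  have hstrictw : ∀ l r, l ≠ r → ⟪w l, w r⟫ < 0 := fun l r hlr =>
    hstrict _ _ (fun h => hlr (Fin.castSucc_injective _ h))
  have hDD : DD σ w u = vorCell T (Fin.last m) := by
    ext y
    simp only [DD, vorCell, Set.mem_ofPred_eq, hTu]
    constructor
    · intro h
      refine ⟨fun j => ?_, fun j hj => ?_⟩
      · induction j using Fin.lastCases with
        | last => exact le_rfl
        | cast l => exact (h l).le
      · obtain ⟨l, rfl⟩ := Fin.exists_castSucc_eq.2 hj.ne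
        exact h l
    · intro h l
      exact h.2 _ (Fin.castSucc_lt_last l)
  have hbar : ∀ a : E, ⟪a, u⟫ = 0 → ∫ y in DD σ w u, ⟪a, y⟫ ∂(stdGaussian E) = 0 := by
    intro a ha
    rw [hDD, opt_inner_cell hT hVpos, ← hTu, inner_smul_right, ha]
    ring
  have huu : ⟪u, u⟫ = 1 := inner_u_u hcell
  have hφ : ∫ x, phi (GG σ w u x) ∂(stdGaussian E) = VV T * σ := by
    rw [← integral_DD hcell, hDD, opt_inner_cell hT hVpos, ← hTu, inner_smul_right, huu]
    ring
  have hwne : ∀ l, w l ≠ 0 := fun l => hT0 _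
  -- the flux sum
  have hmpos : (0 : ℝ) < m := by
    have : 0 < m := NeZero.pos m
    exact_mod_cast this
  have hS : ∑ r, cc σ w u r * flux σ w u r ≤ VV T * σ ^ 2 * (1 + 2 / ((m : ℝ) + 1)) := by
    have h1 : ∀ r, cc σ w u r * flux σ w u r = VV T / (m + 1) * cc σ w u r ^ 2 := by
      intro r
      have h2 := flux_eq hcell hbar hstrictw r
      rw [hφ] at h2
      have hne' : ((m : ℝ) + 1) * σ ≠ 0 := by positivity
      have h3 : flux σ w u r = VV T * σ * cc σ w u r / ((m + 1) * σ) := by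
        rw [eq_div_iff hne']
        exact h2
      rw [h3]
      field_simp
    simp_rw [h1]
    rw [← Finset.mul_sum]
    have h2 := sum_cc_sq hcell
    have h3 : VV T / (m + 1) * ∑ r, cc σ w u r ^ 2 ≤ VV T / (m + 1) * ((m + 3) * σ ^ 2) := by
      gcongr
    refine h3.trans (le_of_eq ?_)
    field_simp
    ring
  have hF : ∀ t : ℝ, 0 ≤ t → (stdGaussian E).real {x | GG σ w u x < t} ≤
      (27914 / 10000) * ∏ l, NN.real (Iio (t * (σ / ‖w l‖))) := by
    intro t ht
    have h1 := F_le_prod hcell hwne ht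
    have h2 := prod_beta hcell hwne ht
    linarith
  have hgain := gain_le_stairGen hcell (c := (stC : ℝ)) stQ (fun i => (stA i : ℝ))
    (fun i => (stT i : ℝ)) (fun i => by exact_mod_cast stA_nonneg i) (fun G hG => HH_stair8 hG)
  rw [hTu] at hgain
  set P0 : ℝ := 2 * ∑ i ∈ Finset.range stQ, ((stF i * stA i : ℚ) : ℝ) * ∏ l : Fin m,
        NN.real (Iio ((stT i : ℝ) * (σ / ‖w l‖))) with hP0
  have hP00 : 0 ≤ P0 := by
    rw [hP0]
    refine mul_nonneg (by norm_num) (Finset.sum_nonneg fun i _ => mul_nonneg ?_ ?_)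
    · exact_mod_cast stFA_nonneg i
    · exact Finset.prod_nonneg fun _ _ => measureReal_nonneg
  have hgain2 : 2 * σ * ∑ i ∈ Finset.range stQ, (stA i : ℝ) *
      (stdGaussian E).real {x | GG σ w u x < (stT i : ℝ)} ≤ σ * P0 := by
    rw [hP0]
    have h1 : ∑ i ∈ Finset.range stQ, (stA i : ℝ) *
        (stdGaussian E).real {x | GG σ w u x < (stT i : ℝ)} ≤
        ∑ i ∈ Finset.range stQ, ((stF i * stA i : ℚ) : ℝ) * ∏ l : Fin m,
          NN.real (Iio ((stT i : ℝ) * (σ / ‖w l‖))) := by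
      refine Finset.sum_le_sum fun i hi => ?_
      rw [Finset.mem_range] at hi
      have h2 := hF (stT i : ℝ) (by exact_mod_cast stT_nonneg i hi)
      have h3 : (0 : ℝ) ≤ (stA i : ℝ) := by exact_mod_cast stA_nonneg i
      have h4 := mul_le_mul_of_nonneg_left h2 h3
      refine h4.trans (le_of_eq ?_)
      simp only [stF]
      push_cast
      ring
    have h5 := mul_le_mul_of_nonneg_left h1 (by positivity : 0 ≤ 2 * σ)
    refine h5.trans (le_of_eq ?_)
    ring
  have hd : ((dk (m + 1) : ℚ) : ℝ) = 1 / 2 * (1 + 1 / (m : ℝ)) -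
      (stC : ℝ) * (1 + 2 / ((m : ℝ) + 1)) := by
    unfold dk
    push_cast
    congr 3
    ring
  have hfin := single_real8 (A := ∫ y, max (⟪T (Fin.last m), y⟫ - Vf w y) 0 ∂(stdGaussian E))
    (S := ∑ r, cc σ w u r * flux σ w u r) (σ := σ) (V := VV T) (X := 1 + 2 / ((m : ℝ) + 1))
    (P0 := P0) (d := ((dk (m + 1) : ℚ) : ℝ)) (c := (stC : ℝ)) (Y := 1 / (m : ℝ))
    hσpos hV (by linarith) (by norm_num [stC]) hS hnum hP00 hd
  exact delete_of_gain' T hT hVpos hσ1 hfin

end

end Vale.Agent.Lib.P226
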