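import Mathlib
import Vale.Agent.Lib.P226.G23Class

/-!
The class check for `15 ≤ k ≤ 32`.
-/

namespace Vale.Agent.Lib.P226

namespace SD2

lemma dfs_21 : ((List.range' 21 12).all fun k => dfs k [0, 1, 2, 3, 4] []) = true := by
  decide +kernel

lemma dfs_20 : dfs 20 [0, 1, 2, 3, 4] [] = true := by decide +kernel

lemma dfs_19 : dfs 19 [0, 1, 2, 3, 4] [] = true := by decide +kernel

lemma dfs_18 : dfs 18 [0, 1, 2, 3, 4] [] = true := by decide +kernel

lemma dfs_17 : dfs 17 [0, 1, 2, 3, 4] [] = true := by decide +kernel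

lemma dfs_16 : dfs 16 [0, 1, 2, 3, 4] [] = true := by decide +kernel

lemma dfs_15 : dfs 15 [0, 1, 2, 3, 4] [] = true := by decide +kernel

lemma dk_pos : ((List.range' 15 18).all fun k => decide (0 < dk k)) = true := by decide +kernel

theorem dfs_all {k : ℕ} (h1 : 15 ≤ k) (h2 : k ≤ 32) : dfs k [0, 1, 2, 3, 4] [] = true := by
  by_cases h : 21 ≤ k
  · have hm : k ∈ List.range' 21 12 := by
      rw [List.mem_range'_1]
      omega
    exact (List.all_eq_true.mp dfs_21) k hm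
  · have h3 : k = 15 ∨ k = 16 ∨ k = 17 ∨ k = 18 ∨ k = 19 ∨ k = 20 := by omega
    rcases h3 with rfl | rfl | rfl | rfl | rfl | rfl
    · exact dfs_15
    · exact dfs_16
    · exact dfs_17
    · exact dfs_18
    · exact dfs_19
    · exact dfs_20

theorem dk_pos' {k : ℕ} (h1 : 15 ≤ k) (h2 : k ≤ 32) : 0 < dk k := by
  have hm : k ∈ List.range' 15 18 := by
    rw [List.mem_range'_1]
    omega
  have := (List.all_eq_true.mp dk_pos) k hm
  simpa using this

theorem class_final {k : ℕ} {ρ : ℕ → ℝ} (h1 : 15 ≤ k) (h2 : k ≤ 32) (h : Prof k ρ)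
    (hno : ∀ j, 3 ≤ j → j < k → ¬ PcCrit k ρ j) : Final k ρ :=
  dfs_sound h (dk_pos' h1 h2) hno _ [] (Nat.zero_le _) (dfs_all h1 h2)

end SD2

end Vale.Agent.Lib.P226
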