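import Mathlib
import Vale.Agent.Lib.P226.G22Stair
import Vale.Agent.Lib.P226.G19Prod
import Vale.Agent.Lib.P226.G23Class

/-!
Single deletion, the product bound on the obtuse family `vv` with a sharper constant.
The bound is `F(t) ≤ exp C * ∏ Φ(t σ / ‖w l‖)`, with `C` depending on `t`.
-/

open MeasureTheory ProbabilityTheory Real Set Filter Topology
open scoped ENNReal NNReal RealInnerProductSpace

namespace Vale.Agent.Lib.P226

set_option linter.unusedSectionVars false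

noncomputable section

variable {E : Type*} [NormedAddCommGroup E] [InnerProductSpace ℝ E] [FiniteDimensional ℝ E]
  [MeasurableSpace E] [BorelSpace E]

/-- The distribution function on the half line, in a form differentiable everywhere. -/
def PsiF (x : ℝ) : ℝ := 1 / 2 + ∫ t in (0 : ℝ)..x, phi t

lemma hasDerivAt_PsiF (x : ℝ) : HasDerivAt PsiF (phi x) x := by
  have hc : Continuous phi := continuous_phi'
  have h := intervalIntegral.integral_hasDerivAt_right (hc.intervalIntegrable (0 : ℝ) x)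
    (hc.stronglyMeasurableAtFilter _ _) hc.continuousAt
  exact h.const_add (1 / 2 : ℝ)

lemma PsiF_eq {a : ℝ} (ha : 0 ≤ a) : NN.real (Iio a) = PsiF a := NN_Iio_eq ha

lemma three_mul_phi_le {y : ℝ} (hy : 0 ≤ y) : 3 * (y * phi y) ≤ PsiF y := by
  have hc : Continuous phi := continuous_phi'
  have h4 : y * phi y ≤ ∫ x in (0 : ℝ)..y, phi x := by
    have h5 : ∫ _x in (0 : ℝ)..y, phi y ≤ ∫ x in (0 : ℝ)..y, phi x := by
      apply intervalIntegral.integral_mono_on hy (continuous_const.intervalIntegrable _ _)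
        (hc.intervalIntegrable _ _)
      intro x hx
      exact phi_anti hx.1 hx.2
    refine le_trans (le_of_eq ?_) h5
    rw [intervalIntegral.integral_const, smul_eq_mul]
    ring
  have h6 := mul_phi_le y hy
  unfold PsiF
  linarith

lemma PsiF_pos {y : ℝ} (hy : 0 ≤ y) : 0 < PsiF y := by
  rw [← PsiF_eq hy]
  have h1 : (1 / 2 : ℝ) ≤ NN.real (Iio y) := by
    rw [NN_Iio_eq hy]
    have : 0 ≤ ∫ x in (0 : ℝ)..y, phi x :=
      intervalIntegral.integral_nonneg hy (fun x _ => (phi_pos x).le)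
    linarith
  linarith

/-- `Φ³ / z` is antitone on the positive half line. -/
lemma Phi_cube_le {y z : ℝ} (hy : 0 < y) (hyz : y ≤ z) :
    NN.real (Iio z) ^ 3 * y ≤ NN.real (Iio y) ^ 3 * z := by
  have hz : 0 < z := hy.trans_le hyz
  rw [PsiF_eq hz.le, PsiF_eq hy.le]
  set g : ℝ → ℝ := fun x => PsiF x ^ 3 / x with hg
  have hder : ∀ x ∈ Ioi (0 : ℝ), HasDerivAt g
      ((3 * PsiF x ^ 2 * phi x * x - PsiF x ^ 3 * 1) / x ^ 2) x := by
    intro x hx
    have hx0 : x ≠ 0 := ne_of_gt hx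
    have h1 : HasDerivAt (fun x => PsiF x ^ 3) (3 * PsiF x ^ 2 * phi x) x := by
      have := (hasDerivAt_PsiF x).fun_pow 3
      simpa using this
    exact h1.div (hasDerivAt_id' x) hx0
  have hanti : AntitoneOn g (Ioi 0) := by
    apply antitoneOn_of_deriv_nonpos (convex_Ioi 0)
    · exact fun x hx => (hder x hx).continuousAt.continuousWithinAt
    · intro x hx
      rw [interior_Ioi] at hx
      exact (hder x hx).differentiableAt.differentiableWithinAt
    · intro x hx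
      rw [interior_Ioi] at hx
      rw [(hder x hx).deriv]
      have hx0 : (0 : ℝ) < x := hx
      apply div_nonpos_of_nonpos_of_nonneg _ (sq_nonneg _)
      have h1 := three_mul_phi_le hx0.le
      have h2 := PsiF_pos hx0.le
      have h3 : 0 ≤ PsiF x ^ 2 := sq_nonneg _
      nlinarith [mul_le_mul_of_nonneg_left h1 h3]
  have h := hanti (mem_Ioi.mpr hy) (mem_Ioi.mpr hz) hyz
  simp only [hg] at h
  rw [div_le_div_iff₀ hz hy] at h
  exact h

/-- One-dimensional inequality, with hypotheses that are checked numerically. -/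
theorem Phi_betaC {t r β C s0 : ℝ} (ht : 0 < t) (hr : 1 ≤ r) (hβ0 : 0 ≤ β) (hβ1 : β ≤ 1)
    (hβr : β < r) (hC : 0 ≤ C) (hs0 : 0 ≤ s0)
    (hn1 : 1 ≤ NN.real (Iio (t * s0)) * rexp (C * s0))
    (hn2 : ∀ b : ℝ, 0 ≤ b → b ≤ s0 → 1 + b ≤ rexp (6 * C * b) * (1 - b))
    (hn3 : ∀ b : ℝ, s0 ≤ b → b ≤ 1 → (1 + b) ^ 2 ≤ rexp (6 * C * b) * (1 - s0 ^ 2)) :
    NN.real (Iio (t * (1 + β) / √(r ^ 2 - β ^ 2))) ≤ NN.real (Iio (t / r)) * rexp (C * β) := by
  have hr0 : 0 < r := by linarith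
  have hd : 0 < r ^ 2 - β ^ 2 := by nlinarith
  set q := √(r ^ 2 - β ^ 2) with hq
  have hq0 : 0 < q := Real.sqrt_pos.mpr hd
  have hq2 : q ^ 2 = r ^ 2 - β ^ 2 := Real.sq_sqrt hd.le
  have hqr : q ≤ r := by
    have : q ^ 2 ≤ r ^ 2 := by nlinarith [sq_nonneg β]
    exact (pow_le_pow_iff_left₀ hq0.le hr0.le two_ne_zero).1 this
  set y := t / r with hy
  set z := t * (1 + β) / q with hz
  have hy0 : 0 < y := by positivity
  have hP0 : (0 : ℝ) ≤ NN.real (Iio y) := measureReal_nonneg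
  by_cases hcase : β ≤ s0 * r
  · -- the main case
    have hz0 : 0 < z := by positivity
    have hyz : y ≤ z := by
      rw [hy, hz, div_le_div_iff₀ hr0 hq0]
      have h1 : t * q ≤ t * r := mul_le_mul_of_nonneg_left hqr ht.le
      nlinarith [mul_nonneg (mul_nonneg ht.le hβ0) hr0.le]
    have hcube := Phi_cube_le hy0 hyz
    -- the ratio
    have hkey : (1 + β) ^ 2 * r ^ 2 ≤ rexp (6 * C * β) * (r ^ 2 - β ^ 2) := by
      have hexp : 0 < rexp (6 * C * β) := exp_pos _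
      rcases le_or_gt β s0 with hbs | hbs
      · have h1 := hn2 β hβ0 hbs
        have h2 : (1 + β) * (1 + β) ≤ rexp (6 * C * β) * (1 - β) * (1 + β) :=
          mul_le_mul_of_nonneg_right h1 (by linarith)
        have hr2 : 1 ≤ r ^ 2 := by nlinarith
        have h3 : β ^ 2 ≤ β ^ 2 * r ^ 2 := by
          nlinarith [mul_nonneg (sq_nonneg β) (sub_nonneg.mpr hr2)]
        have h4 : r ^ 2 * (1 - β ^ 2) ≤ r ^ 2 - β ^ 2 := by nlinarith
        have h5 : (1 + β) ^ 2 ≤ rexp (6 * C * β) * (1 - β ^ 2) := by nlinarith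
        calc (1 + β) ^ 2 * r ^ 2 ≤ (rexp (6 * C * β) * (1 - β ^ 2)) * r ^ 2 :=
              mul_le_mul_of_nonneg_right h5 (sq_nonneg _)
          _ = rexp (6 * C * β) * (r ^ 2 * (1 - β ^ 2)) := by ring
          _ ≤ _ := mul_le_mul_of_nonneg_left h4 hexp.le
      · have h1 := hn3 β hbs.le hβ1
        have h4 : r ^ 2 * (1 - s0 ^ 2) ≤ r ^ 2 - β ^ 2 := by
          have : β ^ 2 ≤ (s0 * r) ^ 2 := pow_le_pow_left₀ hβ0 hcase 2
          nlinarith
        calc (1 + β) ^ 2 * r ^ 2 ≤ (rexp (6 * C * β) * (1 - s0 ^ 2)) * r ^ 2 :=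
              mul_le_mul_of_nonneg_right h1 (sq_nonneg _)
          _ = rexp (6 * C * β) * (r ^ 2 * (1 - s0 ^ 2)) := by ring
          _ ≤ _ := mul_le_mul_of_nonneg_left h4 hexp.le
    -- `z ≤ y * exp (3 C β)`
    have hzy : z ≤ y * rexp (3 * C * β) := by
      have h1 : z ^ 2 ≤ (y * rexp (3 * C * β)) ^ 2 := by
        have e1 : z ^ 2 = t ^ 2 * (1 + β) ^ 2 / (r ^ 2 - β ^ 2) := by
          rw [hz, div_pow, hq2]
          ring
        have e2 : (y * rexp (3 * C * β)) ^ 2 = t ^ 2 * rexp (6 * C * β) / r ^ 2 := by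
          have e3 : rexp (3 * C * β) ^ 2 = rexp (6 * C * β) := by
            rw [← Real.exp_nat_mul]
            congr 1
            push_cast
            ring
          rw [hy, mul_pow, div_pow, e3]
          ring
        rw [e1, e2, div_le_div_iff₀ hd (by positivity)]
        have := mul_le_mul_of_nonneg_left hkey (sq_nonneg t)
        nlinarith
      exact (pow_le_pow_iff_left₀ hz0.le (by positivity) two_ne_zero).1 h1
    -- take the cube root
    have h3 : NN.real (Iio z) ^ 3 ≤ (NN.real (Iio y) * rexp (C * β)) ^ 3 := by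
      have e : (NN.real (Iio y) * rexp (C * β)) ^ 3 = NN.real (Iio y) ^ 3 * rexp (3 * C * β) := by
        have e3 : rexp (C * β) ^ 3 = rexp (3 * C * β) := by
          rw [← Real.exp_nat_mul]
          congr 1
          push_cast
          ring
        rw [mul_pow, e3]
      rw [e]
      have h4 : NN.real (Iio z) ^ 3 * y ≤ (NN.real (Iio y) ^ 3 * rexp (3 * C * β)) * y := by
        calc NN.real (Iio z) ^ 3 * y ≤ NN.real (Iio y) ^ 3 * z := hcube
          _ ≤ NN.real (Iio y) ^ 3 * (y * rexp (3 * C * β)) :=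
            mul_le_mul_of_nonneg_left hzy (pow_nonneg hP0 3)
          _ = _ := by ring
      exact le_of_mul_le_mul_right h4 hy0
    have h5 : 0 ≤ NN.real (Iio y) * rexp (C * β) := by positivity
    exact le_of_pow_le_pow_left₀ (by norm_num) h5 h3
  · -- the top case: `Φ ≤ 1`
    push Not at hcase
    have hbs : s0 ≤ β := by nlinarith
    have hy1 : t * s0 ≤ y := by
      rw [hy, le_div_iff₀ hr0]
      have : s0 * r ≤ 1 := by linarith
      calc t * s0 * r = t * (s0 * r) := by ring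
        _ ≤ t * 1 := mul_le_mul_of_nonneg_left this ht.le
        _ = t := by ring
    have h1 : NN.real (Iio (t * s0)) ≤ NN.real (Iio y) := SD.Phi_mono hy1
    have h2 : rexp (C * s0) ≤ rexp (C * β) := exp_le_exp.mpr (mul_le_mul_of_nonneg_left hbs hC)
    have h3 : NN.real (Iio (t * s0)) * rexp (C * s0) ≤ NN.real (Iio y) * rexp (C * β) :=
      mul_le_mul h1 h2 (exp_pos _).le hP0
    have h4 : NN.real (Iio z) ≤ 1 := measureReal_le_one
    linarith

variable {m : ℕ} [NeZero m] {σ : ℝ} {u : E} {w : Fin m → E}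

/-- The product bound, as `F_le_prod_v`, for a general constant. -/
theorem F_le_prod_vC (h : CellData σ u w) (hm : 2 ≤ m) (hs : ∀ l r, l ≠ r → ⟪w l, w r⟫ < 0)
    (hσw : ∀ l, σ ≤ ‖w l‖) {t C F : ℝ}
    (hB : ∀ r β : ℝ, 1 ≤ r → 0 ≤ β → β ≤ 1 → β < r →
      NN.real (Iio (t * (1 + β) / √(r ^ 2 - β ^ 2))) ≤ NN.real (Iio (t / r)) * rexp (C * β))
    (hCF : rexp C ≤ F) :
    (stdGaussian E).real {x | GG σ w u x < t} ≤
      F * ∏ l, NN.real (Iio (t * (σ / ‖w l‖))) := by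
  classical
  have hσ := h.hσ
  have hvne : ∀ l, vv w u l ≠ 0 := by
    intro l hl
    obtain ⟨r, hr⟩ : ∃ r : Fin m, l ≠ r := by
      have : Nontrivial (Fin m) := Fin.nontrivial_iff_two_le.mpr hm
      obtain ⟨r, hr⟩ := exists_ne l
      exact ⟨r, hr.symm⟩
    have h1 := inner_vv_vv h l r
    rw [hl, inner_zero_left] at h1
    have h2 := hs l r hr
    have h3 := mul_nonneg (bb_nonneg h l) (bb_nonneg h r)
    linarith
  have hvpos : ∀ l, 0 < ‖vv w u l‖ := fun l => norm_pos_iff.mpr (hvne l)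
  have hset : {x | GG σ w u x < t} =
      ⋂ l ∈ (Finset.univ : Finset (Fin m)), {x | ⟪vv w u l, x⟫ < cc σ w u l * t} := by
    ext x
    simp only [Set.mem_ofPred_eq, mem_iInter, Finset.mem_univ, true_imp_iff]
    exact GG_lt_iff h x t
  have hone : ∀ l, stdGaussian E {x | ⟪vv w u l, x⟫ < cc σ w u l * t} =
      NN (Iio (t * cc σ w u l / ‖vv w u l‖)) := by
    intro l
    have h1 := measure_inner (E := E) (vv w u l) (S := Iio (cc σ w u l * t)) measurableSet_Iio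
    simp only [mem_Iio] at h1
    rw [h1]
    congr 1
    ext s
    simp only [Set.mem_ofPred_eq, mem_Iio]
    rw [lt_div_iff₀ (hvpos l), mul_comm s, mul_comm t]
  have hup : stdGaussian E {x | GG σ w u x < t} ≤ ∏ l, NN (Iio (t * cc σ w u l / ‖vv w u l‖)) := by
    rw [hset]
    refine (prod_bound Finset.univ (vv w u) (fun l => cc σ w u l * t)
      (fun i _ j _ hij => vv_obt h hij)).trans (le_of_eq ?_)
    exact Finset.prod_congr rfl (fun l _ => hone l)
  have hfin : ∏ l, NN (Iio (t * cc σ w u l / ‖vv w u l‖)) ≠ ⊤ :=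
    ENNReal.prod_ne_top (fun l _ => measure_ne_top _ _)
  have hupR : (stdGaussian E).real {x | GG σ w u x < t} ≤
      ∏ l, NN.real (Iio (t * cc σ w u l / ‖vv w u l‖)) := by
    have h3 := ENNReal.toReal_mono hfin hup
    rw [ENNReal.toReal_prod] at h3
    exact h3
  have hfac : ∀ l, NN.real (Iio (t * cc σ w u l / ‖vv w u l‖)) ≤
      NN.real (Iio (t * (σ / ‖w l‖))) * rexp (C * (bb w u l / σ)) := by
    intro l
    have hwpos : 0 < ‖w l‖ := hσ.trans_le (hσw l)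
    have hb0 := bb_nonneg h l
    have hbn := norm_vv_sq h l
    have hbr : bb w u l < ‖w l‖ := by
      have h1 : 0 < ‖vv w u l‖ ^ 2 := by have := hvpos l; positivity
      rw [hbn] at h1
      nlinarith
    have hr : (1 : ℝ) ≤ ‖w l‖ / σ := by
      rw [le_div_iff₀ hσ]
      linarith [hσw l]
    have hβ0 : 0 ≤ bb w u l / σ := div_nonneg hb0 hσ.le
    have hβ1 : bb w u l / σ ≤ 1 := by
      rw [div_le_one hσ]
      exact bb_le h l
    have hβr : bb w u l / σ < ‖w l‖ / σ := by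
      exact div_lt_div_of_pos_right hbr hσ
    have hB' := hB _ _ hr hβ0 hβ1 hβr
    have e1 : √((‖w l‖ / σ) ^ 2 - (bb w u l / σ) ^ 2) = ‖vv w u l‖ / σ := by
      have e2 : (‖w l‖ / σ) ^ 2 - (bb w u l / σ) ^ 2 = (‖vv w u l‖ / σ) ^ 2 := by
        rw [div_pow, div_pow, div_pow, hbn]
        ring
      rw [e2]
      exact Real.sqrt_sq (by have := hvpos l; positivity)
    rw [e1] at hB'
    have e3 : t * (1 + bb w u l / σ) / (‖vv w u l‖ / σ) = t * cc σ w u l / ‖vv w u l‖ := by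
      unfold cc
      have := hvpos l
      field_simp
    have e4 : t / (‖w l‖ / σ) = t * (σ / ‖w l‖) := by
      field_simp
    rw [e3, e4] at hB'
    exact hB'
  have h2 : ∏ l, NN.real (Iio (t * cc σ w u l / ‖vv w u l‖)) ≤
      ∏ l, (NN.real (Iio (t * (σ / ‖w l‖))) * rexp (C * (bb w u l / σ))) :=
    Finset.prod_le_prod (fun l _ => measureReal_nonneg) (fun l _ => hfac l)
  rw [Finset.prod_mul_distrib, ← Real.exp_sum] at h2
  have e2 : ∑ l, C * (bb w u l / σ) = C := by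
    rw [← Finset.mul_sum, ← Finset.sum_div, sum_bb h, div_self hσ.ne', mul_one]
  rw [e2] at h2
  have h3 : 0 ≤ ∏ l, NN.real (Iio (t * (σ / ‖w l‖))) :=
    Finset.prod_nonneg (fun l _ => measureReal_nonneg)
  calc _ ≤ _ := hupR
    _ ≤ _ := h2
    _ ≤ (∏ l, NN.real (Iio (t * (σ / ‖w l‖)))) * F := mul_le_mul_of_nonneg_left hCF h3
    _ = _ := mul_comm _ _

/-! ### The numerical hypotheses -/

lemma Phi_ge_q {a : ℚ} (ha : 0 ≤ a) (ha1 : a ^ 2 / 2 ≤ 1) (n m : ℕ) (hm : 0 < m) :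
    ((1 / 2 + phiL a m * serQ a n : ℚ) : ℝ) ≤ NN.real (Iio (a : ℝ)) := by
  have ha' : (0 : ℝ) ≤ a := by exact_mod_cast ha
  rw [NN_Iio_eq ha', int_phi_series (a : ℝ) n]
  have hs : 0 ≤ serR (a : ℝ) n := by
    induction n with
    | zero => simpa [serR] using ha'
    | succ n ih => simp only [serR]; positivity
  have h1 := phiL_le ha1 m hm
  have h2 : 0 ≤ (∫ x in (0 : ℝ)..(a : ℝ), x ^ (2 * n + 2) * phi x) / dfN n := by
    apply div_nonneg _ (by positivity)
    apply intervalIntegral.integral_nonneg ha'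
    intro x hx
    have := phi_pos x
    have h0 : 0 ≤ x := hx.1
    positivity
  have h3 := mul_le_mul_of_nonneg_right h1 hs
  push_cast
  rw [serQ_cast]
  linarith

lemma exp_ge_q {x : ℚ} (hx : 0 ≤ x) (n : ℕ) : ((expQ x n : ℚ) : ℝ) ≤ rexp (x : ℝ) := by
  have hx' : (0 : ℝ) ≤ x := by exact_mod_cast hx
  have := Real.sum_le_exp_of_nonneg hx' n
  unfold expQ
  push_cast
  exact this

/-- The upper bound for the exponential. -/
def expUQ (x : ℚ) (n : ℕ) : ℚ :=
  expQ x n + x ^ n * ((n + 1 : ℕ) / ((n.factorial : ℚ) * n))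

lemma exp_le_q {x : ℚ} (hx : 0 ≤ x) (hx1 : x ≤ 1) (n : ℕ) (hn : 0 < n) :
    rexp (x : ℝ) ≤ ((expUQ x n : ℚ) : ℝ) := by
  have hx' : (0 : ℝ) ≤ x := by exact_mod_cast hx
  have hx1' : (x : ℝ) ≤ 1 := by exact_mod_cast hx1
  have := Real.exp_bound' hx' hx1' hn
  refine this.trans (le_of_eq ?_)
  unfold expUQ expQ
  push_cast
  ring

/-- The range `[0, 1/2]`. -/
lemma range_low {C b : ℝ} (hC : 2 / 5 ≤ C) (hb0 : 0 ≤ b) (hb1 : b ≤ 1 / 2) :
    1 + b ≤ rexp (6 * C * b) * (1 - b) := by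
  have h1 : rexp (12 / 5 * b) ≤ rexp (6 * C * b) := by
    apply exp_le_exp.mpr
    nlinarith
  have h2 : 1 + 12 / 5 * b + (12 / 5 * b) ^ 2 / 2 + (12 / 5 * b) ^ 3 / 6 ≤ rexp (12 / 5 * b) := by
    have h := Real.sum_le_exp_of_nonneg (x := 12 / 5 * b) (by positivity) 4
    simp only [Finset.sum_range_succ, Finset.sum_range_zero, Nat.factorial] at h
    norm_num at h
    norm_num
    linarith
  have h3 : 1 + b ≤ (1 + 12 / 5 * b + (12 / 5 * b) ^ 2 / 2 + (12 / 5 * b) ^ 3 / 6) * (1 - b) := by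
    have hb2 : b ^ 2 ≤ 1 / 2 * b := by nlinarith
    have hb3 : b ^ 3 ≤ 1 / 4 * b := by nlinarith [mul_nonneg hb0 hb0]
    have hb4 : b ^ 4 ≤ 1 / 8 * b := by nlinarith [mul_nonneg hb0 hb0, pow_nonneg hb0 3]
    nlinarith
  have h4 : (0 : ℝ) ≤ 1 - b := by linarith
  calc 1 + b ≤ _ := h3
    _ ≤ rexp (6 * C * b) * (1 - b) := mul_le_mul_of_nonneg_right (h2.trans h1) h4

/-- The check on a grid. -/
def gridOK (C δ : ℚ) (n : ℕ) : Bool :=
  (List.range n).all fun i =>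
    decide (1 + (1 / 2 + ((i : ℚ) + 1) * δ) ≤
      expQ (6 * C * (1 / 2 + (i : ℚ) * δ)) 14 * (1 - (1 / 2 + ((i : ℚ) + 1) * δ))) &&
    decide (1 / 2 + ((i : ℚ) + 1) * δ ≤ 1)

lemma range_grid {C δ : ℚ} (hC : 2 / 5 ≤ C) (hδ : 0 ≤ δ) (n : ℕ) (hg : gridOK C δ n = true)
    {b : ℝ} (hb0 : 0 ≤ b) (hb1 : b ≤ 1 / 2 + n * (δ : ℝ)) :
    1 + b ≤ rexp (6 * (C : ℝ) * b) * (1 - b) := by
  have hC' : (2 / 5 : ℝ) ≤ (C : ℝ) := by
    have h3 : ((2 / 5 : ℚ) : ℝ) ≤ (C : ℝ) := Rat.cast_le.mpr hC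
    have e : ((2 / 5 : ℚ) : ℝ) = 2 / 5 := by norm_num
    rwa [e] at h3
  have hδ' : (0 : ℝ) ≤ (δ : ℝ) := by exact_mod_cast hδ
  induction n with
  | zero =>
    apply range_low hC' hb0
    simpa using hb1
  | succ n ih =>
    simp only [gridOK, List.all_eq_true, List.mem_range, Bool.and_eq_true, decide_eq_true_eq] at hg
    by_cases hbn : b ≤ 1 / 2 + n * (δ : ℝ)
    · refine ih ?_ hbn
      simp only [gridOK, List.all_eq_true, List.mem_range, Bool.and_eq_true, decide_eq_true_eq]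
      exact fun i hi => hg i (by omega)
    · push Not at hbn
      obtain ⟨h1, h2⟩ := hg n (Nat.lt_succ_self n)
      set x : ℚ := 1 / 2 + (n : ℚ) * δ with hx
      set y : ℚ := 1 / 2 + ((n : ℚ) + 1) * δ with hy
      have hxR : (x : ℝ) = 1 / 2 + n * (δ : ℝ) := by
        rw [hx]
        push_cast
        ring
      have hyR : (y : ℝ) = 1 / 2 + ((n : ℝ) + 1) * (δ : ℝ) := by
        rw [hy]
        push_cast
        ring
      have hby : b ≤ (y : ℝ) := by
        rw [hyR]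
        push_cast at hb1
        exact hb1
      have hx0 : 0 ≤ x := by
        rw [hx]
        positivity
      have h1R : (1 : ℝ) + (y : ℝ) ≤ ((expQ (6 * C * x) 14 : ℚ) : ℝ) * (1 - (y : ℝ)) := by
        have : ((1 + y : ℚ) : ℝ) ≤ ((expQ (6 * C * x) 14 * (1 - y) : ℚ) : ℝ) := by exact_mod_cast h1
        push_cast at this
        exact this
      have hy1 : (y : ℝ) ≤ 1 := by exact_mod_cast h2
      have h3 := exp_ge_q (x := 6 * C * x) (by positivity) 14
      have hxb : (x : ℝ) ≤ b := by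
        rw [hxR]
        exact hbn.le
      have h4 : rexp (((6 * C * x : ℚ) : ℝ)) ≤ rexp (6 * (C : ℝ) * b) := by
        apply exp_le_exp.mpr
        push_cast
        have : 0 ≤ 6 * (C : ℝ) := by linarith
        exact mul_le_mul_of_nonneg_left hxb this
      calc 1 + b ≤ 1 + (y : ℝ) := by linarith
        _ ≤ ((expQ (6 * C * x) 14 : ℚ) : ℝ) * (1 - (y : ℝ)) := h1R
        _ ≤ rexp (6 * (C : ℝ) * b) * (1 - (y : ℝ)) :=
            mul_le_mul_of_nonneg_right (h3.trans h4) (by linarith)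
        _ ≤ rexp (6 * (C : ℝ) * b) * (1 - b) :=
            mul_le_mul_of_nonneg_left (by linarith) (exp_pos _).le

/-- The range above `s0`, from the inequality at `s0`. -/
lemma range_top {C s0 b : ℝ} (hC : 2 / 5 ≤ C) (hs1 : 1 / 2 ≤ s0) (hs2 : s0 ≤ 1)
    (h : 1 + s0 ≤ rexp (6 * C * s0) * (1 - s0)) (hb0 : s0 ≤ b) (hb1 : b ≤ 1) :
    (1 + b) ^ 2 ≤ rexp (6 * C * b) * (1 - s0 ^ 2) := by
  set δ := b - s0 with hδ
  have hδ0 : 0 ≤ δ := by rw [hδ]; linarith
  have hδ1 : δ ≤ 1 := by rw [hδ]; linarith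
  have hK : (1 + s0) ^ 2 ≤ rexp (6 * C * s0) * (1 - s0 ^ 2) := by
    have := mul_le_mul_of_nonneg_right h (by linarith : 0 ≤ 1 + s0)
    nlinarith
  have hexp : rexp (6 * C * b) = rexp (6 * C * s0) * rexp (6 * C * δ) := by
    rw [← Real.exp_add]
    congr 1
    rw [hδ]
    ring
  have h1 : 1 + 6 * C * δ ≤ rexp (6 * C * δ) := by
    have := Real.add_one_le_exp (6 * C * δ)
    linarith
  have h0 : 0 ≤ 1 - s0 ^ 2 := by nlinarith
  rw [hexp]
  have h2 : (1 + s0) ^ 2 * (1 + 6 * C * δ) ≤ (rexp (6 * C * s0) * (1 - s0 ^ 2)) * rexp (6 * C * δ) := by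
    apply mul_le_mul hK h1 _ _
    · have : 0 ≤ C * δ := mul_nonneg (by linarith) hδ0
      linarith
    · exact mul_nonneg (exp_pos _).le h0
  have h3 : (1 + b) ^ 2 ≤ (1 + s0) ^ 2 * (1 + 6 * C * δ) := by
    have hb : b = s0 + δ := by rw [hδ]; ring
    rw [hb]
    have h4 : (12 / 5 : ℝ) ≤ 6 * C := by linarith
    have h5 : 12 / 5 * (1 + s0) ≥ 18 / 5 := by linarith
    have h6 : (1 + s0) * δ * (12 / 5 * (1 + s0) - 2) ≥ δ ^ 2 := by
      nlinarith [mul_nonneg hδ0 (by linarith : 0 ≤ 1 - δ), mul_nonneg hδ0 hδ0]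
    nlinarith [mul_nonneg (mul_nonneg hδ0 (sq_nonneg (1 + s0))) (by linarith : 0 ≤ 6 * C - 12 / 5)]
  calc (1 + b) ^ 2 ≤ _ := h3
    _ ≤ _ := h2
    _ = _ := by ring

namespace SD2

/-- The number of grid steps of each level. -/
def stNL : List ℕ := [38, 44, 50, 56, 62, 69, 75, 81, 86, 90]

/-- The numerical check of one level. -/
def levelOK (i : ℕ) : Bool :=
  let t := stT i
  let C := stCC i
  let s := stS i
  decide (2 / 5 ≤ C) && decide (C ≤ 1) && decide (1 / 2 ≤ s) && decide (s ≤ 1) && decide (0 < t) &&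
    decide ((t * s) ^ 2 / 2 ≤ 1) &&
    decide (1 ≤ (1 / 2 + phiL (t * s) 10 * serQ (t * s) 7) * expQ (C * s) 14) &&
    gridOK C (1 / 200) (stNL.getD i 0) &&
    decide (s ≤ 1 / 2 + (stNL.getD i 0 : ℚ) * (1 / 200)) &&
    decide (expUQ C 12 ≤ stF i)

lemma levelOK_all : ((List.range stQ).all levelOK) = true := by decide +kernel

/-- The product bound for the levels of the staircase. -/
theorem F_level {m : ℕ} [NeZero m] {σ : ℝ} {u : E} {w : Fin m → E} (h : CellData σ u w) (hm : 2 ≤ m)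
    (hs : ∀ l r, l ≠ r → ⟪w l, w r⟫ < 0) (hσw : ∀ l, σ ≤ ‖w l‖) {i : ℕ} (hi : i < stQ) :
    (stdGaussian E).real {x | GG σ w u x < (stT i : ℝ)} ≤
      (stF i : ℝ) * ∏ l, NN.real (Iio ((stT i : ℝ) * (σ / ‖w l‖))) := by
  have hc := (List.all_eq_true.mp levelOK_all) i (List.mem_range.mpr hi)
  simp only [levelOK, Bool.and_eq_true, decide_eq_true_eq] at hc
  obtain ⟨⟨⟨⟨⟨⟨⟨⟨⟨h1, h2⟩, h3⟩, h4⟩, h5⟩, h6⟩, h7⟩, h8⟩, h9⟩, h10⟩ := hc
  set t := stT i with ht
  set C := stCC i with hC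
  set s := stS i with hs'
  have hC0 : (0 : ℚ) ≤ C := by linarith
  have hs0 : (0 : ℚ) ≤ s := by linarith
  have ht0 : (0 : ℚ) ≤ t * s := mul_nonneg h5.le hs0
  have hCR : (2 / 5 : ℝ) ≤ (C : ℝ) := by
    have h3 : ((2 / 5 : ℚ) : ℝ) ≤ (C : ℝ) := Rat.cast_le.mpr h1
    have e : ((2 / 5 : ℚ) : ℝ) = 2 / 5 := by norm_num
    rwa [e] at h3
  have hsR1 : (1 / 2 : ℝ) ≤ (s : ℝ) := by
    have h3' : ((1 / 2 : ℚ) : ℝ) ≤ (s : ℝ) := Rat.cast_le.mpr h3
    have e : ((1 / 2 : ℚ) : ℝ) = 1 / 2 := by norm_num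
    rwa [e] at h3'
  have hsR2 : (s : ℝ) ≤ 1 := by exact_mod_cast h4
  have htR : (0 : ℝ) < (t : ℝ) := by exact_mod_cast h5
  have hn1 : 1 ≤ NN.real (Iio ((t : ℝ) * (s : ℝ))) * rexp ((C : ℝ) * (s : ℝ)) := by
    have a1 := Phi_ge_q ht0 h6 7 10 (by norm_num)
    have a2 := exp_ge_q (x := C * s) (mul_nonneg hC0 hs0) 14
    have a3 : ((1 : ℚ) : ℝ) ≤ (((1 / 2 + phiL (t * s) 10 * serQ (t * s) 7) * expQ (C * s) 14 : ℚ) : ℝ) :=
      by exact_mod_cast h7
    rw [Rat.cast_mul] at a3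
    have a4 : (0 : ℝ) ≤ ((expQ (C * s) 14 : ℚ) : ℝ) := by
      unfold expQ
      push_cast
      exact Finset.sum_nonneg fun j _ => by
        have : (0 : ℝ) ≤ (C : ℝ) * (s : ℝ) := by positivity
        positivity
    have a5 := mul_le_mul a1 a2 a4 (measureReal_nonneg)
    push_cast at a3 a5
    linarith
  have hgrid : ∀ b : ℝ, 0 ≤ b → b ≤ (s : ℝ) → 1 + b ≤ rexp (6 * (C : ℝ) * b) * (1 - b) := by
    intro b hb0 hb1
    apply range_grid h1 (by norm_num : (0 : ℚ) ≤ 1 / 200) _ h8 hb0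
    refine hb1.trans ?_
    have : ((s : ℚ) : ℝ) ≤ ((1 / 2 + (stNL.getD i 0 : ℚ) * (1 / 200) : ℚ) : ℝ) := by exact_mod_cast h9
    push_cast at this ⊢
    exact this
  have hn3 : ∀ b : ℝ, (s : ℝ) ≤ b → b ≤ 1 →
      (1 + b) ^ 2 ≤ rexp (6 * (C : ℝ) * b) * (1 - (s : ℝ) ^ 2) := fun b hb0 hb1 =>
    range_top hCR hsR1 hsR2 (hgrid _ (by linarith) le_rfl) hb0 hb1
  refine F_le_prod_vC (t := (t : ℝ)) (C := (C : ℝ)) h hm hs hσw ?_ ?_
  · intro r β hr hβ0 hβ1 hβr
    exact Phi_betaC htR hr hβ0 hβ1 hβr (by linarith) (by linarith) hn1 hgrid hn3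
  · have a1 := exp_le_q hC0 h2 12 (by norm_num)
    have a2 : ((expUQ C 12 : ℚ) : ℝ) ≤ ((stF i : ℚ) : ℝ) := by exact_mod_cast h10
    exact a1.trans a2

end SD2

end

end Vale.Agent.Lib.P226
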