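import Mathlib
import Vale.Agent.Lib.P226.G23Beta

/-!
Single deletion below 33, second version: the ten step staircase and the deletion.
-/

open MeasureTheory ProbabilityTheory Real Set Filter Topology
open scoped ENNReal NNReal RealInnerProductSpace

namespace Vale.Agent.Lib.P226

set_option linter.unusedSectionVars false

noncomputable section

variable {E : Type*} [NormedAddCommGroup E] [InnerProductSpace ℝ E] [FiniteDimensional ℝ E]
  [MeasurableSpace E] [BorelSpace E]

namespace SD2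

/-- The numerical facts behind the staircase. -/
lemma stair_num : ∀ i, i < stQ →
    hhU (stT i) 12 12 ≤ sumQ i stA + stC * phiL (stT i) 10 := by
  decide +kernel

lemma stair_end : (1 - stC) * (3989422805 / 10000000000) ≤ sumQ stQ stA := by
  decide +kernel

lemma stT_sq (i : ℕ) (hi : i < stQ) : stT i ^ 2 / 2 ≤ 1 := by
  unfold stQ at hi
  interval_cases i <;> norm_num [stT, stTL]

/-- The staircase. -/
theorem HH_stair10 {G : ℝ} (hG : 0 ≤ G) :
    HH G ≤ (stC : ℝ) * phi G +
      ∑ i ∈ Finset.range stQ, (stA i : ℝ) * (if G < (stT i : ℝ) then 1 else 0) := by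
  refine HH_stair_gen (fun i => by exact_mod_cast stA_nonneg i)
    (fun i hi => by exact_mod_cast stT_nonneg i hi) ?_ ?_ ?_ hG
  · intro i hi
    have h1 := HH_le_hhU (stT_nonneg i hi) 12 12 (by norm_num)
    have h2 := stair_num i hi
    have h3 : ((hhU (stT i) 12 12 : ℚ) : ℝ) ≤ ((sumQ i stA + stC * phiL (stT i) 10 : ℚ) : ℝ) := by
      exact_mod_cast h2
    push_cast at h3
    rw [sumQ_cast] at h3
    have h4 := phiL_le (stT_sq i hi) 10 (by norm_num)
    have h5 : (0 : ℝ) ≤ (stC : ℝ) := by norm_num [stC]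
    have h6 := mul_le_mul_of_nonneg_left h4 h5
    linarith
  · norm_num [stC]
  · have h1 : (((1 - stC) * (3989422805 / 10000000000) : ℚ) : ℝ) ≤ ((sumQ stQ stA : ℚ) : ℝ) := by
      exact_mod_cast stair_end
    rw [sumQ_cast] at h1
    push_cast at h1
    have h2 := phi0_lt
    have h3 : (0 : ℝ) ≤ 1 - (stC : ℝ) := by norm_num [stC]
    have h4 := mul_le_mul_of_nonneg_left h2.le h3
    linarith

end SD2

open SD2 in
/-- The single deletion theorem with the ten step staircase and the sharper product bound. -/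
theorem single_delete10 {m : ℕ} [NeZero m] (hm : 2 ≤ m) (T : Fin (m + 1) → E) (hT : Opt T)
    (hV : (5984 / 10000 : ℝ) ≤ VV T) (hT0 : ∀ i, T i ≠ 0)
    (hstrict : ∀ i j, i ≠ j → ⟪T i, T j⟫ < 0)
    (hσw : ∀ l : Fin m, ‖T (Fin.last m)‖ ≤ ‖T l.castSucc‖)
    (hσ1 : ‖T (Fin.last m)‖ ^ 2 * (1 + 1 / (m : ℝ)) < 1)
    (hnum : 2 * ∑ i ∈ Finset.range stQ, ((stF i * stA i : ℚ) : ℝ) * ∏ l : Fin m,
        NN.real (Iio ((stT i : ℝ) * (‖T (Fin.last m)‖ / ‖T l.castSucc‖))) ≤
      (5984 / 10000) * ‖T (Fin.last m)‖ * ((dk (m + 1) : ℚ) : ℝ)) :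
    ∃ T' : Fin m → E, T' ∈ (SS m : Set (Fin m → E)) ∧ VV T ≤ VV T' := by
  have hVpos : 0 < VV T := by linarith
  set σ := ‖T (Fin.last m)‖ with hσdef
  have hσpos : 0 < σ := norm_pos_iff.mpr (hT0 _)
  set u := σ⁻¹ • T (Fin.last m) with hu
  have hTu : σ • u = T (Fin.last m) := by
    rw [hu, smul_smul, mul_inv_cancel₀ hσpos.ne', one_smul]
  set w : Fin m → E := fun l => T l.castSucc with hw
  have hne : ∀ l : Fin m, (l.castSucc : Fin (m + 1)) ≠ Fin.last m := fun l =>
    (Fin.castSucc_lt_last l).ne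
  have hsum : ∑ l, w l + T (Fin.last m) = 0 := by
    have := opt_sum_zero hT hVpos
    rwa [Fin.sum_univ_castSucc] at this
  have hcell : CellData σ u w := by
    refine ⟨hσpos, norm_smul_inv_norm (hT0 _), ?_, ?_, ?_⟩
    · intro l
      rw [hu, inner_smul_right]
      exact mul_nonpos_of_nonneg_of_nonpos (by positivity) (hstrict _ _ (hne l)).le
    · rw [hTu]
      exact hsum
    · intro l r hlr
      exact (hstrict _ _ (fun h => hlr (Fin.castSucc_injective _ h))).le
  have hstrictw : ∀ l r, l ≠ r → ⟪w l, w r⟫ < 0 := fun l r hlr =>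
    hstrict _ _ (fun h => hlr (Fin.castSucc_injective _ h))
  have hDD : DD σ w u = vorCell T (Fin.last m) := by
    ext y
    simp only [DD, vorCell, Set.mem_ofPred_eq, hTu]
    constructor
    · intro h
      refine ⟨fun j => ?_, fun j hj => ?_⟩
      · induction j using Fin.lastCases with
        | last => exact le_rfl
        | cast l => exact (h l).le
      · obtain ⟨l, rfl⟩ := Fin.exists_castSucc_eq.2 hj.ne
        exact h l
    · intro h l
      exact h.2 _ (Fin.castSucc_lt_last l)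
  have hbar : ∀ a : E, ⟪a, u⟫ = 0 → ∫ y in DD σ w u, ⟪a, y⟫ ∂(stdGaussian E) = 0 := by
    intro a ha
    rw [hDD, opt_inner_cell hT hVpos, ← hTu, inner_smul_right, ha]
    ring
  have huu : ⟪u, u⟫ = 1 := inner_u_u hcell
  have hφ : ∫ x, phi (GG σ w u x) ∂(stdGaussian E) = VV T * σ := by
    rw [← integral_DD hcell, hDD, opt_inner_cell hT hVpos, ← hTu, inner_smul_right, huu]
    ring
  have hwne : ∀ l, w l ≠ 0 := fun l => hT0 _
  -- the flux sum
  have hmpos : (0 : ℝ) < m := by
    have : 0 < m := NeZero.pos m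
    exact_mod_cast this
  have hS : ∑ r, cc σ w u r * flux σ w u r ≤ VV T * σ ^ 2 * (1 + 2 / ((m : ℝ) + 1)) := by
    have h1 : ∀ r, cc σ w u r * flux σ w u r = VV T / (m + 1) * cc σ w u r ^ 2 := by
      intro r
      have h2 := flux_eq hcell hbar hstrictw r
      rw [hφ] at h2
      have hne' : ((m : ℝ) + 1) * σ ≠ 0 := by positivity
      have h3 : flux σ w u r = VV T * σ * cc σ w u r / ((m + 1) * σ) := by
        rw [eq_div_iff hne']
        exact h2
      rw [h3]
      field_simp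
    simp_rw [h1]
    rw [← Finset.mul_sum]
    have h2 := sum_cc_sq hcell
    have h3 : VV T / (m + 1) * ∑ r, cc σ w u r ^ 2 ≤ VV T / (m + 1) * ((m + 3) * σ ^ 2) := by
      gcongr
    refine h3.trans (le_of_eq ?_)
    field_simp
    ring
  have hgain := gain_le_stairGen hcell (c := (stC : ℝ)) stQ (fun i => (stA i : ℝ))
    (fun i => (stT i : ℝ)) (fun i => by exact_mod_cast stA_nonneg i) (fun G hG => HH_stair10 hG)
  rw [hTu] at hgain
  set P0 : ℝ := 2 * ∑ i ∈ Finset.range stQ, ((stF i * stA i : ℚ) : ℝ) * ∏ l : Fin m,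
        NN.real (Iio ((stT i : ℝ) * (σ / ‖w l‖))) with hP0
  have hP00 : 0 ≤ P0 := by
    rw [hP0]
    refine mul_nonneg (by norm_num) (Finset.sum_nonneg fun i _ => mul_nonneg ?_ ?_)
    · exact_mod_cast stFA_nonneg i
    · exact Finset.prod_nonneg fun _ _ => measureReal_nonneg
  have hgain2 : 2 * σ * ∑ i ∈ Finset.range stQ, (stA i : ℝ) *
      (stdGaussian E).real {x | GG σ w u x < (stT i : ℝ)} ≤ σ * P0 := by
    rw [hP0]
    have h1 : ∑ i ∈ Finset.range stQ, (stA i : ℝ) *
        (stdGaussian E).real {x | GG σ w u x < (stT i : ℝ)} ≤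
        ∑ i ∈ Finset.range stQ, ((stF i * stA i : ℚ) : ℝ) * ∏ l : Fin m,
          NN.real (Iio ((stT i : ℝ) * (σ / ‖w l‖))) := by
      refine Finset.sum_le_sum fun i hi => ?_
      rw [Finset.mem_range] at hi
      have h2 := F_level hcell hm hstrictw hσw hi
      have h3 : (0 : ℝ) ≤ (stA i : ℝ) := by exact_mod_cast stA_nonneg i
      have h4 := mul_le_mul_of_nonneg_left h2 h3
      refine h4.trans (le_of_eq ?_)
      push_cast
      ring
    have h5 := mul_le_mul_of_nonneg_left h1 (by positivity : 0 ≤ 2 * σ)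
    refine h5.trans (le_of_eq ?_)
    ring
  have hd : ((dk (m + 1) : ℚ) : ℝ) = 1 / 2 * (1 + 1 / (m : ℝ)) -
      (stC : ℝ) * (1 + 2 / ((m : ℝ) + 1)) := by
    unfold dk
    push_cast
    congr 3
    ring
  have hfin := single_real8 (A := ∫ y, max (⟪T (Fin.last m), y⟫ - Vf w y) 0 ∂(stdGaussian E))
    (S := ∑ r, cc σ w u r * flux σ w u r) (σ := σ) (V := VV T) (X := 1 + 2 / ((m : ℝ) + 1))
    (P0 := P0) (d := ((dk (m + 1) : ℚ) : ℝ)) (c := (stC : ℝ)) (Y := 1 / (m : ℝ))
    hσpos hV (by linarith) (by norm_num [stC]) hS hnum hP00 hd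
  exact delete_of_gain' T hT hVpos hσ1 hfin

end

end Vale.Agent.Lib.P226
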