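import Mathlib
import Vale.Agent.Lib.P226.G23Stair
import Vale.Agent.Lib.P226.G23Cert

/-!
The induction step for `k ≥ 15`.
-/

open MeasureTheory ProbabilityTheory Real Set Filter Topology
open scoped ENNReal NNReal RealInnerProductSpace

namespace Vale.Agent.Lib.P226

set_option linter.unusedSectionVars false

noncomputable section

/-- The induction step for `k ≥ 15`: as `step_large`, with `single_delete10` and the class check. -/
theorem step_large15 {k N : ℕ} (hk : 15 ≤ k) (hN : k ≤ N + 1) (IH : ∀ j, j < k → PP j) : PP k := by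
  by_cases hk33 : 33 ≤ k
  · exact step_large hk33 hN IH
  have hk32 : k ≤ 32 := by omega
  apply PP_of_EN hN
  intro _ S hS
  by_contra hcon
  push Not at hcon
  obtain ⟨τ, hτ⟩ := exists_sorted S
  have hopt : Opt (S ∘ τ) := opt_comp_perm hS τ
  have hV : (3 / 4) * √(2 / π) < VV (S ∘ τ) := by
    rw [VV_comp_perm]
    exact hcon
  have hV0 : 0 < VV (S ∘ τ) := lt_of_le_of_lt (by positivity) hV
  generalize S ∘ τ = S' at hopt hV hV0 hτ
  -- a zero vector
  by_cases h0 : ∃ i, S' i = 0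
  · obtain ⟨i, hi⟩ := h0
    obtain ⟨n, rfl⟩ : ∃ n, k = n + 1 := ⟨k - 1, by omega⟩
    have : NeZero n := ⟨by omega⟩
    have hlast : S' (Fin.natAdd n 0) = 0 := by
      have hle : i ≤ Fin.natAdd n 0 := by
        rw [Fin.le_def]
        simp only [Fin.val_natAdd, Fin.val_zero]
        omega
      have h2 := hτ i _ hle
      rw [hi, norm_zero] at h2
      exact norm_le_zero_iff.mp h2
    obtain ⟨T', hT', hle⟩ := zero_delete S' hopt hV0 hlast
    exact contra_of_delete (by omega) IH T' hT' hle hV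
  push Not at h0
  have hρlt : ∀ {i : ℕ} (h : i < k), rhoOf S' i = ‖S' ⟨i, h⟩‖ := fun h => rhoOf_lt S' h
  have hanti : ∀ i, i + 1 < k → rhoOf S' (i + 1) ≤ rhoOf S' i := by
    intro i hi
    rw [hρlt hi, hρlt (by omega : i < k)]
    apply hτ
    rw [Fin.le_def]
    simp
  have hpos : ∀ i, i < k → 0 < rhoOf S' i := by
    intro i hi
    rw [hρlt hi]
    exact norm_pos_iff.mpr (h0 _)
  have hle : ∀ i, i < k → rhoOf S' i ≤ 2 / 3 := by
    intro i hi
    rw [hρlt hi]
    exact norm_le_two_thirds hopt hV _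
  have hsum : ∑ i ∈ Finset.range k, rhoOf S' i ^ 2 = 1 := by
    rw [← opt_sum_sq_eq hopt hV0, Finset.sum_range]
    refine Finset.sum_congr rfl (fun i _ => ?_)
    rw [hρlt i.2]
  -- the criterion
  by_cases hcrit : ∃ j, 3 ≤ j ∧ j < k ∧ PcCrit k (rhoOf S') j
  · obtain ⟨j, hj3, hjk, hc⟩ := hcrit
    obtain ⟨r, rfl⟩ : ∃ r, k = j + r := ⟨k - j, by omega⟩
    have : NeZero j := ⟨by omega⟩
    have : NeZero r := ⟨by omega⟩
    obtain ⟨T', hT', hle'⟩ := delete_of_crit hj3 S' hopt hV hτ hc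
    exact contra_of_delete (by omega) IH T' hT' hle' hV
  push Not at hcrit
  have hprof : SD2.Prof k (rhoOf S') := ⟨by omega, hanti, hpos, hle, hsum⟩
  have hfin := SD2.class_final hk hk32 hprof (fun j h3 hj => hcrit j h3 hj)
  obtain ⟨n, rfl⟩ : ∃ n, k = n + 1 := ⟨k - 1, by omega⟩
  have : NeZero n := ⟨by omega⟩
  -- an orthogonal pair
  by_cases horth : ∃ i j, i ≠ j ∧ ⟪S' i, S' j⟫ = 0
  · obtain ⟨i, j, hij, h00⟩ := horth
    obtain ⟨T', hT', hle'⟩ := merge_step S' hopt hV0 hij h00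
    exact contra_of_delete (by omega) IH T' hT' hle' hV
  push Not at horth
  have hstrict : ∀ i j, i ≠ j → ⟪S' i, S' j⟫ < 0 := fun i j hij =>
    lt_of_le_of_ne (opt_obtuse hopt hV0 hij) (horth i j hij)
  unfold SD2.Final at hfin
  simp only [Nat.add_sub_cancel] at hfin
  have hρlast : rhoOf S' n = ‖S' (Fin.last n)‖ := hρlt (Nat.lt_succ_self n)
  have hρl : ∀ l : Fin n, rhoOf S' l = ‖S' l.castSucc‖ := fun l => hρlt (by omega)
  have hprod : ∀ t : ℝ, ∏ l ∈ Finset.range n, NN.real (Iio (t * (rhoOf S' n / rhoOf S' l))) =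
      ∏ l : Fin n, NN.real (Iio (t * (‖S' (Fin.last n)‖ / ‖S' l.castSucc‖))) := by
    intro t
    rw [Finset.prod_range]
    refine Finset.prod_congr rfl (fun l _ => ?_)
    rw [hρlast, hρl]
  simp_rw [hprod] at hfin
  rw [hρlast] at hfin
  -- the mass of the last vector
  have hσ1 : ‖S' (Fin.last n)‖ ^ 2 * (1 + 1 / (n : ℝ)) < 1 := by
    have hn : (14 : ℝ) ≤ n := by
      have : 14 ≤ n := by omega
      exact_mod_cast this
    have h1 : ∑ i ∈ Finset.range (n + 1), rhoOf S' n ^ 2 ≤ ∑ i ∈ Finset.range (n + 1), rhoOf S' i ^ 2 := by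
      refine Finset.sum_le_sum fun i hi => ?_
      rw [Finset.mem_range] at hi
      have h2 : rhoOf S' n ≤ rhoOf S' i := hprof.mono (by omega) (by omega)
      exact pow_le_pow_left₀ (hpos n (by omega)).le h2 2
    rw [hsum, Finset.sum_const, Finset.card_range, nsmul_eq_mul, hρlast] at h1
    push_cast at h1
    have hnpos : (0 : ℝ) < n := by linarith
    have e : ‖S' (Fin.last n)‖ ^ 2 * (1 + 1 / (n : ℝ)) =
        (((n : ℝ) + 1) * ‖S' (Fin.last n)‖ ^ 2) / n := by
      field_simp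
    rw [e, div_lt_one hnpos]
    linarith
  have hσw : ∀ l : Fin n, ‖S' (Fin.last n)‖ ≤ ‖S' l.castSucc‖ := by
    intro l
    rw [← hρlast, ← hρl]
    exact hprof.sig_le (by omega)
  obtain ⟨T', hT', hle'⟩ :=
    single_delete10 (by omega) S' hopt (five984_le.trans hV.le) h0 hstrict hσw hσ1 hfin
  exact contra_of_delete (by omega) IH T' hT' hle' hV

end

end Vale.Agent.Lib.P226
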