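import Mathlib
import Vale.Agent.Lib.P226.G23Step

/-!
The induction step for `k ≥ 17` (a consequence of the one for `k ≥ 15`).
-/

namespace Vale.Agent.Lib.P226

theorem step_large17 {k N : ℕ} (hk : 17 ≤ k) (hN : k ≤ N + 1) (IH : ∀ j, j < k → PP j) : PP k :=
  step_large15 (by omega) hN IH

end Vale.Agent.Lib.P226
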