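import Mathlib
import Vale.Agent.Lib.P226.G12Prof

/-!
Glue between the lists of tangent lines of a class and `ClassOK`.
-/

open MeasureTheory Real intervalIntegral

namespace Vale.Agent.Lib.P226

/-- The class data from the lines. -/
theorem classOK_of_tan {c : PcClass} {N : ℕ}
    (h : ∀ e ∈ c.tan, TanProp N ((e.1 : ℝ) / 1000000) ((e.2 : ℝ) / 1000000))
    {σ₁ : ℕ} (h0 : (σ₁, 0) ∈ c.tan) (hz : c.lam0 * c.x0 * 1000000 ≤ σ₁ * 1638400)
    (hp : ∀ p ∈ c.pcs, (p.2.1, p.2.2) ∈ c.tan) :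
    ClassOK c N := by
  refine ⟨?_, ?_, hp⟩
  · intro l
    by_cases hl : l < c.tan.length
    · rw [List.getD_eq_getElem _ _ hl]
      exact h _ (List.getElem_mem hl)
    · rw [List.getD_eq_default _ _ (not_lt.mp hl)]
      simpa using tanProp_zero N
  · have h1 := h _ h0
    simp only [Nat.cast_zero, zero_div] at h1
    refine zeroProp_of_tan h1 ?_ (by positivity)
    have h2 : ((c.lam0 * c.x0 * 1000000 : ℕ) : ℝ) ≤ ((σ₁ * 1638400 : ℕ) : ℝ) := by exact_mod_cast hz
    push_cast at h2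
    have e1 : (c.lam0 : ℝ) / 100 * ((c.x0 : ℝ) / 16384) = (c.lam0 * c.x0 * 1000000) / 1638400000000 := by
      ring
    have e2 : (σ₁ : ℝ) / 1000000 = (σ₁ * 1638400) / 1638400000000 := by ring
    rw [e1, e2]
    gcongr

/-- Odd dimension: the list of lines. -/
theorem tan_of_odd {m : ℕ} {data : List (ℕ × ℕ × ℕ)} (h : data.all (oddOK m) = true) :
    ∀ e ∈ data.map (fun e => e.2), TanProp (2 * m + 3) ((e.1 : ℝ) / 1000000) ((e.2 : ℝ) / 1000000) := by
  intro e he
  obtain ⟨d, hd, rfl⟩ := List.mem_map.mp he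
  exact tanProp_odd (List.all_eq_true.mp h d hd)

/-- The chord values of the table. -/
def chVal (tab : List ℕ) (i : ℕ) : ℚ := (tab.getD i 0 : ℚ) / 1000000

/-- Lower sum of the chords from `(200-n)/200` to `1`. -/
def chSum (tab : List ℕ) : ℕ → ℚ
  | 0 => 0
  | n + 1 => chSum tab n + (1 / 200) * ((chVal tab (199 - n) + chVal tab (200 - n)) / 2)

/-- Validity of the table: `h_i² + (i/200)² ≤ 1`. -/
def chOK (tab : List ℕ) : Bool :=
  (List.range 201).all fun i => decide (chVal tab i ^ 2 + ((i : ℚ) / 200) ^ 2 ≤ 1)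

lemma chOK_val {tab : List ℕ} (h : chOK tab = true) {i : ℕ} (hi : i ≤ 200) :
    (chVal tab i : ℝ) ^ 2 + ((i : ℝ) / 200) ^ 2 ≤ 1 := by
  have h1 := List.all_eq_true.mp h i (List.mem_range.mpr (by omega))
  simp only [decide_eq_true_eq] at h1
  have h2 : ((chVal tab i ^ 2 + ((i : ℚ) / 200) ^ 2 : ℚ) : ℝ) ≤ ((1 : ℚ) : ℝ) := by
    exact_mod_cast h1
  push_cast at h2
  exact h2

lemma chVal_nonneg (tab : List ℕ) (i : ℕ) : (0 : ℝ) ≤ (chVal tab i : ℝ) := by
  unfold chVal
  push_cast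
  positivity

/-- The chord sum is a lower bound of the integral. -/
theorem chSum_le {tab : List ℕ} (h : chOK tab = true) :
    ∀ n : ℕ, n ≤ 200 → (chSum tab n : ℝ) ≤ ∫ w in (((200 - n : ℕ) : ℝ) / 200)..1,
      (1 - w ^ 2) ^ ((1 : ℝ) / 2) := by
  intro n
  induction n with
  | zero =>
    intro _
    simp [chSum]
  | succ n ih =>
    intro hn
    have ih' := ih (by omega)
    have hcont : Continuous fun w : ℝ => (1 - w ^ 2) ^ ((1 : ℝ) / 2) := by
      refine Continuous.rpow_const (by fun_prop) (fun _ => Or.inr (by norm_num))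
    set a : ℝ := ((199 - n : ℕ) : ℝ) / 200 with ha
    set b : ℝ := ((200 - n : ℕ) : ℝ) / 200 with hb
    have e0 : 200 - (n + 1) = 199 - n := by omega
    rw [e0]
    have hsplit : ∫ w in a..1, (1 - w ^ 2) ^ ((1 : ℝ) / 2) =
        (∫ w in a..b, (1 - w ^ 2) ^ ((1 : ℝ) / 2)) + ∫ w in b..1, (1 - w ^ 2) ^ ((1 : ℝ) / 2) :=
      (intervalIntegral.integral_add_adjacent_intervals (hcont.intervalIntegrable _ _)
        (hcont.intervalIntegrable _ _)).symm
    rw [hsplit]
    have hab : b - a = 1 / 200 := by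
      have e1 : ((200 - n : ℕ) : ℝ) = ((199 - n : ℕ) : ℝ) + 1 := by
        have : 200 - n = (199 - n) + 1 := by omega
        rw [this]; push_cast; ring
      rw [hb, ha, e1]; ring
    have hc := chord_le (a := a) (b := b) (ha := (chVal tab (199 - n) : ℝ))
      (hb := (chVal tab (200 - n) : ℝ)) (by rw [ha]; positivity) (by linarith)
      (by
        rw [hb, div_le_one (by norm_num)]
        have : ((200 - n : ℕ) : ℝ) ≤ ((200 : ℕ) : ℝ) := by
          exact_mod_cast Nat.sub_le _ _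
        simpa using this)
      (chVal_nonneg _ _) (chVal_nonneg _ _) (chOK_val h (by omega)) (chOK_val h (by omega))
    have e2 : ((chSum tab (n + 1) : ℚ) : ℝ) = (chSum tab n : ℝ) +
        (1 / 200) * (((chVal tab (199 - n) : ℝ) + (chVal tab (200 - n) : ℝ)) / 2) := by
      simp only [chSum]
      push_cast
      ring
    rw [e2]
    have e3 : (b - a) * ((chVal tab (199 - n) : ℝ) + (chVal tab (200 - n) : ℝ)) / 2 =
        (1 / 200) * (((chVal tab (199 - n) : ℝ) + (chVal tab (200 - n) : ℝ)) / 2) := by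
      rw [hab]; ring
    rw [e3] at hc
    linarith

/-- Check of one line in even dimension; `t = n/1000`, `n` a multiple of 5. -/
def evenLineOK (tab : List ℕ) (m : ℕ) (e : ℕ × ℕ × ℕ) : Bool :=
  if e.1 = 1000 then
    decide (e.2.2 = 0) && decide ((e.2.1 : ℚ) / 1000000 * ((2 * (m : ℚ) + 3) * cE m * (31416 / 10000)) ≤ 3 / 2)
  else
    decide (e.1 % 5 = 0) && decide (e.1 < 1000) &&
      evenOK m ((e.1 : ℚ) / 1000) (((tab.getD (e.1 / 5) 0 : ℚ) + 1) / 1000000)
        (chSum tab (200 - e.1 / 5)) e.2.1 e.2.2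

/-- Soundness of one even line. -/
theorem tan_of_evenLine {tab : List ℕ} (htab : chOK tab = true) {m : ℕ} {e : ℕ × ℕ × ℕ}
    (h : evenLineOK tab m e = true) :
    TanProp (2 * m + 4) ((e.2.1 : ℝ) / 1000000) ((e.2.2 : ℝ) / 1000000) := by
  unfold evenLineOK at h
  split_ifs at h with h1
  · simp only [Bool.and_eq_true, decide_eq_true_eq] at h
    obtain ⟨h2, h3⟩ := h
    rw [h2]
    simpa using tanProp_even_one h3
  · simp only [Bool.and_eq_true, decide_eq_true_eq] at h
    obtain ⟨⟨h2, h3⟩, h4⟩ := h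
    refine tanProp_even h4 ?_
    have h5 : e.1 / 5 ≤ 200 := by omega
    have h6 := chSum_le htab (200 - e.1 / 5) (by omega)
    have e1 : 200 - (200 - e.1 / 5) = e.1 / 5 := by omega
    rw [e1] at h6
    have e2 : (((e.1 : ℚ) / 1000 : ℚ) : ℝ) = ((e.1 / 5 : ℕ) : ℝ) / 200 := by
      obtain ⟨q, hq⟩ : 5 ∣ e.1 := Nat.dvd_of_mod_eq_zero h2
      rw [hq, Nat.mul_div_cancel_left _ (by norm_num : 0 < 5)]
      push_cast
      ring
    rw [e2]
    exact h6

/-- Even dimension: the list of lines. -/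
theorem tan_of_even {tab : List ℕ} (htab : chOK tab = true) {m : ℕ} {data : List (ℕ × ℕ × ℕ)}
    (h : data.all (evenLineOK tab m) = true) :
    ∀ e ∈ data.map (fun e => e.2), TanProp (2 * m + 4) ((e.1 : ℝ) / 1000000) ((e.2 : ℝ) / 1000000) := by
  intro e he
  obtain ⟨d, hd, rfl⟩ := List.mem_map.mp he
  exact tan_of_evenLine htab (List.all_eq_true.mp h d hd)

end Vale.Agent.Lib.P226
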