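import Mathlib
import Vale.Agent.Lib.P226.G14Main
import Vale.Agent.Lib.P226.C4
import Vale.Agent.Lib.P226.C5

open MeasureTheory ProbabilityTheory Real

namespace Vale.Agent.Lib.P226

theorem PP_four : PP 4 :=
  step_four C4.cls C4.tree (by decide) C4.classOK C4.valid C4.check
    (fun j hj => PP_le_three (by omega))

theorem PP_five : PP 5 :=
  step_of_class (N := 4) (by norm_num) (by norm_num) C5.cls C5.tree (by decide) C5.classOK C5.valid
    C5.check (fun j hj => by
      rcases Nat.lt_or_ge j 4 with h | h
      · exact PP_le_three (by omega)
      · have : j = 4 := by omega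
        rw [this]; exact PP_four)

theorem PP_le_five {k : ℕ} (hk : k ≤ 5) : PP k := by
  rcases Nat.lt_or_ge k 4 with h | h
  · exact PP_le_three (by omega)
  · rcases Nat.lt_or_ge k 5 with h' | h'
    · have : k = 4 := by omega
      rw [this]; exact PP_four
    · have : k = 5 := by omega
      rw [this]; exact PP_five

end Vale.Agent.Lib.P226
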