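import Mathlib
import Vale.Agent.Lib.P226.GFive
import Vale.Agent.Lib.P226.C6
import Vale.Agent.Lib.P226.C7
import Vale.Agent.Lib.P226.C8
import Vale.Agent.Lib.P226.C9
import Vale.Agent.Lib.P226.C10
import Vale.Agent.Lib.P226.C11
import Vale.Agent.Lib.P226.C13
import Vale.Agent.Lib.P226.G23Step

open MeasureTheory ProbabilityTheory Real

namespace Vale.Agent.Lib.P226

/-- All numbers of vectors. -/
theorem PP_all : ∀ k, PP k := by
  intro k
  induction k using Nat.strong_induction_on with
  | _ k IH =>
    rcases Nat.lt_or_ge k 6 with h | h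
    · exact PP_le_five (by omega)
    rcases Nat.lt_or_ge k 7 with h7 | h7
    · exact step_of_class (N := 5) (by omega) (by omega) C6.cls C6.tree ((by decide : C6.cls.K0 ≤ 6).trans h) C6.classOK C6.valid C6.check IH
    rcases Nat.lt_or_ge k 8 with h8 | h8
    · exact step_of_class (N := 6) (by omega) (by omega) C7.cls C7.tree ((by decide : C7.cls.K0 ≤ 7).trans h7) C7.classOK C7.valid C7.check IH
    rcases Nat.lt_or_ge k 9 with h9 | h9
    · exact step_of_class (N := 7) (by omega) (by omega) C8.cls C8.tree ((by decide : C8.cls.K0 ≤ 8).trans h8) C8.classOK C8.valid C8.check IH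
    rcases Nat.lt_or_ge k 10 with h10 | h10
    · exact step_of_class (N := 8) (by omega) (by omega) C9.cls C9.tree ((by decide : C9.cls.K0 ≤ 9).trans h9) C9.classOK C9.valid C9.check IH
    rcases Nat.lt_or_ge k 11 with h11 | h11
    · exact step_of_class (N := 9) (by omega) (by omega) C10.cls C10.tree ((by decide : C10.cls.K0 ≤ 10).trans h10) C10.classOK C10.valid C10.check IH
    rcases Nat.lt_or_ge k 13 with h13 | h13
    · exact step_of_class (N := 11) (by omega) (by omega) C11.cls C11.tree ((by decide : C11.cls.K0 ≤ 11).trans h11) C11.classOK C11.valid C11.check IH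
    rcases Nat.lt_or_ge k 15 with h15 | h15
    · exact step_of_class (N := 13) (by omega) (by omega) C13.cls C13.tree ((by decide : C13.cls.K0 ≤ 13).trans h13) C13.classOK C13.valid C13.check IH
    · exact step_large15 (N := k) h15 (by omega) IH

end Vale.Agent.Lib.P226
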